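import Crest.Agent.X326.A.Perm
import Crest.Agent.X326.TC.MergeSpec
import Crest.Agent.X326.TC.MapAccum
import Crest.Agent.X326.TC.ListLin

-- ▼ part X326/A/Free
section

/-!
Row 326 (S0503), part M2: gathers and free address operations on flat lists (pure part).

* `ColMono K n len col src` : `src` is monotone on each of `K` colour classes (the condition under
  which a gather is linear time, see `A/FreeTC.lean`);
* `IdxPerm n σ`   : `σ` permutes `0, …, n-1`;
* index maps `addIdx`, `rotIdx`, `mulIdx`, `divIdx`, `cplIdx`, `negIdx`, `revIdx` acting on the digit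
  of weight `w` and range `q`.
-/

set_option autoImplicit false

namespace Crest.Agent.X326.A

section gat

variable {α β : Type}

/-- `src` is monotone on each of the `K` colour classes (entries out of range are ignored) -/
structure ColMono (K n len : ℕ) (col src : ℕ → ℕ) : Prop where
  col_lt : ∀ j, j < n → src j < len → col j < K
  mono : ∀ j j', j < j' → j' < n → src j < len → src j' < len → col j = col j' → src j ≤ src j'

/-- `σ` permutes the indices below `n` -/
structure IdxPerm (n : ℕ) (σ : ℕ → ℕ) : Prop where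
  lt : ∀ j, j < n → σ j < n
  inj : ∀ j j', j < n → j' < n → σ j = σ j' → j = j'

theorem ColMono.of_le {K K' n len : ℕ} {col src : ℕ → ℕ} (h : ColMono K n len col src)
    (hK : K ≤ K') : ColMono K' n len col src :=
  ⟨fun j h1 h2 => (h.col_lt j h1 h2).trans_le hK, h.mono⟩

theorem ColMono.congr {K n len : ℕ} {col src src' : ℕ → ℕ} (h : ColMono K n len col src)
    (e : ∀ j, j < n → src j = src' j) : ColMono K n len col src' :=
  ⟨fun j h1 h2 => h.col_lt j h1 (by rwa [e j h1]), fun j j' h1 h2 h3 h4 h5 => by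
    rw [← e j (h1.trans h2)] at h3 ⊢
    rw [← e j' h2] at h4 ⊢
    exact h.mono j j' h1 h2 h3 h4 h5⟩

/-- a monotone gather needs one colour -/
theorem colMono_one {n len : ℕ} {src : ℕ → ℕ}
    (h : ∀ j j', j < j' → j' < n → src j < len → src j' < len → src j ≤ src j') :
    ColMono 1 n len (fun _ => 0) src :=
  ⟨fun _ _ _ => Nat.one_pos, fun j j' h1 h2 h3 h4 _ => h j j' h1 h2 h3 h4⟩

theorem IdxPerm.id (n : ℕ) : IdxPerm n (fun j => j) := ⟨fun _ h => h, fun _ _ _ _ h => h⟩

theorem IdxPerm.comp {n : ℕ} {σ τ : ℕ → ℕ} (hσ : IdxPerm n σ) (hτ : IdxPerm n τ) :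
    IdxPerm n (fun j => σ (τ j)) :=
  ⟨fun j h => hσ.lt _ (hτ.lt j h),
    fun j j' h h' e => hτ.inj j j' h h' (hσ.inj _ _ (hτ.lt j h) (hτ.lt j' h') e)⟩

theorem IdxPerm.congr {n : ℕ} {σ τ : ℕ → ℕ} (hσ : IdxPerm n σ) (h : ∀ j, j < n → σ j = τ j) :
    IdxPerm n τ :=
  ⟨fun j hj => h j hj ▸ hσ.lt j hj,
    fun j j' hj hj' e => hσ.inj j j' hj hj' (by rw [h j hj, h j' hj', e])⟩

theorem IdxPerm.map_range_perm {n : ℕ} {σ : ℕ → ℕ} (hσ : IdxPerm n σ) :
    ((List.range n).map σ).Perm (List.range n) := by
  have hnd : ((List.range n).map σ).Nodup :=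
    (List.nodup_range).map_on fun j hj j' hj' e =>
      hσ.inj j j' (List.mem_range.1 hj) (List.mem_range.1 hj') e
  refine (List.subperm_of_subset hnd fun a ha => ?_).perm_of_length_le (by simp)
  obtain ⟨j, hj, rfl⟩ := List.mem_map.1 ha
  exact List.mem_range.2 (hσ.lt j (List.mem_range.1 hj))


/-- pulling back along a permutation of the indices permutes the list -/
theorem IdxPerm.perm (d : α) {σ : ℕ → ℕ} {l : List α} (hσ : IdxPerm l.length σ) :
    (A.perm d σ l).Perm l := by
  have h := hσ.map_range_perm.map (fun j => l.getD j d)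
  rw [List.map_map] at h
  have e : (List.range l.length).map (fun j => l.getD j d) = l := perm_id d l
  rw [e] at h
  exact h


end gat

/-! ### explicit three-field indices -/

section mk

variable {Q Z p y z : ℕ}

theorem mk_div (hy : y < Q) (hz : z < Z) : ((p * Q + y) * Z + z) / (Z * Q) = p := by
  have h1 : (p * Q + y) * Z + z = Z * Q * p + (y * Z + z) := by ring
  have h2 : y * Z + z < Z * Q := by nlinarith
  rw [h1, Nat.mul_add_div (by omega), Nat.div_eq_of_lt h2, add_zero]

theorem mk_mod (hz : z < Z) : ((p * Q + y) * Z + z) % Z = z := by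
  rw [Nat.mul_comm, Nat.mul_add_mod, Nat.mod_eq_of_lt hz]

theorem dig_mk (hy : y < Q) (hz : z < Z) : dig Z Q ((p * Q + y) * Z + z) = y := by
  rw [dig, Nat.mul_comm, Nat.mul_add_div (by omega), Nat.div_eq_of_lt hz, add_zero,
    Nat.mul_comm, Nat.mul_add_mod, Nat.mod_eq_of_lt hy]

theorem setDig_mk (hy : y < Q) (hz : z < Z) (v : ℕ) :
    setDig Z Q ((p * Q + y) * Z + z) v = (p * Q + v) * Z + z := by
  rw [setDig, mk_div hy hz, mk_mod hz]
  ring


theorem eq_mk (Q Z j : ℕ) : j = (j / (Z * Q) * Q + dig Z Q j) * Z + j % Z := by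
  have := setDig_self Z Q j
  unfold setDig at this
  nlinarith

end mk

/-! ### maps of one digit -/

section digit

/-- add `off j` to the digit, modulo `q` -/
def addIdx (w q : ℕ) (off : ℕ → ℕ) (j : ℕ) : ℕ := setDig w q j ((dig w q j + off j) % q)

/-- rotate the digit by an offset read off the earlier fields -/
def rotIdx (w q : ℕ) (δ : ℕ → ℕ) (j : ℕ) : ℕ := addIdx w q (fun j => δ (j / (w * q))) j

/-- multiply the digit by `b`, modulo `q` -/
def mulIdx (w q b j : ℕ) : ℕ := setDig w q j (b * dig w q j % q)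

/-- divide the digit by `b`, modulo `q ≡ 1 (mod b)` -/
def divIdx (w q b j : ℕ) : ℕ := setDig w q j (divN q b (dig w q j))

/-- complement `y ↦ q - 1 - y` of the digit -/
def cplIdx (w q j : ℕ) : ℕ := setDig w q j (q - 1 - dig w q j)

/-- negation of the digit modulo `q` -/
def negIdx (w q j : ℕ) : ℕ := setDig w q j ((q - dig w q j) % q)

/-- reversal inside the blocks of length `B` -/
def revIdx (B j : ℕ) : ℕ := j / B * B + (B - 1 - j % B)

variable {w q n len K : ℕ}

theorem idxPerm_setDig {f : ℕ → ℕ} (hw : 0 < w) (hn : w * q ∣ n) (hf : ∀ j, f j < q)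
    (hinj : ∀ j j', j / (w * q) = j' / (w * q) → j % w = j' % w → f j = f j' →
      dig w q j = dig w q j') : IdxPerm n (fun j => setDig w q j (f j)) := by
  refine ⟨fun j hj => setDig_lt hw (hf j) hn hj, fun j j' _ _ e => ?_⟩
  have e1 : j / (w * q) = j' / (w * q) := by
    rw [← setDig_div hw (hf j), ← setDig_div (j := j') hw (hf j')]
    exact congrArg (· / (w * q)) e
  have e2 : j % w = j' % w := by
    rw [← setDig_mod w q j (f j), ← setDig_mod w q j' (f j')]
    exact congrArg (· % w) e
  have e3 : f j = f j' := by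
    rw [← dig_setDig (j := j) hw (hf j), ← dig_setDig (j := j') hw (hf j')]
    exact congrArg (dig w q) e
  exact idx_ext w q e1 (hinj j j' e1 e2 e3) e2

theorem colMono_setDig {f col : ℕ → ℕ} (hw : 0 < w) (hf : ∀ j, f j < q) (hc : ∀ j, col j < K)
    (h1 : ∀ j j', col j = col j' → j / (w * q) = j' / (w * q) → dig w q j < dig w q j' →
      f j < f j')
    (h2 : ∀ j j', col j = col j' → j / (w * q) = j' / (w * q) → dig w q j = dig w q j' →
      f j = f j') : ColMono K n len col (fun j => setDig w q j (f j)) :=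
  ⟨fun j _ _ => hc j, fun j j' hj _ _ _ e =>
    (setDig_lt_setDig hw (hf j) hj (h1 j j' e) (h2 j j' e)).le⟩

theorem add_mod_inj {a b c : ℕ} (ha : a < q) (hb : b < q) (h : (a + c) % q = (b + c) % q) :
    a = b := by
  have := Nat.ModEq.add_right_cancel' c h
  rwa [Nat.ModEq, Nat.mod_eq_of_lt ha, Nat.mod_eq_of_lt hb] at this

theorem mod_lt_mod_of_div_eq {a b : ℕ} (h : a < b) (e : a / q = b / q) : a % q < b % q := by
  have h1 := Nat.div_add_mod a q
  have h2 := Nat.div_add_mod b q
  rw [e] at h1
  omega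

/-- an addition whose offset does not depend on the digit itself is a permutation -/
theorem idxPerm_addIdx {off : ℕ → ℕ} (hw : 0 < w) (hq : 0 < q) (hn : w * q ∣ n)
    (hoff : ∀ j j', j / (w * q) = j' / (w * q) → j % w = j' % w → off j = off j') :
    IdxPerm n (addIdx w q off) :=
  idxPerm_setDig hw hn (fun _ => Nat.mod_lt _ hq) fun j j' e1 e2 e3 =>
    add_mod_inj (dig_lt hq) (dig_lt hq) (by rw [e3, hoff j j' e1 e2])

/-- colour of an addition: `c0 j` (which together with the earlier fields determines the offset)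
and the carry -/
def addCol (w q : ℕ) (off c0 : ℕ → ℕ) (j : ℕ) : ℕ := 2 * c0 j + (dig w q j + off j % q) / q

theorem colMono_addIdx {off c0 : ℕ → ℕ} (hw : 0 < w) (hq : 0 < q) (hc : ∀ j, c0 j < K)
    (hoff : ∀ j j', c0 j = c0 j' → j / (w * q) = j' / (w * q) → off j = off j') :
    ColMono (2 * K) n len (addCol w q off c0) (addIdx w q off) := by
  have hcar : ∀ j, (dig w q j + off j % q) / q < 2 := fun j => by
    have h1 : dig w q j < q := dig_lt hq
    have h2 : off j % q < q := Nat.mod_lt _ hq
    rw [Nat.div_lt_iff_lt_mul hq]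
    omega
  have key : ∀ j j', addCol w q off c0 j = addCol w q off c0 j' → c0 j = c0 j' ∧
      (dig w q j + off j % q) / q = (dig w q j' + off j' % q) / q := fun j j' e => by
    have h1 := hcar j
    have h2 := hcar j'
    unfold addCol at e
    generalize (dig w q j + off j % q) / q = a at *
    generalize (dig w q j' + off j' % q) / q = b at *
    omega
  refine colMono_setDig hw (fun _ => Nat.mod_lt _ hq) (fun j => ?_) (fun j j' e e1 e2 => ?_)
    (fun j j' e e1 e2 => ?_)
  · have h1 := hcar j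
    have h2 := hc j
    unfold addCol
    omega
  · obtain ⟨a, b⟩ := key j j' e
    rw [← Nat.add_mod_mod, ← Nat.add_mod_mod (dig w q j')]
    refine mod_lt_mod_of_div_eq ?_ b
    rw [hoff j j' a e1]
    omega
  · rw [e2, hoff j j' (key j j' e).1 e1]

theorem idxPerm_rotIdx (δ : ℕ → ℕ) (hw : 0 < w) (hq : 0 < q) (hn : w * q ∣ n) :
    IdxPerm n (rotIdx w q δ) :=
  idxPerm_addIdx hw hq hn fun j j' e _ => by simp only [e]

theorem colMono_rotIdx (δ : ℕ → ℕ) (hw : 0 < w) (hq : 0 < q) :
    ColMono 2 n len (addCol w q (fun j => δ (j / (w * q))) fun _ => 0) (rotIdx w q δ) :=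
  colMono_addIdx (K := 1) hw hq (fun _ => Nat.one_pos) fun j j' _ e => by simp only [e]


theorem mul_mod_inj {a a' b : ℕ} (hb : Nat.Coprime q b) (ha : a < q) (ha' : a' < q)
    (h : b * a % q = b * a' % q) : a = a' := by
  have := Nat.ModEq.cancel_left_of_coprime hb h
  rwa [Nat.ModEq, Nat.mod_eq_of_lt ha, Nat.mod_eq_of_lt ha'] at this

theorem idxPerm_mulIdx {b : ℕ} (hw : 0 < w) (hq : 0 < q) (hb : Nat.Coprime q b)
    (hn : w * q ∣ n) : IdxPerm n (mulIdx w q b) :=
  idxPerm_setDig hw hn (fun _ => Nat.mod_lt _ hq) fun _ _ _ _ e =>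
    mul_mod_inj hb (dig_lt hq) (dig_lt hq) e

theorem mul_div_lt {b a : ℕ} (hb : 0 < b) (ha : a < q) : b * a / q < b := by
  rw [Nat.div_lt_iff_lt_mul (by omega)]
  exact Nat.mul_lt_mul_of_pos_left ha hb

theorem colMono_mulIdx {b : ℕ} (hw : 0 < w) (hq : 0 < q) (hb : 0 < b) :
    ColMono b n len (fun j => b * dig w q j / q) (mulIdx w q b) :=
  colMono_setDig hw (fun _ => Nat.mod_lt _ hq) (fun _ => mul_div_lt hb (dig_lt hq))
    (fun _ _ e _ h => mod_lt_mod_of_div_eq (Nat.mul_lt_mul_of_pos_left h hb) e)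
    (fun _ _ _ _ h => by rw [h])

theorem divN_inj {b x y : ℕ} (hb : 0 < b) (hqb : q ≡ 1 [MOD b]) (hx : x < q) (hy : y < q)
    (h : divN q b x = divN q b y) : x = y := by
  have h1 := divN_spec (x := x) hb hqb
  have h2 := divN_spec (x := y) hb hqb
  have h3 : (x + (b - x % b) % b * q) % q = (y + (b - y % b) % b * q) % q := by
    rw [← h1, ← h2, h]
  rwa [Nat.add_mul_mod_self_right, Nat.add_mul_mod_self_right, Nat.mod_eq_of_lt hx,
    Nat.mod_eq_of_lt hy] at h3

theorem idxPerm_divIdx {b : ℕ} (hw : 0 < w) (hq : 0 < q) (hb0 : 0 < b) (hb : q ≡ 1 [MOD b])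
    (hn : w * q ∣ n) : IdxPerm n (divIdx w q b) :=
  idxPerm_setDig hw hn (fun _ => divN_lt hb0 (dig_lt hq)) fun _ _ _ _ e =>
    divN_inj hb0 hb (dig_lt hq) (dig_lt hq) e

theorem colMono_divIdx {b : ℕ} (hw : 0 < w) (hq : 0 < q) (hb0 : 0 < b) (hb : q ≡ 1 [MOD b]) :
    ColMono b n len (fun j => dig w q j % b) (divIdx w q b) :=
  colMono_setDig hw (fun _ => divN_lt hb0 (dig_lt hq)) (fun _ => Nat.mod_lt _ hb0)
    (fun _ _ e _ h => divN_lt_divN hb0 hb h e) (fun _ _ _ _ h => by rw [h])

theorem idxPerm_cplIdx (hw : 0 < w) (hq : 0 < q) (hn : w * q ∣ n) : IdxPerm n (cplIdx w q) :=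
  idxPerm_setDig hw hn (fun _ => by omega) fun j j' _ _ e => by
    have h1 : dig w q j < q := dig_lt hq
    have h2 : dig w q j' < q := dig_lt hq
    omega

theorem setDig_setDig {j u v : ℕ} (hw : 0 < w) (hu : u < q) :
    setDig w q (setDig w q j u) v = setDig w q j v := by
  rw [setDig, setDig_div hw hu, setDig_mod, setDig]

theorem negIdx_eq (hw : 0 < w) (hq : 0 < q) (j : ℕ) :
    negIdx w q j = rotIdx w q (fun _ => 1) (cplIdx w q j) := by
  have h1 : dig w q j < q := dig_lt hq
  have h2 : q - 1 - dig w q j < q := by omega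
  simp only [rotIdx, addIdx, cplIdx, negIdx]
  rw [setDig_setDig hw h2, dig_setDig hw h2, show q - 1 - dig w q j + 1 = q - dig w q j by omega]


theorem revIdx_eq_cpl (B j : ℕ) : revIdx B j = cplIdx 1 B j := by
  simp [revIdx, cplIdx, setDig, dig, Nat.mod_one]

theorem idxPerm_revIdx {B : ℕ} (hB : 0 < B) (hn : B ∣ n) : IdxPerm n (revIdx B) :=
  (idxPerm_cplIdx Nat.one_pos hB (by simpa using hn)).congr fun j _ => (revIdx_eq_cpl B j).symm

theorem revIdx_mk {B p y : ℕ} (hy : y < B) : revIdx B (p * B + y) = p * B + (B - 1 - y) := by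
  rw [revIdx, Nat.mul_comm p, Nat.mul_add_div (by omega), Nat.div_eq_of_lt hy, Nat.mul_add_mod,
    Nat.mod_eq_of_lt hy, add_zero, Nat.mul_comm]

/-- the complement of a digit is the composite of two block reversals -/
theorem cplIdx_eq_rev (hw : 0 < w) (hq : 0 < q) (j : ℕ) :
    cplIdx w q j = revIdx (w * q) (revIdx w j) := by
  have hy : dig w q j < q := dig_lt hq
  have hz : j % w < w := Nat.mod_lt _ hw
  have e := eq_mk q w j
  generalize j / (w * q) = p at e
  generalize dig w q j = y at e hy
  generalize j % w = z at e hz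
  subst e
  have h2 : y * w + (w - 1 - z) < w * q := by
    have : (y + 1) * w ≤ q * w := Nat.mul_le_mul_right _ hy
    rw [Nat.add_mul, Nat.mul_comm q] at this
    omega
  rw [cplIdx, dig_mk hy hz, setDig_mk hy hz, revIdx_mk hz,
    show (p * q + y) * w + (w - 1 - z) = p * (w * q) + (y * w + (w - 1 - z)) by ring,
    revIdx_mk h2]
  obtain ⟨c, rfl⟩ : ∃ c, q = y + 1 + c := ⟨q - (y + 1), by omega⟩
  obtain ⟨e, rfl⟩ : ∃ e, w = z + 1 + e := ⟨w - (z + 1), by omega⟩
  have a1 : y + 1 + c - 1 - y = c := by omega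
  have a2 : z + 1 + e - 1 - z = e := by omega
  have a3 : (z + 1 + e) * (y + 1 + c) = (y * (z + 1 + e) + e) + 1 + (c * (z + 1 + e) + z) := by ring
  rw [a1, a2]
  have a4 : (z + 1 + e) * (y + 1 + c) - 1 - (y * (z + 1 + e) + e) = c * (z + 1 + e) + z := by omega
  rw [a4]
  ring


end digit

/-! ### interchange of small fields, padding and cutting -/

section more

variable {q wH wD n len K B B' : ℕ}

theorem Geo.idxPerm_swapIdx (g : Geo q wH wD n) : IdxPerm n (swapIdx q wH wD) := by
  refine ⟨fun j hj => g.swapIdx_lt hj, fun j j' _ _ e => ?_⟩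
  have e0 : wD * q * (wH / (wD * q)) = wH := Nat.mul_div_cancel' g.h1
  refine idx_ext₂ q wH wD g.h1 ?_ ?_ ?_ ?_ ?_
  · rw [← swapIdx_div g.hq g.hD g.hH g.h1, e, swapIdx_div g.hq g.hD g.hH g.h1]
  · rw [← dig_swapIdx_D g.hq g.hD g.h1, e, dig_swapIdx_D g.hq g.hD g.h1]
  · rw [← dig_swapIdx_mid (wH := wH) g.hq g.hD dvd_rfl (by rw [e0]), e,
      dig_swapIdx_mid g.hq g.hD dvd_rfl (by rw [e0])]
  · rw [← dig_swapIdx_H (wD := wD) g.hq g.hH, e, dig_swapIdx_H g.hq g.hH]
  · rw [← swapIdx_mod g.h1, e, swapIdx_mod g.h1]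

theorem colMono_swapIdx (hq : 0 < q) (hD : 0 < wD) (h : wD * q ∣ wH) (hK : q ≤ K) :
    ColMono (K * K) n len (fun j => dig wH q j * K + dig wD q j) (swapIdx q wH wD) := by
  refine ⟨fun j _ _ => ?_, fun j j' hj _ _ _ e => ?_⟩
  · have h1 : dig wH q j + 1 ≤ K := (dig_lt hq).trans_le hK
    have h2 : dig wD q j < K := (dig_lt hq).trans_le hK
    have h3 := Nat.mul_le_mul_right K h1
    rw [Nat.add_mul] at h3
    omega
  · have h2 : dig wD q j < K := (dig_lt hq).trans_le hK
    have h3 : dig wD q j' < K := (dig_lt hq).trans_le hK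
    have e1 : dig wD q j = dig wD q j' := by
      have := congrArg (· % K) e
      simpa [Nat.mul_add_mod_of_lt, Nat.mod_eq_of_lt h2, Nat.mod_eq_of_lt h3] using this
    have e2 : dig wH q j = dig wH q j' := by
      rw [e1] at e
      exact Nat.eq_of_mul_eq_mul_right (by omega) (Nat.add_right_cancel e)
    exact (swapIdx_lt_swapIdx hq hD h hj e2 e1).le

/-- changing the block size is strictly monotone on the positions that fit into both sizes -/
theorem reblock_lt {j j' : ℕ} (hj : j < j') (h1 : j % B < B') :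
    j / B * B' + j % B < j' / B * B' + j' % B := by
  rcases (Nat.div_le_div_right (c := B) hj.le).lt_or_eq with hlt | heq
  · have := Nat.mul_le_mul_right B' (Nat.succ_le_of_lt hlt)
    rw [Nat.succ_mul] at this
    omega
  · have := mod_lt_mod_of_div_eq hj heq
    rw [heq]
    omega


theorem colMono_pad : ColMono 1 n len (fun _ => 0)
    (fun j => if j % B' < B then j / B' * B + j % B' else len) :=
  colMono_one fun j j' hj _ h1 h2 => by
    by_cases a1 : j % B' < B
    · by_cases a2 : j' % B' < B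
      · simp only [if_pos a1, if_pos a2]
        exact (reblock_lt hj a1).le
      · simp [a2] at h2
    · simp [a1] at h1

theorem colMono_cut (hB : 0 < B) (h : B ≤ B') : ColMono 1 n len (fun _ => 0) (reblock B B') :=
  colMono_one fun j _ hj _ _ _ => (reblock_lt hj ((Nat.mod_lt j hB).trans_le h)).le

end more

end Crest.Agent.X326.A
end

-- ▼ part X326/A/GathTC

/-!
Row 326 (S0503), part M2: the coloured gather in the time calculus.

* `tc_ticks` : iterate a polynomial-time step on a small state, collecting its outputs;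
* `tc_tab`   : the table `(range n).map (g c)` of a polynomial-time function;
* `tc_gath`  : `gath n (src c) d l` when `src c` is monotone on each of `K` colour classes.
-/

set_option autoImplicit false

namespace Crest.Agent.X326.A

open Crest.Agent.Lib.PT

/-- the per-record overhead: `n` records, descriptors of size `s`, exponent `k` -/
def ovh (k n s : ℕ) : ℕ := n * (s + 1) ^ k

theorem ovh_mono {k k' n n' s s' : ℕ} (hk : k ≤ k') (hn : n ≤ n') (hs : s ≤ s') :
    ovh k n s ≤ ovh k' n' s' :=
  Nat.mul_le_mul hn ((Nat.pow_le_pow_left (by omega) k).trans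
    (Nat.pow_le_pow_right (by omega) hk))

theorem le_ovh (k n s : ℕ) : n ≤ ovh k n s :=
  Nat.le_mul_of_pos_right _ (by positivity)

/-- a linear change of the descriptor size and of the number of records -/
theorem ovh_le_mul (a b c k : ℕ) {n n' s s' : ℕ} (hn : n ≤ a * n') (hs : s ≤ b * s' + c) :
    ovh k n s ≤ a * (b + c + 1) ^ k * ovh k n' s' := by
  have h1 : s + 1 ≤ (b + c + 1) * (s' + 1) := by nlinarith
  have h2 := Nat.pow_le_pow_left h1 k
  rw [mul_pow] at h2
  calc ovh k n s ≤ (a * n') * ((b + c + 1) ^ k * (s' + 1) ^ k) := Nat.mul_le_mul hn h2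
    _ = a * (b + c + 1) ^ k * ovh k n' s' := by unfold ovh; ring

theorem Bud.ovh_of_le {ι : Type} [PTCode ι] {P : ι → Prop} {T : ι → ℕ} {k k' : ℕ}
    {n n' s s' : ι → ℕ} (h : Bud P T fun x => ovh k' (n' x) (s' x)) (a b c : ℕ) (hk : k ≤ k')
    (hn : ∀ x, P x → n x ≤ a * n' x) (hs : ∀ x, P x → 0 < n x → s x ≤ b * s' x + c) :
    Bud P T fun x => ovh k (n x) (s x) := by
  refine (h.const_mul (a * (b + c + 1) ^ k')).mono fun x hx => ?_
  rcases Nat.eq_zero_or_pos (n x) with h0 | h0
  · simp [ovh, h0]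
  · exact (ovh_mono hk le_rfl le_rfl).trans (ovh_le_mul a b c k' (hn x hx) (hs x hx h0))

theorem sz_perm {α : Type} [PTCode α] {l l' : List α} (h : l.Perm l') : sz l = sz l' := by
  rw [sz_list, sz_list]
  exact (h.map _).sum_eq

theorem sz_sublist {α : Type} [PTCode α] {l l' : List α} (h : l.Sublist l') : sz l ≤ sz l' := by
  rw [sz_list, sz_list]
  exact (h.map _).sum_le_sum (fun _ _ => Nat.zero_le _)



/-- iterate a polynomial-time step `t` times on a state of size at most `B` -/
theorem tc_ticks {σ β : Type} [PTCode σ] [PTCode β] {f : σ × Unit → σ × List β} (hf : PTF f) :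
    ∃ k : ℕ, ∀ {ι : Type} [PTCode ι] {P : ι → Prop} {T : ι → ℕ} {s : ι → σ} {t B : ι → ℕ}
      (I : ι → σ → ℕ → Prop), TC P T s → TU P T t → (∀ x, P x → I x (s x) (t x)) →
      (∀ x, P x → ∀ st r, I x st (r + 1) → sz st ≤ B x ∧ I x (f (st, ())).1 r) →
      Bud P T (fun x => ovh k (t x) (B x)) →
      TC P T (fun x => accumL f (s x) (List.replicate (t x) ())) := by
  obtain ⟨k, hk⟩ := exists_tc_of_ptf hf
  refine ⟨k + 1, fun {ι} _ {P T s t B} I hs ht h0 hI hB => ?_⟩
  refine hk.accumL_inv hs ht.units (fun x st r => I x st r.length)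
    (fun x _ => (2 ^ k + 1) * (B x + 1) ^ (k + 1)) (fun x hx => by simpa using h0 x hx)
    (fun x hx st a r h => ?_) ((hB.const_mul (2 ^ k + 1)).mono fun x _ => ?_)
  · obtain ⟨h1, h2⟩ := hI x hx st r.length h
    refine ⟨trivial, ?_, h2⟩
    have e : sz (st, a) + 1 ≤ 2 * (B x + 1) := by simp only [sz_prod, sz_unit]; omega
    have h3 := Nat.pow_le_pow_left e k
    rw [mul_pow] at h3
    have h4 : (B x + 1) ^ k ≤ (B x + 1) ^ (k + 1) := Nat.pow_le_pow_right (by omega) (by omega)
    have h5 : B x + 1 ≤ (B x + 1) ^ (k + 1) := Nat.le_self_pow (by omega) _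
    have h6 := Nat.mul_le_mul_left (2 ^ k) h4
    rw [add_mul, one_mul]
    omega
  · simp only [List.map_replicate, List.sum_replicate, smul_eq_mul, ovh]
    exact le_of_eq (by ring)

theorem accumL_tab {γ β : Type} (g : γ → ℕ → β) (c : γ) (j t : ℕ) :
    accumL (fun p : (γ × ℕ) × Unit => ((p.1.1, p.1.2 + 1), [g p.1.1 p.1.2])) (c, j)
      (List.replicate t ()) = ((c, j + t), (List.range' j t).map (g c)) := by
  induction t generalizing j with
  | zero => rfl
  | succ t ih =>
    rw [List.replicate_succ, accumL_cons, ih, List.range'_succ]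
    simp [add_assoc, add_comm 1 t]

/-- the table of a polynomial-time function, and the length in binary -/
theorem tc_tab' {γ β : Type} [PTCode γ] [PTCode β] {g : γ → ℕ → β} (hg : PTF₂ g) :
    ∃ k : ℕ, ∀ {ι : Type} [PTCode ι] {P : ι → Prop} {T : ι → ℕ} {c : ι → γ} {n : ι → ℕ},
      TC P T c → TU P T n → Bud P T (fun x => ovh k (n x) (sz (c x) + Nat.size (n x))) →
      TC P T (fun x => (n x, (List.range (n x)).map (g (c x)))) := by
  have hf : PTF (fun p : (γ × ℕ) × Unit => ((p.1.1, p.1.2 + 1), [g p.1.1 p.1.2])) := by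
    have h1 : PTF (fun p : (γ × ℕ) × Unit => g p.1.1 p.1.2) :=
      PTF.comp₂ hg (by fun_prop) (by fun_prop)
    fun_prop
  obtain ⟨k, hk⟩ := tc_ticks hf
  refine ⟨k, fun {ι} _ {P T c n} hc hn hB => ?_⟩
  have h := hk (s := fun x => (c x, 0)) (t := n) (B := fun x => 2 * sz (c x) + 1 + Nat.size (n x))
    (fun x st r => st.1 = c x ∧ st.2 + r = n x) (hc.prodMk (TC.const 0)) hn
    (fun x _ => by simp) (fun x _ st r h => ?_)
    (Bud.ovh_of_le hB 1 2 1 le_rfl (fun x _ => by simp) (fun x _ _ => by omega))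
  · exact (h.fst.snd.prodMk h.snd).of_eq fun x => by
      rw [accumL_tab, List.range_eq_range', zero_add]
  · refine ⟨?_, h.1, by simp only; omega⟩
    have : Nat.size st.2 ≤ Nat.size (n x) := Nat.size_le_size (by omega)
    rw [sz_prod, h.1, sz_nat]
    omega

/-- the table of a polynomial-time function -/
theorem tc_tab {γ β : Type} [PTCode γ] [PTCode β] {g : γ → ℕ → β} (hg : PTF₂ g) :
    ∃ k : ℕ, ∀ {ι : Type} [PTCode ι] {P : ι → Prop} {T : ι → ℕ} {c : ι → γ} {n : ι → ℕ},
      TC P T c → TU P T n → Bud P T (fun x => ovh k (n x) (sz (c x) + Nat.size (n x))) →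
      TC P T (fun x => (List.range (n x)).map (g (c x))) := by
  obtain ⟨k, hk⟩ := tc_tab' hg
  exact ⟨k, fun hc hn hB => (hk hc hn hB).snd⟩

/-- unary to binary, with the crude cost `ovh` -/
theorem tc_bin : ∃ k : ℕ, ∀ {ι : Type} [PTCode ι] {P : ι → Prop} {T : ι → ℕ} {n : ι → ℕ},
    TU P T n → Bud P T (fun x => ovh k (n x) (Nat.size (n x))) → TC P T n := by
  obtain ⟨k, hk⟩ := tc_tab' (g := fun (_ : Unit) (_ : ℕ) => ()) (by pt_prop)
  exact ⟨k, fun hn hB => (hk (TC.const ()) hn (by simpa using hB)).fst⟩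


/-! ### one colour class -/

/-- one step of the two-pointer scan; state `(c, n, j, cur)` -/
def scanStep {γ : Type} (sel : γ → ℕ → Bool) (src : γ → ℕ → ℕ)
    (p : (γ × ℕ × ℕ × ℕ) × Unit) : (γ × ℕ × ℕ × ℕ) × List Bool :=
  if p.1.2.1 ≤ p.1.2.2.1 then (p.1, [])
  else if sel p.1.1 p.1.2.2.1 = true then
    if p.1.2.2.2 < src p.1.1 p.1.2.2.1 then
      ((p.1.1, p.1.2.1, p.1.2.2.1, p.1.2.2.2 + 1), [false])
    else ((p.1.1, p.1.2.1, p.1.2.2.1 + 1, p.1.2.2.2), [true])
  else ((p.1.1, p.1.2.1, p.1.2.2.1 + 1, p.1.2.2.2), [])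

theorem walk_scan {γ α : Type} (sel : γ → ℕ → Bool) (src : γ → ℕ → ℕ) (c : γ) (n : ℕ) (d : α)
    (l : List α) (hlt : ∀ j, j < n → sel c j = true → src c j < l.length)
    (hmono : ∀ j j', j < j' → j' < n → sel c j = true → sel c j' = true → src c j ≤ src c j')
    (t j cur : ℕ) (ht : (n - j) + (l.length - cur) ≤ t)
    (hcur : ∀ j', j ≤ j' → j' < n → sel c j' = true → cur ≤ src c j') :
    walk (accumL (scanStep sel src) (c, n, j, cur) (List.replicate t ())).2 (l.drop cur) =
      ((List.range' j (n - j)).filter (sel c)).map fun i => l.getD (src c i) d := by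
  induction t generalizing j cur with
  | zero =>
    have : n - j = 0 := by omega
    simp [this, walk]
  | succ t ih =>
    rw [List.replicate_succ, accumL_cons]
    by_cases hj : n ≤ j
    · have e : scanStep sel src ((c, n, j, cur), ()) = ((c, n, j, cur), []) := by
        simp [scanStep, hj]
      have h0 : n - j = 0 := by omega
      have key : ∀ t, (accumL (scanStep sel src) (c, n, j, cur) (List.replicate t ())).2 = [] := by
        intro t
        induction t with
        | zero => rfl
        | succ t ih => rw [List.replicate_succ, accumL_cons, e]; simpa using ih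
      rw [e, key]
      simp [h0, walk]
    · have hn : n - j = (n - (j + 1)) + 1 := by omega
      by_cases hs : sel c j = true
      · have h1 := hlt j (by omega) hs
        have h2 := hcur j le_rfl (by omega) hs
        by_cases hc : cur < src c j
        · have e : scanStep sel src ((c, n, j, cur), ()) = ((c, n, j, cur + 1), [false]) := by
            simp [scanStep, hj, hs, hc]
          rw [e, List.singleton_append, walk, List.tail_drop]
          refine ih j (cur + 1) (by omega) fun j' a1 a2 a3 => ?_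
          rcases a1.lt_or_eq with a1 | rfl
          · have := hmono j j' a1 a2 hs a3
            omega
          · omega
        · have e : scanStep sel src ((c, n, j, cur), ()) = ((c, n, j + 1, cur), [true]) := by
            simp [scanStep, hj, hs, hc]
          have e2 : cur = src c j := by omega
          rw [e, List.singleton_append, walk,
            ih (j + 1) cur (by omega) fun j' a1 a2 a3 => hcur j' (by omega) a2 a3, hn,
            List.range'_succ, List.filter_cons_of_pos hs, List.map_cons, e2,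
            List.drop_eq_getElem_cons h1, List.getD_eq_getElem _ _ h1]
          rfl
      · have e : scanStep sel src ((c, n, j, cur), ()) = ((c, n, j + 1, cur), []) := by
          simp [scanStep, hj, hs]
        rw [e, List.nil_append,
          ih (j + 1) cur (by omega) fun j' a1 a2 a3 => hcur j' (by omega) a2 a3, hn,
          List.range'_succ, List.filter_cons_of_neg hs]

/-- the selected entries of a gather that is monotone on the selected positions -/
theorem tc_sel {γ : Type} [PTCode γ] {sel : γ → ℕ → Bool} {src : γ → ℕ → ℕ} (hsel : PTF₂ sel)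
    (hsrc : PTF₂ src) :
    ∃ k : ℕ, ∀ {ι α : Type} [PTCode ι] [PTCode α] {P : ι → Prop} {T : ι → ℕ} {c : ι → γ}
      {n : ι → ℕ} (d : ι → α) {l : ι → List α}, TC P T c → TU P T n → TC P T n → TC P T l →
      (∀ x, P x → ∀ j, j < n x → sel (c x) j = true → src (c x) j < (l x).length) →
      (∀ x, P x → ∀ j j', j < j' → j' < n x → sel (c x) j = true → sel (c x) j' = true →
        src (c x) j ≤ src (c x) j') →
      Bud P T (fun x => ovh k (n x + (l x).length)
        (sz (c x) + Nat.size (n x + (l x).length))) →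
      Bud P T (fun x => sz (((List.range (n x)).filter (sel (c x))).map
        fun i => (l x).getD (src (c x) i) (d x))) →
      TC P T (fun x => ((List.range (n x)).filter (sel (c x))).map
        fun i => (l x).getD (src (c x) i) (d x)) := by
  have hf : PTF (scanStep sel src) := by
    have h1 : PTF (fun p : (γ × ℕ × ℕ × ℕ) × Unit => sel p.1.1 p.1.2.2.1) :=
      PTF.comp₂ hsel (by fun_prop) (by fun_prop)
    have h2 : PTF (fun p : (γ × ℕ × ℕ × ℕ) × Unit => src p.1.1 p.1.2.2.1) :=
      PTF.comp₂ hsrc (by fun_prop) (by fun_prop)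
    unfold scanStep
    refine PTF.ite (PTPred.natLe (by fun_prop) (by fun_prop)) (by fun_prop) (PTF.ite h1.toPTPred
      (PTF.ite (PTPred.natLt (by fun_prop) h2) (by fun_prop) (by fun_prop)) (by fun_prop))
  obtain ⟨k, hk⟩ := tc_ticks hf
  refine ⟨k, fun {ι α} _ _ {P T c n} d {l} hc hn hn' hl hlt hmono hB ho => ?_⟩
  have e : ∀ x, P x → walk (accumL (scanStep sel src) (c x, n x, 0, 0)
      (List.replicate (n x + (l x).length) ())).2 (l x) =
      ((List.range (n x)).filter (sel (c x))).map fun i => (l x).getD (src (c x) i) (d x) :=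
    fun x hx => by
      have := walk_scan sel src (c x) (n x) (d x) (l x) (hlt x hx) (hmono x hx)
        (n x + (l x).length) 0 0 (by omega) (fun _ _ _ _ => Nat.zero_le _)
      rwa [List.drop_zero, Nat.sub_zero, ← List.range_eq_range'] at this
  have h := hk (s := fun x => (c x, n x, 0, 0)) (t := fun x => n x + (l x).length)
    (B := fun x => 5 * (sz (c x) + Nat.size (n x + (l x).length)) + 3)
    (fun x st r => st.1 = c x ∧ st.2.1 = n x ∧ st.2.2.1 + st.2.2.2 + r ≤ n x + (l x).length)
    (hc.prodMk (hn'.prodMk (TC.const _))) (hn.add (TU.length hl)) (fun x _ => by simp)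
    (fun x _ st r h => ?_)
    (Bud.ovh_of_le hB 1 5 3 le_rfl (fun x _ => by simp) (fun x _ _ => by omega))
  · exact (TC.walk h.snd hl (ho.mono fun x hx => by rw [e x hx])).congr e
  · obtain ⟨c', n', j, cur⟩ := st
    obtain ⟨h1, h2, h3⟩ := h
    simp only at h1 h2 h3
    subst h1 h2
    constructor
    · have a1 : Nat.size (n x) ≤ Nat.size (n x + (l x).length) := Nat.size_le_size (by omega)
      have a2 : Nat.size j ≤ Nat.size (n x + (l x).length) := Nat.size_le_size (by omega)
      have a3 : Nat.size cur ≤ Nat.size (n x + (l x).length) := Nat.size_le_size (by omega)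
      simp only [sz_prod, sz_nat]
      omega
    · unfold scanStep
      split_ifs <;> refine ⟨rfl, rfl, ?_⟩ <;> simp only <;> omega

/-! ### all colour classes -/

/-- the gather restricted to the colours below `κ` -/
def gathUpTo {α : Type} (κ n : ℕ) (col src : ℕ → ℕ) (d : α) (l : List α) : List α :=
  (List.range n).map fun j => if col j < κ ∧ src j < l.length then l.getD (src j) d else d

theorem gathUpTo_succ {α : Type} (κ n : ℕ) (col src : ℕ → ℕ) (d : α) (l : List α) :
    gathUpTo (κ + 1) n col src d l =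
      mergeBy ((List.range n).map fun j => decide (col j = κ ∧ src j < l.length))
        (((List.range n).filter fun j => decide (col j = κ ∧ src j < l.length)).map
          fun i => l.getD (src i) d)
        (filterBy ((List.range n).map fun j => !decide (col j = κ ∧ src j < l.length))
          (gathUpTo κ n col src d l)) := by
  rw [gathUpTo, gathUpTo, filterBy_map, mergeBy_map]
  refine List.map_congr_left fun j _ => ?_
  by_cases h1 : src j < l.length
  · by_cases h2 : col j = κ
    · simp [h1, h2]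
    · have : col j < κ + 1 ↔ col j < κ := by omega
      simp [h1, h2, this]
  · simp [h1]

/-- **coloured gather**: `K` passes; the cost is the overhead, the default records and the size of
the result -/
theorem tc_gath {γ : Type} [PTCode γ] {col src : γ → ℕ → ℕ} (hcol : PTF₂ col) (hsrc : PTF₂ src) :
    ∃ k : ℕ, ∀ (K : ℕ) {ι α : Type} [PTCode ι] [PTCode α] {P : ι → Prop} {T : ι → ℕ} {c : ι → γ}
      {n : ι → ℕ} {d : ι → α} {l : ι → List α}, TC P T c → TU P T n → TC P T d → TC P T l →
      (∀ x, P x → ColMono K (n x) (l x).length (col (c x)) (src (c x))) →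
      Bud P T (fun x => ovh k (n x + (l x).length)
        (sz (c x) + Nat.size (n x + (l x).length))) →
      Bud P T (fun x => n x * sz (d x)) →
      Bud P T (fun x => sz (gath (n x) (src (c x)) (d x) (l x))) →
      TC P T (fun x => gath (n x) (src (c x)) (d x) (l x)) := by
  have hsel : PTF₂ (fun (c : γ × ℕ × ℕ) (j : ℕ) =>
      decide (col c.1 j = c.2.1 ∧ src c.1 j < c.2.2)) := by
    have h1 : PTF (fun p : (γ × ℕ × ℕ) × ℕ => col p.1.1 p.2) :=
      PTF.comp₂ hcol (by fun_prop) (by fun_prop)
    have h2 : PTF (fun p : (γ × ℕ × ℕ) × ℕ => src p.1.1 p.2) :=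
      PTF.comp₂ hsrc (by fun_prop) (by fun_prop)
    exact PTPred.toPTF ((PTPred.eq h1 (by fun_prop)).and (PTPred.natLt h2 (by fun_prop)))
  have hsrc' : PTF₂ (fun (c : γ × ℕ × ℕ) (j : ℕ) => src c.1 j) :=
    PTF.comp₂ hsrc (by fun_prop) (by fun_prop)
  obtain ⟨k0, hk0⟩ := tc_bin
  obtain ⟨k1, hk1⟩ := tc_sel hsel hsrc'
  obtain ⟨k2, hk2⟩ := tc_tab hsel
  obtain ⟨k3, hk3⟩ := tc_tab (g := fun (c : γ × ℕ × ℕ) (j : ℕ) =>
      !decide (col c.1 j = c.2.1 ∧ src c.1 j < c.2.2)) (PTF.not hsel)
  refine ⟨k0 + k1 + k2 + k3, fun K {ι α} _ _ {P T c n d l} hc hn hd hl hm hB hdB ho => ?_⟩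
  have s1 : ∀ x, Nat.size (n x) ≤ Nat.size (n x + (l x).length) := fun x =>
    Nat.size_le_size (by omega)
  have s2 : ∀ x, Nat.size (l x).length ≤ Nat.size (n x + (l x).length) := fun x =>
    Nat.size_le_size (by omega)
  have hn' : TC P T n := hk0 hn (Bud.ovh_of_le hB 1 1 0 (by omega) (fun x _ => by omega)
    (fun x _ _ => by have := s1 x; omega))
  have hlen : TC P T (fun x => (l x).length) := hk0 (TU.length hl)
    (Bud.ovh_of_le hB 1 1 0 (by omega) (fun x _ => by omega)
      (fun x _ _ => by have := s2 x; omega))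
  have key : ∀ κ, TC P T (fun x => gathUpTo κ (n x) (col (c x)) (src (c x)) (d x) (l x)) := by
    intro κ
    induction κ with
    | zero => exact (TC.replicate hn hd hdB).of_eq fun x => by simp [gathUpTo]
    | succ κ ih =>
      have hc' : TC P T (fun x => (c x, κ, (l x).length)) := hc.prodMk ((TC.const κ).prodMk hlen)
      have hsz : ∀ x, sz (c x, κ, (l x).length) ≤
          2 * (sz (c x) + Nat.size (n x + (l x).length)) + (2 * Nat.size κ + 2) := fun x => by
        have := s2 x
        simp only [sz_prod, sz_nat]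
        omega
      have a1 := hk1 d hc' hn hn' hl (fun x _ j _ h => (of_decide_eq_true h).2)
        (fun x hx j j' h1 h2 h3 h4 => (hm x hx).mono j j' h1 h2 (of_decide_eq_true h3).2
          (of_decide_eq_true h4).2 ((of_decide_eq_true h3).1.trans (of_decide_eq_true h4).1.symm))
        (Bud.ovh_of_le hB 1 3 (2 * Nat.size κ + 2) (by omega) (fun x _ => by omega)
          (fun x _ _ => by have := hsz x; omega))
        (ho.mono fun x _ => sz_sublist (List.filter_sublist.map _))
      have a2 := hk2 hc' hn (Bud.ovh_of_le hB 1 3 (2 * Nat.size κ + 2) (by omega)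
        (fun x _ => by omega) (fun x _ _ => by have := hsz x; have := s1 x; omega))
      have a3 := hk3 hc' hn (Bud.ovh_of_le hB 1 3 (2 * Nat.size κ + 2) (by omega)
        (fun x _ => by omega) (fun x _ _ => by have := hsz x; have := s1 x; omega))
      exact (TC.mergeBy a2 a1 (TC.filterBy a3 ih)).of_eq fun x => (gathUpTo_succ ..).symm
  refine (key K).congr fun x hx => List.map_congr_left fun j hj => ?_
  by_cases h : src (c x) j < (l x).length
  · rw [if_pos ⟨(hm x hx).col_lt j (List.mem_range.1 hj) h, h⟩]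
  · rw [if_neg fun h' => h h'.2, List.getD_eq_default _ _ (by omega)]


/-- **coloured permutation** of a list, fixed default record -/
theorem tc_perm {γ : Type} [PTCode γ] {col src : γ → ℕ → ℕ} (hcol : PTF₂ col) (hsrc : PTF₂ src) :
    ∃ k : ℕ, ∀ (K : ℕ) {ι α : Type} [PTCode ι] [PTCode α] {P : ι → Prop} {T : ι → ℕ} {c : ι → γ}
      (d : α) {l : ι → List α}, TC P T c → TC P T l →
      (∀ x, P x → ColMono K (l x).length (l x).length (col (c x)) (src (c x)) ∧
        IdxPerm (l x).length (src (c x))) →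
      Bud P T (fun x => ovh k (l x).length (sz (c x) + Nat.size (l x).length)) →
      TC P T (fun x => perm d (src (c x)) (l x)) := by
  obtain ⟨k, hk⟩ := tc_gath hcol hsrc
  refine ⟨k, fun K {ι α} _ _ {P T c} d {l} hc hl hm hB => ?_⟩
  refine hk K hc (TU.length hl) (TC.const d) hl (fun x hx => (hm x hx).1)
    (Bud.ovh_of_le hB 2 1 1 le_rfl (fun x _ => by omega) fun x _ _ => ?_)
    ((TU.length hl).bud.mul_const _)
    (hl.sz.mono fun x hx => (sz_perm ((hm x hx).2.perm d)).le)
  have : Nat.size ((l x).length + (l x).length) ≤ Nat.size (l x).length + 1 := by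
    rw [Nat.size_le, pow_succ]
    have := Nat.lt_size_self (l x).length
    omega
  omega

end Crest.Agent.X326.A
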