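import Crest.Agent.X326.A.Perm

/-!
Row 326 (S0503), part M2: the list-level algorithm of one recursion step and its correctness.

Records are bit lists of a common width.  One step cuts every record in `W` pieces, runs the
field-level program on the `W` streams and glues the records together again.
-/

set_option autoImplicit false

namespace Crest.Agent.X326.A

/-- records -/
abbrev Rec : Type := List Bool

/-- arrays of records -/
abbrev Arr : Type := List Rec

/-- bitwise sum of two arrays -/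
def xorL (s t : Arr) : Arr := List.zipWith (List.zipWith xor) s t

/-- piece number `w` (of width `z`) of every record -/
def splitS (z w : ℕ) (l : Arr) : Arr := l.map fun r => (r.drop (w * z)).take z

/-- the `W` streams of an array -/
def splitW (W z : ℕ) (l : Arr) : List Arr := (List.range W).map fun w => splitS z w l

/-- glue the records of the streams with the listed numbers -/
def joinS (ws : List Arr) : List ℕ → Arr
  | [] => (ws.getD 0 []).map fun _ => []
  | w :: L => List.zipWith (· ++ ·) (ws.getD w []) (joinS ws L)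

/-- `n` records of width `z` -/
def Shape (n z : ℕ) (l : Arr) : Prop := l.length = n ∧ ∀ r ∈ l, r.length = z

/-- `W` streams of `n` records of width `z` -/
def WS (W n z : ℕ) (ws : List Arr) : Prop := ws.length = W ∧ ∀ s ∈ ws, Shape n z s

/-- list-level semantics of one instruction -/
def execL {W m : ℕ} (q wH wD : ℕ) (ws : List Arr) : Ins W m → List Arr
  | .xor w w' => ws.set w (xorL (ws.getD w []) (ws.getD w' []))
  | .free w op => ws.set w (perm [] (opIdx q wH wD op) (ws.getD w []))
  | .call w i j => ws.set w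
      (swapL [] q (wt (m := m) q wH wD (.inl i)) (wt (m := m) q wH wD (.inr j)) (ws.getD w []))

/-- a record as a vector over `ZMod 2` -/
def toVec (r : Rec) : ℕ → ZMod 2 := fun b => if r.getD b false then 1 else 0

section

variable {W m q wH wD n z Den : ℕ}

theorem toVec_xor {r r' : Rec} (h : r.length = r'.length) :
    toVec (List.zipWith xor r r') = toVec r + toVec r' := by
  funext b
  simp only [toVec, Pi.add_apply, List.getD_eq_getElem?_getD, List.getElem?_zipWith]
  by_cases hb : b < r.length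
  · rw [List.getElem?_eq_getElem hb, List.getElem?_eq_getElem (h ▸ hb)]
    cases r[b] <;> cases r'[b] <;> simp
    rfl
  · rw [List.getElem?_eq_none (by omega), List.getElem?_eq_none (by omega)]
    simp

theorem toVec_inj {r r' : Rec} (h : r.length = r'.length) (e : toVec r = toVec r') : r = r' := by
  refine ext_getD false h fun j _ => ?_
  have := congrFun e j
  simp only [toVec] at this
  revert this
  cases r.getD j false <;> cases r'.getD j false <;> simp

theorem Shape.getD {l : Arr} (h : Shape n z l) {j : ℕ} (hj : j < n) : (l.getD j []).length = z :=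
  h.2 _ (getD_mem_of_lt _ (h.1 ▸ hj))

theorem WS.getD {ws : List Arr} (h : WS W n z ws) {w : ℕ} (hw : w < W) :
    Shape n z (ws.getD w []) := h.2 _ (getD_mem_of_lt _ (h.1 ▸ hw))

theorem WS.set {ws : List Arr} (h : WS W n z ws) (w : ℕ) {s : Arr} (hs : Shape n z s) :
    WS W n z (ws.set w s) :=
  ⟨by simpa using h.1, fun t ht => (List.mem_or_eq_of_mem_set ht).elim (h.2 t) (fun e => e ▸ hs)⟩

theorem getD_xorL {s t : Arr} (hs : s.length = n) (ht : t.length = n) {j : ℕ} (hj : j < n) :
    (xorL s t).getD j [] = List.zipWith xor (s.getD j []) (t.getD j []) := by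
  simp [xorL, List.getD_eq_getElem?_getD, List.getElem?_zipWith,
    List.getElem?_eq_getElem (hs ▸ hj), List.getElem?_eq_getElem (ht ▸ hj)]

theorem Shape.xorL {s t : Arr} (hs : Shape n z s) (ht : Shape n z t) : Shape n z (xorL s t) := by
  have hl : (A.xorL s t).length = n := by simp [A.xorL, hs.1, ht.1]
  refine ⟨hl, fun r hr => ?_⟩
  obtain ⟨j, hj, rfl⟩ := List.getElem_of_mem hr
  rw [← List.getD_eq_getElem _ [] hj, getD_xorL hs.1 ht.1 (hl ▸ hj), List.length_zipWith,
    hs.getD (hl ▸ hj), ht.getD (hl ▸ hj), min_self]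

theorem Shape.perm {l : Arr} (h : Shape n z l) {σ : ℕ → ℕ} (hσ : ∀ j < n, σ j < n) :
    Shape n z (perm [] σ l) :=
  ⟨by simpa using h.1, fun r hr => h.2 r (mem_perm (by rw [h.1]; exact hσ) hr)⟩

theorem Shape.swapL {l : Arr} {Q : ℕ} (h : Shape n z l) (g : Geo Q wH wD n) :
    Shape n z (swapL [] Q wH wD l) := h.perm fun _ hj => g.swapIdx_lt hj

theorem WS.execL {ws : List Arr} (h : WS W n z ws) (hq : 0 < q) (g : Geo (q ^ m) wH wD n)
    (hDen : 0 < Den) (hqD : q ≡ 1 [MOD Den]) (ins : Ins W m) (hins : ins.ok Den) :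
    WS W n z (execL q wH wD ws ins) := by
  rcases ins with ⟨w, w'⟩ | ⟨w, op⟩ | ⟨w, i, j⟩
  · exact h.set w ((h.getD w.2).xorL (h.getD w'.2))
  · exact h.set w ((h.getD w.2).perm fun _ hj => opIdx_lt hq g hDen hqD op hins hj)
  · exact h.set w ((h.getD w.2).swapL (g.child hq i j))

theorem WS.foldl (hq : 0 < q) (g : Geo (q ^ m) wH wD n) (hDen : 0 < Den)
    (hqD : q ≡ 1 [MOD Den]) : ∀ (P : List (Ins W m)) (_ : ∀ ins ∈ P, ins.ok Den) {ws : List Arr},
    WS W n z ws → WS W n z (P.foldl (A.execL q wH wD) ws)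
  | [], _, _, h => h
  | ins :: P, hP, _, h =>
    WS.foldl hq g hDen hqD P (fun i hi => hP i (List.mem_cons_of_mem _ hi))
      (h.execL hq g hDen hqD ins (hP ins List.mem_cons_self))

/-- the array `l` represents the function `F` on addresses -/
def Rep (m q wH wD n : ℕ) (l : Arr) (F : Addr m q → ℕ × ℕ × ℕ → ℕ → ZMod 2) : Prop :=
  ∀ j < n, toVec (l.getD j []) = F (addrOf m q wH wD j) (restOf (q ^ m) wH wD j)

theorem exists_rep (hq : 0 < q) (g : Geo (q ^ m) wH wD n) (l : Arr) :
    ∃ F, Rep m q wH wD n l F := by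
  classical
  refine ⟨fun a r => if h : ∃ j, addrOf m q wH wD j = a ∧ restOf (q ^ m) wH wD j = r then
    toVec (l.getD h.choose []) else 0, fun j _ => ?_⟩
  have h : ∃ j', addrOf m q wH wD j' = addrOf m q wH wD j ∧
      restOf (q ^ m) wH wD j' = restOf (q ^ m) wH wD j := ⟨j, rfl, rfl⟩
  simp only [dif_pos h]
  rw [idx_eq_of_addr hq g.h1 h.choose_spec.1 h.choose_spec.2]

theorem Rep.perm {l : Arr} {F : Addr m q → ℕ × ℕ × ℕ → ℕ → ZMod 2} (h : Rep m q wH wD n l F)
    (hl : l.length = n) {σ : ℕ → ℕ} {π : Addr m q → Addr m q} (h1 : ∀ j < n, σ j < n)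
    (h2 : ∀ j, addrOf m q wH wD (σ j) = π (addrOf m q wH wD j))
    (h3 : ∀ j, restOf (q ^ m) wH wD (σ j) = restOf (q ^ m) wH wD j) :
    Rep m q wH wD n (perm [] σ l) (F ∘ π) := fun j hj => by
  rw [getD_perm _ _ _ _ (hl ▸ hj), h _ (h1 j hj), h2, h3]
  rfl

theorem rep_execL {ws : List Arr} (h : WS W n z ws) (hq : 0 < q) (g : Geo (q ^ m) wH wD n)
    (hDen : 0 < Den) (hqD : q ≡ 1 [MOD Den]) (ins : Ins W m) (hins : ins.ok Den)
    {x : Fin W → Addr m q → ℕ × ℕ × ℕ → ℕ → ZMod 2}
    (hx : ∀ w : Fin W, Rep m q wH wD n (ws.getD w []) (x w)) (w : Fin W) :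
    Rep m q wH wD n ((execL q wH wD ws ins).getD w []) (Ins.exec q x ins w) := by
  have key : ∀ (u : Fin W) (s : Arr) (F : Addr m q → ℕ × ℕ × ℕ → ℕ → ZMod 2),
      Rep m q wH wD n s F →
      Rep m q wH wD n ((ws.set u s).getD w []) (Function.update x u F w) := by
    intro u s F hF
    by_cases e : w = u
    · subst e
      have hw : (w : ℕ) < ws.length := h.1 ▸ w.2
      rw [Function.update_self]
      simpa [List.getD_eq_getElem?_getD, hw] using hF
    · have e' : (u : ℕ) ≠ w := fun c => e (Fin.ext c.symm)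
      rw [Function.update_of_ne e]
      simpa [List.getD_eq_getElem?_getD, List.getElem?_set_ne e'] using hx w
  rcases ins with ⟨u, u'⟩ | ⟨u, op⟩ | ⟨u, i, j⟩
  · refine key u _ _ fun j hj => ?_
    rw [getD_xorL (h.getD u.2).1 (h.getD u'.2).1 hj,
      toVec_xor (by rw [(h.getD u.2).getD hj, (h.getD u'.2).getD hj]), hx u j hj, hx u' j hj]
    rfl
  · exact key u _ _ ((hx u).perm (h.getD u.2).1 (fun _ hj => opIdx_lt hq g hDen hqD op hins hj)
      (addrOf_opIdx hq g hDen hqD op hins) (restOf_opIdx hq g hDen hqD op hins))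
  · exact key u _ _ ((hx u).perm (h.getD u.2).1 (fun _ hj => (g.child hq i j).swapIdx_lt hj)
      (addrOf_swapIdx_child hq g i j) (restOf_swapIdx_child hq g i j))

theorem rep_foldl (hq : 0 < q) (g : Geo (q ^ m) wH wD n) (hDen : 0 < Den)
    (hqD : q ≡ 1 [MOD Den]) : ∀ (P : List (Ins W m)) (_ : ∀ ins ∈ P, ins.ok Den) {ws : List Arr}
    {x : Fin W → Addr m q → ℕ × ℕ × ℕ → ℕ → ZMod 2}, WS W n z ws →
    (∀ w : Fin W, Rep m q wH wD n (ws.getD w []) (x w)) → ∀ w : Fin W,
    Rep m q wH wD n ((P.foldl (execL q wH wD) ws).getD w []) (runIns q P x w)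
  | [], _, _, _, _, hx => hx
  | ins :: P, hP, _, _, h, hx =>
    rep_foldl hq g hDen hqD P (fun i hi => hP i (List.mem_cons_of_mem _ hi))
      (h.execL hq g hDen hqD ins (hP ins List.mem_cons_self))
      (rep_execL h hq g hDen hqD ins (hP ins List.mem_cons_self) hx)

/-- the field-level program interchanges the two groups on all streams -/
theorem foldl_execL {P : List (Ins W m)} {ρ : Fin W ≃ Fin W} (hP : SwapProg Den P ρ) (hq : 0 < q)
    (hqD : q ≡ 1 [MOD Den]) (g : Geo (q ^ m) wH wD n) {ws : List Arr} (h : WS W n z ws)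
    (w : Fin W) :
    (P.foldl (execL q wH wD) ws).getD (ρ w) [] = swapL [] (q ^ m) wH wD (ws.getD w []) := by
  choose x hx using fun w : Fin W => exists_rep hq g (ws.getD w [])
  have h1 := rep_foldl hq g hP.den_pos hqD P hP.ok h hx (ρ w)
  have h2 := (WS.foldl hq g hP.den_pos hqD P hP.ok h).getD (ρ w).2
  have h3 := (h.getD w.2).swapL g
  rw [hP.spec q hq hqD] at h1
  refine ext_getD [] (h2.1.trans h3.1.symm) fun j hj => ?_
  rw [h2.1] at hj
  refine toVec_inj ((h2.getD hj).trans (h3.getD hj).symm) ?_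
  rw [h1 j hj, swapL, getD_perm _ _ _ _ ((h.getD w.2).1 ▸ hj), hx w _ (g.swapIdx_lt hj),
    addrOf_swapIdx g, restOf_swapIdx g]

/-! ### cutting and gluing records -/

theorem Shape.splitS {l : Arr} (h : Shape n (W * z) l) {w : ℕ} (hw : w < W) :
    Shape n z (splitS z w l) := by
  refine ⟨by simpa [A.splitS] using h.1, fun r hr => ?_⟩
  obtain ⟨r', hr', rfl⟩ := List.mem_map.1 hr
  have : (w + 1) * z ≤ W * z := Nat.mul_le_mul_right _ hw
  rw [Nat.add_mul, Nat.one_mul] at this
  rw [List.length_take, List.length_drop, h.2 r' hr']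
  omega

theorem getD_splitW (z : ℕ) (l : Arr) {w : ℕ} (hw : w < W) :
    (splitW W z l).getD w [] = splitS z w l := by
  simp [splitW, List.getD_eq_getElem?_getD, hw]

theorem Shape.splitW {l : Arr} (h : Shape n (W * z) l) : WS W n z (splitW W z l) := by
  refine ⟨by simp [A.splitW], fun s hs => ?_⟩
  obtain ⟨w, hw, rfl⟩ := List.mem_map.1 hs
  exact h.splitS (List.mem_range.1 hw)

theorem flatten_pieces (z : ℕ) : ∀ (W : ℕ) (r : Rec), r.length = W * z →
    ((List.range W).map fun w => (r.drop (w * z)).take z).flatten = r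
  | 0, r, h => by simpa using (List.length_eq_zero_iff.1 (by simpa using h)).symm
  | W + 1, r, h => by
    have ih := flatten_pieces z W (r.drop z) (by rw [List.length_drop, h, Nat.add_mul]; omega)
    rw [List.range_succ_eq_map, List.map_cons, List.flatten_cons, List.map_map]
    simp only [Nat.zero_mul, List.drop_zero]
    conv_rhs => rw [← List.take_append_drop z r, ← ih]
    congr 2
    refine List.map_congr_left fun w _ => ?_
    simp only [Function.comp_apply, List.drop_drop, Nat.succ_eq_add_one, Nat.add_mul, Nat.one_mul]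
    rw [Nat.add_comm]

theorem joinS_spec {ws : List Arr} (h0 : (ws.getD 0 []).length = n) :
    ∀ L : List ℕ, (∀ w ∈ L, (ws.getD w []).length = n) → (joinS ws L).length = n ∧
      ∀ j < n, (joinS ws L).getD j [] = (L.map fun w => (ws.getD w []).getD j []).flatten
  | [], _ => ⟨by simpa [joinS] using h0, fun j _ => by
      simp only [joinS, List.getD_eq_getElem?_getD, List.getElem?_map]
      cases (ws[0]?.getD [])[j]? <;> simp⟩
  | w :: L, hL => by
    obtain ⟨h1, h2⟩ := joinS_spec h0 L fun u hu => hL u (List.mem_cons_of_mem _ hu)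
    have h3 := hL w List.mem_cons_self
    refine ⟨by rw [joinS, List.length_zipWith, h1, h3, min_self], fun j hj => ?_⟩
    rw [List.map_cons, List.flatten_cons, ← h2 j hj, joinS]
    generalize ws.getD w [] = s at h3
    generalize joinS ws L = t at h1
    simp [List.getD_eq_getElem?_getD, List.getElem?_zipWith,
      List.getElem?_eq_getElem (h3 ▸ hj), List.getElem?_eq_getElem (h1 ▸ hj)]

/-- the wires in the order in which they are glued -/
def outOrder (ρ : Fin W ≃ Fin W) : List ℕ := (List.finRange W).map fun w => (ρ w : ℕ)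

/-- one recursion step for a range `q ^ m` -/
theorem step_pow {P : List (Ins W m)} {ρ : Fin W ≃ Fin W} (hP : SwapProg Den P ρ) (hW : 0 < W)
    (hq : 0 < q) (hqD : q ≡ 1 [MOD Den]) (g : Geo (q ^ m) wH wD n) {l : Arr}
    (h : Shape n (W * z) l) :
    joinS (P.foldl (execL q wH wD) (splitW W z l)) (outOrder ρ) = swapL [] (q ^ m) wH wD l := by
  have hws := WS.foldl hq g hP.den_pos hqD P hP.ok h.splitW
  obtain ⟨h1, h2⟩ := joinS_spec (hws.getD hW).1 (outOrder ρ) fun w hw => by
    obtain ⟨u, -, rfl⟩ := List.mem_map.1 hw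
    exact (hws.getD (ρ u).2).1
  refine ext_getD [] (by rw [h1, length_swapL, h.1]) fun j hj => ?_
  rw [h1] at hj
  have hs := g.swapIdx_lt hj
  rw [h2 j hj, swapL, getD_perm _ _ _ _ (h.1 ▸ hj), ← flatten_pieces z W _ (h.getD hs), outOrder,
    List.map_map, ← List.map_coe_finRange_eq_range, List.map_map]
  congr 1
  refine List.map_congr_left fun w _ => ?_
  simp only [Function.comp_apply]
  rw [foldl_execL hP hq hqD g h.splitW, getD_splitW z l w.2, swapL,
    getD_perm _ _ _ _ (by rw [(h.splitS w.2).1]; exact hj), splitS,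
    List.getD_eq_getElem _ _ (by rw [List.length_map, h.1]; exact hs), List.getElem_map,
    List.getD_eq_getElem _ _ (h.1 ▸ hs)]

theorem Geo.low {a b : ℕ} (g : Geo (a * b) wH wD n) : Geo a wH wD n where
  hq := Nat.pos_of_mul_pos_right g.hq
  hD := g.hD
  hH := g.hH
  h1 := (Nat.mul_dvd_mul_left _ (Dvd.intro b rfl)).trans g.h1
  h2 := (Nat.mul_dvd_mul_left _ (Dvd.intro b rfl)).trans g.h2

theorem Geo.high {a b : ℕ} (g : Geo (a * b) wH wD n) : Geo b (wH * a) (wD * a) n where
  hq := Nat.pos_of_mul_pos_left g.hq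
  hD := Nat.mul_pos g.hD g.low.hq
  hH := Nat.mul_pos g.hH g.low.hq
  h1 := by rw [Nat.mul_assoc]; exact g.h1.mul_right a
  h2 := by rw [Nat.mul_assoc]; exact g.h2

/-- an interchange of range `a * b` in two steps -/
theorem swapL_mul {α : Type} (d : α) {a b : ℕ} {l : List α} (g : Geo (a * b) wH wD l.length) :
    swapL d (a * b) wH wD l = swapL d b (wH * a) (wD * a) (swapL d a wH wD l) := by
  rw [swapL, swapL, swapL, perm_perm _ _ fun _ hj => g.high.swapIdx_lt hj]
  exact perm_congr _ _ fun j _ => swapIdx_mul g.low.hq g.high.hq g.hD g.hH g.h1 j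

theorem pow_split (R E m : ℕ) : R ^ E = R ^ (E % m) * (R ^ (E / m)) ^ m := by
  rw [← pow_mul, ← pow_add, Nat.mul_comm, Nat.mod_add_div]

/-- one recursion step for the range `R ^ E` -/
theorem step_eq {P : List (Ins W m)} {ρ : Fin W ≃ Fin W} (hP : SwapProg Den P ρ) (hW : 0 < W)
    {R E : ℕ} (hR : 0 < R) (hRD : R ≡ 1 [MOD Den]) (g : Geo (R ^ E) wH wD n) {l : Arr}
    (h : Shape n (W * z) l) :
    joinS (P.foldl (execL (R ^ (E / m)) (wH * R ^ (E % m)) (wD * R ^ (E % m)))
      (splitW W z (swapL [] (R ^ (E % m)) wH wD l))) (outOrder ρ) = swapL [] (R ^ E) wH wD l := by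
  rw [pow_split R E m] at g ⊢
  rw [step_pow hP hW (pow_pos hR _) (by simpa using hRD.pow (E / m)) g.high (h.swapL g.low),
    swapL_mul _ (h.1 ▸ g)]

end

end Crest.Agent.X326.A
private theorem rz_5b8f9db6d7 : type_of% @_root_.Crest.Agent.X326.A.execL.eq_1 := @_root_.Crest.Agent.X326.A.execL.eq_1 -- L41
private theorem rz_dc5e8ac11c : type_of% @_root_.Crest.Agent.X326.A.joinS.eq_def := @_root_.Crest.Agent.X326.A.joinS.eq_def -- L30
private theorem rz_a1c8291feb : type_of% @_root_.Crest.Agent.X326.A.joinS.eq_1 := @_root_.Crest.Agent.X326.A.joinS.eq_1 -- L30
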