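import Mathlib
import Crest.Agent.X326.A.Defs
import Crest.Agent.X326.Net.Defs
import Crest.Agent.X326.A.Alg
import Crest.Agent.X326.Net.Nets
import Crest.Agent.X326.TC.TU
import Crest.Agent.X326.Top.SO

-- ▼ part X326/A/FOps
section

/-!
Row 326 (S0503), part M2 (fast interchange of two address fields), pure maths, single wire.

An address consists of `2 m` fields of range `Q`: `inl i` are the fields `H_i`, `inr j` are the
fields `D_j`; physically the order (slow to fast) is `H_0, …, H_{m-1}, D_0, …, D_{m-1}` (`Fld.pos`).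
Every operation is given in *pull-back* form: the new array is `old ∘ src`.
Free operations (`FOp`, file `A/Defs`): add a multiple of an EARLIER field, multiply / divide by a fixed positive
integer, negate. The only other operation is the child call: interchange `H_i` and `D_j`.
`Real n φ` : the address map `φ` (for all `Q ≡ 1` modulo a fixed integer) is the pull-back map of
a fixed list of operations with at most `n` child calls.
-/

set_option autoImplicit false

namespace Crest.Agent.X326.A

open Function Matrix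

/-- operations on a single wire: free, or the child call interchanging `H_i` and `D_j` -/
inductive SOp (m : ℕ) : Type where
  | free (o : FOp m) : SOp m
  | child (i j : Fin m) : SOp m

/-- source address of an operation -/
def SOp.src {m : ℕ} (Q : ℕ) : SOp m → Addr m Q → Addr m Q
  | .free o, x => o.app Q x
  | .child i j, x => swapAddr i j x

/-- well-formed operations -/
def SOp.WF {m : ℕ} (Den : ℕ) : SOp m → Prop
  | .free o => o.ok Den
  | .child _ _ => True

/-- is the operation a child call? -/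
def SOp.isChild {m : ℕ} : SOp m → Bool
  | .free _ => false
  | .child _ _ => true

/-- source address of a list of operations (in time order) -/
def srcs {m : ℕ} (Q : ℕ) (L : List (SOp m)) (x : Addr m Q) : Addr m Q :=
  L.foldr (fun o y => o.src Q y) x

@[simp] theorem srcs_nil {m : ℕ} (Q : ℕ) (x : Addr m Q) : srcs Q [] x = x := rfl

@[simp] theorem srcs_cons {m : ℕ} (Q : ℕ) (o : SOp m) (L : List (SOp m)) (x : Addr m Q) :
    srcs Q (o :: L) x = o.src Q (srcs Q L x) := rfl

theorem srcs_append {m : ℕ} (Q : ℕ) (L L' : List (SOp m)) (x : Addr m Q) :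
    srcs Q (L ++ L') x = srcs Q L (srcs Q L' x) := by
  simp [srcs, List.foldr_append]

theorem FOp.ok_mono {m : ℕ} {D D' : ℕ} (h : D ∣ D') {o : FOp m} (ho : o.ok D) : o.ok D' := by
  cases o with
  | rot f g c => exact ho
  | mul f b => exact Dvd.dvd.trans ho h
  | div f b => exact Dvd.dvd.trans ho h
  | neg f => trivial

theorem SOp.WF.mono {m : ℕ} {D D' : ℕ} (h : D ∣ D') {o : SOp m} (ho : o.WF D) : o.WF D' := by
  cases o with
  | free o => exact FOp.ok_mono h ho
  | child i j => trivial

/-- `φ` is realised by a fixed list of operations with at most `n` child calls -/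
def Real {m : ℕ} (n : ℕ) (φ : (Q : ℕ) → Addr m Q → Addr m Q) : Prop :=
  ∃ (Den : ℕ) (L : List (SOp m)), 0 < Den ∧ (∀ o ∈ L, o.WF Den) ∧ L.countP SOp.isChild ≤ n ∧
    ∀ Q : ℕ, Q ≡ 1 [MOD Den] → ∀ x, srcs Q L x = φ Q x

section Closure

variable {m : ℕ}

theorem Real.id : Real (m := m) 0 (fun _ x => x) :=
  ⟨1, [], one_pos, by simp, by simp, fun _ _ _ => rfl⟩

theorem Real.comp {n n' : ℕ} {φ ψ : (Q : ℕ) → Addr m Q → Addr m Q} (h : Real n φ)
    (h' : Real n' ψ) : Real (n + n') (fun Q x => φ Q (ψ Q x)) := by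
  obtain ⟨D, L, hD, hW, hc, hs⟩ := h
  obtain ⟨D', L', hD', hW', hc', hs'⟩ := h'
  refine ⟨D * D', L ++ L', Nat.mul_pos hD hD', ?_, ?_, ?_⟩
  · intro o ho
    rcases List.mem_append.1 ho with ho | ho
    · exact (hW o ho).mono (dvd_mul_right _ _)
    · exact (hW' o ho).mono (dvd_mul_left _ _)
  · rw [List.countP_append]; omega
  · intro Q hQ x
    rw [srcs_append, hs' Q (hQ.of_dvd (dvd_mul_left _ _)), hs Q (hQ.of_dvd (dvd_mul_right _ _))]

theorem Real.congr_mod {n : ℕ} {φ ψ : (Q : ℕ) → Addr m Q → Addr m Q} (h : Real n φ) {b : ℕ}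
    (hb : 0 < b) (e : ∀ Q, Q ≡ 1 [MOD b] → ∀ x, φ Q x = ψ Q x) : Real n ψ := by
  obtain ⟨D, L, hD, hW, hc, hs⟩ := h
  refine ⟨D * b, L, Nat.mul_pos hD hb, fun o ho => (hW o ho).mono (dvd_mul_right _ _), hc, ?_⟩
  intro Q hQ x
  rw [hs Q (hQ.of_dvd (dvd_mul_right _ _)), e Q (hQ.of_dvd (dvd_mul_left _ _))]

theorem Real.congr {n : ℕ} {φ ψ : (Q : ℕ) → Addr m Q → Addr m Q} (h : Real n φ)
    (e : ∀ Q x, φ Q x = ψ Q x) : Real n ψ :=
  h.congr_mod one_pos fun Q _ x => e Q x

theorem Real.mono {n n' : ℕ} {φ : (Q : ℕ) → Addr m Q → Addr m Q} (h : Real n φ) (hn : n ≤ n') :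
    Real n' φ := by
  obtain ⟨D, L, hD, hW, hc, hs⟩ := h
  exact ⟨D, L, hD, hW, hc.trans hn, hs⟩

theorem Real.add (f g : Fld m) (h : g.pos < f.pos) (c : ℤ) :
    Real 0 (fun Q x => update x f (x f + (c : ZMod Q) * x g)) :=
  ⟨1, [.free (.rot f g c)], one_pos, by simpa [SOp.WF, FOp.ok] using h, by simp [SOp.isChild],
    fun _ _ _ => rfl⟩

theorem Real.neg (f : Fld m) : Real 0 (fun _ x => update x f (- x f)) :=
  ⟨1, [.free (.neg f)], one_pos, by simp [SOp.WF, FOp.ok], by simp [SOp.isChild],
    fun _ _ _ => rfl⟩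

theorem Real.mulN (f : Fld m) (b : ℕ) (hb : 0 < b) :
    Real 0 (fun Q x => update x f ((b : ZMod Q) * x f)) :=
  ⟨b, [.free (.mul f b)], hb, by simp [SOp.WF, FOp.ok], by simp [SOp.isChild],
    fun _ _ _ => rfl⟩

theorem Real.divN (f : Fld m) (b : ℕ) (hb : 0 < b) :
    Real 0 (fun Q x => update x f ((b : ZMod Q)⁻¹ * x f)) :=
  ⟨b, [.free (.div f b)], hb, by simp [SOp.WF, FOp.ok], by simp [SOp.isChild],
    fun _ _ _ => rfl⟩

theorem Real.child (i j : Fin m) :
    Real 1 (fun _ x => x ∘ Equiv.swap (Sum.inl i) (Sum.inr j)) :=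
  ⟨1, [.child i j], one_pos, by simp [SOp.WF], by simp [SOp.isChild], fun _ _ _ => rfl⟩

/-- a positive integer `b` is invertible modulo `Q ≡ 1 [MOD b]` -/
theorem natCast_mul_inv {Q b : ℕ} (h : Q ≡ 1 [MOD b]) : (b : ZMod Q) * (b : ZMod Q)⁻¹ = 1 := by
  apply ZMod.coe_mul_inv_eq_one
  have : Nat.gcd Q b = Nat.gcd 1 b := h.gcd_eq
  rw [Nat.gcd_one_left] at this
  exact Nat.Coprime.symm this

/-- an inverse of the integer `b` modulo `Q` -/
def invZ (Q : ℕ) (b : ℤ) : ZMod Q := (b.sign : ZMod Q) * ((b.natAbs : ℕ) : ZMod Q)⁻¹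

theorem mul_invZ {Q : ℕ} {b : ℤ} (_hb : b ≠ 0) (h : Q ≡ 1 [MOD b.natAbs]) :
    (b : ZMod Q) * invZ Q b = 1 := by
  have h1 := natCast_mul_inv h
  have h2 : (b : ZMod Q) * (b.sign : ZMod Q) = ((b.natAbs : ℕ) : ZMod Q) := by
    have : b * b.sign = (b.natAbs : ℤ) := by rw [Int.mul_sign_self]
    rw [← Int.cast_mul, this, Int.cast_natCast]
  unfold invZ
  rw [← mul_assoc, h2, h1]

theorem Real.mulZ (f : Fld m) (b : ℤ) (hb : b ≠ 0) :
    Real 0 (fun Q x => update x f ((b : ZMod Q) * x f)) := by
  have hp : 0 < b.natAbs := Int.natAbs_pos.2 hb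
  rcases Int.natAbs_eq b with h | h
  · refine (Real.mulN f _ hp).congr fun Q x => ?_
    conv_rhs => rw [h]
    simp
  · refine ((Real.neg f).comp (Real.mulN f _ hp)).congr fun Q x => ?_
    conv_rhs => rw [h]
    simp

theorem Real.divZ (f : Fld m) (b : ℤ) (hb : b ≠ 0) :
    Real 0 (fun Q x => update x f (invZ Q b * x f)) := by
  have hp : 0 < b.natAbs := Int.natAbs_pos.2 hb
  rcases lt_or_gt_of_ne hb with h | h
  · refine ((Real.neg f).comp (Real.divN f _ hp)).congr fun Q x => ?_
    simp [invZ, Int.sign_eq_neg_one_of_neg h]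
  · refine (Real.divN f _ hp).congr fun Q x => ?_
    simp [invZ, Int.sign_eq_one_of_pos h]

/-- add to the field `f` an integer linear form in earlier fields -/
theorem Real.addForm (f : Fld m) (s : Finset (Fld m)) (c : Fld m → ℤ)
    (h : ∀ g ∈ s, g.pos < f.pos) :
    Real 0 (fun Q x => update x f (x f + ∑ g ∈ s, (c g : ZMod Q) * x g)) := by
  classical
  induction s using Finset.induction_on with
  | empty => exact Real.id.congr fun Q x => by simp
  | insert a s ha ih =>
    have ha' := h a (Finset.mem_insert_self _ _)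
    have hne : a ≠ f := fun e => by rw [e] at ha'; exact lt_irrefl _ ha'
    refine ((Real.add f a ha' (c a)).comp
      (ih fun g hg => h g (Finset.mem_insert_of_mem hg))).congr fun Q x => ?_
    rw [Finset.sum_insert ha]
    simp only [update_self, update_idem, update_of_ne hne]
    congr 1; ring

/-- subtract from each field of a set a multiple of one earlier field `g` -/
theorem Real.addMany (g : Fld m) (s : Finset (Fld m)) (c : Fld m → ℤ)
    (h : ∀ f ∈ s, g.pos < f.pos) :
    Real 0 (fun Q x f => if f ∈ s then x f + (c f : ZMod Q) * x g else x f) := by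
  classical
  induction s using Finset.induction_on with
  | empty => exact Real.id.congr fun Q x => by simp
  | insert a s ha ih =>
    have ha' := h a (Finset.mem_insert_self _ _)
    have hg : g ∉ s := fun hg => lt_irrefl _ (h g (Finset.mem_insert_of_mem hg))
    refine ((Real.add a g ha' (c a)).comp
      (ih fun f hf => h f (Finset.mem_insert_of_mem hf))).congr fun Q x => ?_
    funext f
    by_cases hf : f = a
    · subst hf; simp [ha, hg]
    · simp [hf]

theorem pos_inl_lt_inr (i j : Fin m) :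
    Fld.pos (Sum.inl i : Fld m) < Fld.pos (Sum.inr j : Fld m) := by
  have := i.2
  simp only [Fld.pos]; omega

/-- the elementary shear `H_i += D_j` costs one child call -/
theorem Real.shear1 (i j : Fin m) :
    Real 1 (fun _ x => update x (Sum.inl i) (x (Sum.inl i) + x (Sum.inr j))) := by
  have h1 := Real.add (Sum.inr j) (Sum.inl i) (pos_inl_lt_inr i j) 1
  refine ((h1.comp (Real.neg (Sum.inr j))).comp ((Real.child i j).comp h1)).congr fun Q x => ?_
  funext f
  by_cases h : f = Sum.inr j
  · subst h; simp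
  · by_cases h' : f = Sum.inl i
    · subst h'; simp [add_comm]
    · simp [update_of_ne h, update_of_ne h', Equiv.swap_apply_of_ne_of_ne h' h]

end Closure

/-- the shear `(H, D) ↦ (H + M D, D)` -/
def shear {m : ℕ} (Q : ℕ) (M : Matrix (Fin m) (Fin m) ℤ) (x : Addr m Q) : Addr m Q
  | .inl i => x (.inl i) + ∑ j, (M i j : ZMod Q) * x (.inr j)
  | .inr j => x (.inr j)

theorem shear_add {m : ℕ} (Q : ℕ) (M M' : Matrix (Fin m) (Fin m) ℤ) (x : Addr m Q) :
    shear Q (M + M') x = shear Q M (shear Q M' x) := by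
  funext f
  cases f with
  | inl i =>
    simp only [shear, Matrix.add_apply, Int.cast_add, add_mul, Finset.sum_add_distrib]; ring
  | inr j => rfl

theorem shear_zero {m : ℕ} (Q : ℕ) (x : Addr m Q) : shear Q 0 x = x := by
  funext f
  cases f with
  | inl i => simp [shear]
  | inr j => rfl

/-- adding multiples of the single field `D_j` to all `H` fields costs one child call -/
theorem Real.col {m : ℕ} (u : Fin m → ℤ) (hu : u ≠ 0) (j : Fin m) :
    Real 1 (fun Q x => Sum.elim (fun l => x (Sum.inl l) + (u l : ZMod Q) * x (Sum.inr j))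
      (fun l => x (Sum.inr l))) := by
  classical
  obtain ⟨i, hi, himin⟩ : ∃ i, u i ≠ 0 ∧ ∀ l, l < i → u l = 0 := by
    have hne : (Finset.univ.filter fun i => u i ≠ 0).Nonempty := by
      by_contra hc
      rw [Finset.not_nonempty_iff_eq_empty, Finset.filter_eq_empty_iff] at hc
      exact hu (funext fun i => by simpa using hc (Finset.mem_univ i))
    refine ⟨_, (Finset.mem_filter.1 (Finset.min'_mem _ hne)).2, fun l hl => ?_⟩
    by_contra hc
    exact absurd (Finset.min'_le _ l (Finset.mem_filter.2 ⟨Finset.mem_univ _, hc⟩)) (not_le.2 hl)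
  set sH : Finset (Fld m) :=
    (Finset.univ.filter fun l : Fin m => i < l).map ⟨Sum.inl, Sum.inl_injective⟩ with hsH
  have hH : ∀ f ∈ sH, Fld.pos (Sum.inl i : Fld m) < f.pos := by
    intro g hg
    obtain ⟨l, hl, rfl⟩ := Finset.mem_map.1 hg
    have : i < l := (Finset.mem_filter.1 hl).2
    simp only [Embedding.coeFn_mk, Fld.pos]; omega
  have hl : ∀ l : Fin m, (Sum.inl l : Fld m) ∈ sH ↔ i < l := by
    intro l; simp [hsH]
  have hr : ∀ l : Fin m, (Sum.inr l : Fld m) ∉ sH := by
    intro l; simp [hsH]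
  let cu : Fld m → ℤ := Sum.elim u (fun _ => 0)
  have s3 := Real.divZ (Sum.inl i : Fld m) (u i) hi
  have s4 := Real.addMany (Sum.inl i : Fld m) sH (fun f => - cu f) hH
  have s5 := Real.shear1 i j
  have s6 := Real.addMany (Sum.inl i : Fld m) sH cu hH
  have s7 := Real.mulZ (Sum.inl i : Fld m) (u i) hi
  have hall := s7.comp (s6.comp (s5.comp (s4.comp s3)))
  refine hall.congr_mod (Int.natAbs_pos.2 hi) fun Q hQ x => ?_
  have e1 := mul_invZ hi hQ
  funext f
  rcases f with l | l
  · rcases lt_trichotomy l i with h | h | h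
    · have h1 : (Sum.inl l : Fld m) ≠ Sum.inl i := fun e => h.ne (Sum.inl_injective e)
      have h2 : ¬ i < l := not_lt.2 h.le
      simp [update_of_ne h1, hl, h2, himin l h]
    · subst h
      simp only [update_self, hl, lt_irrefl, if_false, hr, Sum.elim_inl, ne_eq, reduceCtorEq,
        not_false_eq_true, update_of_ne]
      rw [mul_add, ← mul_assoc, e1, one_mul]
    · have h1 : (Sum.inl l : Fld m) ≠ Sum.inl i := fun e => h.ne' (Sum.inl_injective e)
      simp only [update_of_ne h1, hl, h, if_true, update_self, lt_irrefl, if_false, hr,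
        Sum.elim_inl, ne_eq, reduceCtorEq, not_false_eq_true, update_of_ne, cu, Int.cast_neg]
      ring
  · simp [hr]

/-- a rank-one shear costs one child call -/
theorem Real.atom {m : ℕ} (u v : Fin m → ℤ) : Real 1 (fun Q x => shear Q (vecMulVec u v) x) := by
  classical
  by_cases hu : u = 0
  · refine (Real.id.congr fun Q x => ?_).mono zero_le_one
    rw [hu, Matrix.zero_vecMulVec, shear_zero]
  by_cases hv : v = 0
  · refine (Real.id.congr fun Q x => ?_).mono zero_le_one
    rw [hv, Matrix.vecMulVec_zero, shear_zero]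
  obtain ⟨j, hj, hjmax⟩ : ∃ j, v j ≠ 0 ∧ ∀ l, j < l → v l = 0 := by
    have hne : (Finset.univ.filter fun i => v i ≠ 0).Nonempty := by
      by_contra hc
      rw [Finset.not_nonempty_iff_eq_empty, Finset.filter_eq_empty_iff] at hc
      exact hv (funext fun i => by simpa using hc (Finset.mem_univ i))
    refine ⟨_, (Finset.mem_filter.1 (Finset.max'_mem _ hne)).2, fun l hl => ?_⟩
    by_contra hc
    exact absurd (Finset.le_max' _ l (Finset.mem_filter.2 ⟨Finset.mem_univ _, hc⟩)) (not_le.2 hl)
  set sD : Finset (Fld m) :=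
    (Finset.univ.filter fun l : Fin m => l < j).map ⟨Sum.inr, Sum.inr_injective⟩ with hsD
  have hD : ∀ g ∈ sD, g.pos < Fld.pos (Sum.inr j : Fld m) := by
    intro g hg
    obtain ⟨l, hl, rfl⟩ := Finset.mem_map.1 hg
    have : l < j := (Finset.mem_filter.1 hl).2
    simp only [Embedding.coeFn_mk, Fld.pos]; omega
  let cv : Fld m → ℤ := Sum.elim (fun _ => 0) v
  have s1 := Real.mulZ (Sum.inr j : Fld m) (v j) hj
  have s2 := Real.addForm (Sum.inr j : Fld m) sD cv hD
  have s5 := Real.col u hu j
  have s8 := Real.addForm (Sum.inr j : Fld m) sD (fun f => - cv f) hD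
  have s9 := Real.divZ (Sum.inr j : Fld m) (v j) hj
  have hall := s9.comp (s8.comp (s5.comp (s2.comp s1)))
  refine hall.congr_mod (Int.natAbs_pos.2 hj) fun Q hQ x => ?_
  have e2 := mul_invZ hj hQ
  -- the partial sum over the earlier `D` fields
  set σ : ZMod Q := ∑ l ∈ Finset.univ.filter (fun l : Fin m => l < j),
    (v l : ZMod Q) * x (Sum.inr l) with hσ
  have hsum : ∀ (c : Fld m → ℤ) (y : Addr m Q), (∀ l, l ≠ j → y (Sum.inr l) = x (Sum.inr l)) →
      ∑ g ∈ sD, (c g : ZMod Q) * y g =
        ∑ l ∈ Finset.univ.filter (fun l : Fin m => l < j),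
          (c (Sum.inr l) : ZMod Q) * x (Sum.inr l) := by
    intro c y hy
    rw [hsD, Finset.sum_map]
    refine Finset.sum_congr rfl fun l hl => ?_
    simp only [Embedding.coeFn_mk]
    rw [hy l (Finset.mem_filter.1 hl).2.ne]
  have hfull : ∑ l, (v l : ZMod Q) * x (Sum.inr l) = (v j : ZMod Q) * x (Sum.inr j) + σ := by
    rw [← Finset.sum_filter_add_sum_filter_not Finset.univ (fun l : Fin m => l < j), add_comm]
    congr 1
    rw [Finset.sum_eq_single_of_mem j (by simp)]
    intro l hl hlj
    have : j < l := lt_of_le_of_ne (not_lt.1 (Finset.mem_filter.1 hl).2) (Ne.symm hlj)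
    simp [hjmax l this]
  have hne : ∀ l, l ≠ j → (Sum.inr l : Fld m) ≠ Sum.inr j := fun l h e => h (Sum.inr_injective e)
  rw [hsum cv _ (fun l h => by rw [update_of_ne (hne l h)]),
    hsum (fun f => - cv f) _ (fun l h => by
      simp only [Sum.elim_inr]; rw [update_of_ne (hne l h), update_of_ne (hne l h)])]
  have hneg : ∑ l ∈ Finset.univ.filter (fun l : Fin m => l < j),
      ((- cv (Sum.inr l) : ℤ) : ZMod Q) * x (Sum.inr l) = - σ := by
    rw [hσ, ← Finset.sum_neg_distrib]
    refine Finset.sum_congr rfl fun l _ => ?_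
    simp [cv]
  have hpos : ∑ l ∈ Finset.univ.filter (fun l : Fin m => l < j),
      ((cv (Sum.inr l) : ℤ) : ZMod Q) * x (Sum.inr l) = σ := rfl
  rw [hneg, hpos]
  funext f
  rcases f with l | l
  · simp only [ne_eq, reduceCtorEq, not_false_eq_true, update_of_ne, Sum.elim_inl, update_self,
      shear, vecMulVec_apply, Int.cast_mul, mul_assoc]
    rw [← Finset.mul_sum, hfull]
  · by_cases h : l = j
    · subst h
      simp only [update_self, Sum.elim_inr, shear]
      rw [add_neg_cancel_right, ← mul_assoc, mul_comm (invZ Q (v l)), e2, one_mul]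
    · simp only [update_of_ne (hne l h), Sum.elim_inr, shear]

end Crest.Agent.X326.A
private theorem rz_a75a23dd94 : type_of% @_root_.Crest.Agent.X326.A.SOp.WF.eq_1 := @_root_.Crest.Agent.X326.A.SOp.WF.eq_1 -- L33
private theorem rz_b812f964ba : type_of% @_root_.Crest.Agent.X326.A.SOp.isChild.eq_1 := @_root_.Crest.Agent.X326.A.SOp.isChild.eq_1 -- L38
private theorem rz_1810e79dc8 : type_of% @_root_.Crest.Agent.X326.A.shear.eq_1 := @_root_.Crest.Agent.X326.A.shear.eq_1 -- L223
end

-- ▼ part X326/A/Prog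
section

/-!
Row 326 (S0503), part M2: from a labelled network (`Net.NetSpec` over `ZMod 2` with integer labels,
`full = c • 1`, `c ≠ 0`) to a field-level interchange program (`SwapProg`) with at most as many
child calls as the network has atoms.
-/

set_option autoImplicit false

namespace Crest.Agent.X326.A

open Function Matrix

variable {W m : ℕ}

/-- maps on families of arrays, for all moduli and all data types -/
abbrev MMap (W m : ℕ) : Type 1 :=
  (Q : ℕ) → (D : Type) → [AddCommGroup D] → [Module (ZMod 2) D] →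
    (Fin W → Addr m Q → D) → (Fin W → Addr m Q → D)

/-- `F` is realised by a fixed program with at most `n` child calls -/
def MReal (n : ℕ) (F : MMap W m) : Prop :=
  ∃ (Den : ℕ) (P : List (Ins W m)), 0 < Den ∧ (∀ ins ∈ P, ins.ok Den) ∧ ncalls P ≤ n ∧
    ∀ Q : ℕ, Q ≡ 1 [MOD Den] → ∀ (D : Type) [AddCommGroup D] [Module (ZMod 2) D]
      (x : Fin W → Addr m Q → D), runIns Q P x = F Q D x

theorem Ins.ok_mono {D D' : ℕ} (h : D ∣ D') {o : Ins W m} (ho : o.ok D) : o.ok D' := by
  cases o with
  | xor w w' => trivial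
  | free w op => exact FOp.ok_mono h ho
  | call w i j => trivial

theorem runIns_append (Q : ℕ) {D : Type} [Add D] (P P' : List (Ins W m))
    (x : Fin W → Addr m Q → D) : runIns Q (P ++ P') x = runIns Q P' (runIns Q P x) := by
  simp [runIns, List.foldl_append]

theorem MReal.id : MReal (W := W) (m := m) 0 (fun _ _ _ _ x => x) :=
  ⟨1, [], one_pos, by simp, by simp [ncalls], fun _ _ _ _ _ _ => rfl⟩

/-- first `F`, then `G` -/
theorem MReal.seq {n n' : ℕ} {F G : MMap W m} (h : MReal n F) (h' : MReal n' G) :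
    MReal (n + n') (fun Q D _ _ x => G Q D (F Q D x)) := by
  obtain ⟨E, P, hE, hW, hc, hs⟩ := h
  obtain ⟨E', P', hE', hW', hc', hs'⟩ := h'
  refine ⟨E * E', P ++ P', Nat.mul_pos hE hE', ?_, ?_, ?_⟩
  · intro o ho
    rcases List.mem_append.1 ho with ho | ho
    · exact Ins.ok_mono (dvd_mul_right _ _) (hW o ho)
    · exact Ins.ok_mono (dvd_mul_left _ _) (hW' o ho)
  · unfold ncalls at *; rw [List.countP_append]; omega
  · intro Q hQ D _ _ x
    rw [runIns_append, hs Q (hQ.of_dvd (dvd_mul_right _ _)), hs' Q (hQ.of_dvd (dvd_mul_left _ _))]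

theorem MReal.congr_mod {n : ℕ} {F G : MMap W m} (h : MReal n F) {b : ℕ} (hb : 0 < b)
    (e : ∀ Q, Q ≡ 1 [MOD b] → ∀ (D : Type) [AddCommGroup D] [Module (ZMod 2) D]
      (x : Fin W → Addr m Q → D), F Q D x = G Q D x) : MReal n G := by
  obtain ⟨E, P, hE, hW, hc, hs⟩ := h
  refine ⟨E * b, P, Nat.mul_pos hE hb, fun o ho => Ins.ok_mono (dvd_mul_right _ _) (hW o ho),
    hc, ?_⟩
  intro Q hQ D _ _ x
  rw [hs Q (hQ.of_dvd (dvd_mul_right _ _)), e Q (hQ.of_dvd (dvd_mul_left _ _))]

theorem MReal.congr {n : ℕ} {F G : MMap W m} (h : MReal n F)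
    (e : ∀ Q (D : Type) [AddCommGroup D] [Module (ZMod 2) D]
      (x : Fin W → Addr m Q → D), F Q D x = G Q D x) : MReal n G :=
  h.congr_mod one_pos fun Q _ D _ _ x => e Q D x

theorem MReal.mono {n n' : ℕ} {F : MMap W m} (h : MReal n F) (hn : n ≤ n') : MReal n' F := by
  obtain ⟨E, P, hE, hW, hc, hs⟩ := h
  exact ⟨E, P, hE, hW, hc.trans hn, hs⟩

/-- a single-wire operation as an instruction on wire `w` -/
def SOp.lift (w : Fin W) : SOp m → Ins W m
  | .free o => .free w o
  | .child i j => .call w i j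

theorem runIns_lift (Q : ℕ) {D : Type} [Add D] (w : Fin W) (L : List (SOp m))
    (x : Fin W → Addr m Q → D) :
    runIns Q (L.map (SOp.lift w)) x = update x w (x w ∘ srcs Q L) := by
  induction L generalizing x with
  | nil =>
    have : x w ∘ srcs Q ([] : List (SOp m)) = x w := rfl
    rw [this]; simp [runIns]
  | cons o L ih =>
    have h1 : runIns Q ((o :: L).map (SOp.lift w)) x =
        runIns Q (L.map (SOp.lift w)) (update x w (x w ∘ o.src Q)) := by
      cases o <;> rfl
    rw [h1, ih, update_self, update_idem]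
    rfl

theorem MReal.onWire {n : ℕ} {φ : (Q : ℕ) → Addr m Q → Addr m Q} (h : Real n φ) (w : Fin W) :
    MReal n (fun Q _ _ _ x => update x w (x w ∘ φ Q)) := by
  obtain ⟨E, L, hE, hW, hc, hs⟩ := h
  refine ⟨E, L.map (SOp.lift w), hE, ?_, ?_, ?_⟩
  · intro ins hins
    obtain ⟨o, ho, rfl⟩ := List.mem_map.1 hins
    have := hW o ho
    cases o with
    | free o => exact this
    | child i j => trivial
  · unfold ncalls
    rw [List.countP_map]
    refine le_trans (le_of_eq ?_) hc
    congr 1
    funext o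
    cases o <;> rfl
  · intro Q hQ D _ _ x
    rw [runIns_lift]
    congr 2
    funext a
    exact hs Q hQ a

theorem MReal.onSet {φ : (Q : ℕ) → Addr m Q → Addr m Q} (h : Real 0 φ) (s : Finset (Fin W)) :
    MReal 0 (fun Q _ _ _ x w => if w ∈ s then x w ∘ φ Q else x w) := by
  induction s using Finset.induction_on with
  | empty => exact MReal.id.congr fun Q D _ _ x => by simp
  | insert a s ha ih =>
    refine (ih.seq (MReal.onWire h a)).congr fun Q D _ _ x => ?_
    funext w
    by_cases hw : w = a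
    · subst hw; simp [ha]
    · simp [hw]

theorem MReal.onAll {φ : (Q : ℕ) → Addr m Q → Addr m Q} (h : Real 0 φ) :
    MReal (W := W) 0 (fun Q _ _ _ x w => x w ∘ φ Q) :=
  (MReal.onSet h Finset.univ).congr fun Q D _ _ x => by simp

theorem MReal.addWire (w w' : Fin W) (c : ZMod 2) :
    MReal (m := m) 0 (fun _ _ _ _ x => update x w (x w + c • x w')) := by
  have hc : c = 0 ∨ c = 1 := by revert c; decide
  rcases hc with rfl | rfl
  · exact MReal.id.congr fun Q D _ _ x => by simp
  · refine ⟨1, [.xor w w'], one_pos, by simp [Ins.ok], by simp [ncalls, Ins.isCall], ?_⟩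
    intro Q _ D _ _ x
    simp [runIns, Ins.exec]

/-- the physical meaning of an atom: pull back along the rank-one shear -/
def actA (Q : ℕ) {D : Type} (_e : Matrix (Fin m) (Fin m) ℤ) (u v : Fin m → ℤ)
    (y : Addr m Q → D) : Addr m Q → D :=
  y ∘ shear Q (vecMulVec u v)

theorem MReal.net (P : List (Net.Instr (Fin W) (ZMod 2) ℤ (Fin m))) :
    MReal (Net.natoms P) (fun Q _ _ _ x => Net.run (actA Q) P x) := by
  induction P with
  | nil => exact MReal.id
  | cons ins P ih =>
    cases ins with
    | add w w' c =>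
      refine (((MReal.addWire w w' c).seq ih).mono ?_).congr fun Q D _ _ x => rfl
      simp [Net.natoms, Net.Instr.isAtom]
    | atom w e u v =>
      refine (((MReal.onWire (Real.atom u v) w).seq ih).mono ?_).congr fun Q D _ _ x => rfl
      simp [Net.natoms, Net.Instr.isAtom, List.countP_cons, add_comm]

/-- frame lemma for the shear frames -/
theorem run_actA (Q : ℕ) {D : Type} [AddCommGroup D] [Module (ZMod 2) D]
    (P : List (Net.Instr (Fin W) (ZMod 2) ℤ (Fin m))) (l l' : Fin W → Matrix (Fin m) (Fin m) ℤ)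
    (hv : Net.Valid l P l') (x : Fin W → Addr m Q → D) :
    Net.run (actA Q) P (fun w => x w ∘ shear Q (l w)) =
      fun w => Net.logi P x w ∘ shear Q (l' w) := by
  induction P generalizing l x with
  | nil => cases hv; rfl
  | cons ins P ih =>
    cases ins with
    | add w w' c =>
      obtain ⟨h1, h2⟩ := hv
      have := ih l h2 (update x w (x w + c • x w'))
      refine Eq.trans ?_ this
      show Net.run (actA Q) P (update _ w _) = _
      congr 1
      funext z
      by_cases hz : z = w
      · subst hz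
        simp only [update_self]
        rw [← h1]; rfl
      · simp only [update_of_ne hz]
    | atom w e u v =>
      obtain ⟨h1, h2⟩ := hv
      have := ih _ h2 x
      have h3 : Net.logi (Net.Instr.atom w e u v :: P) x = Net.logi P x := by
        show Net.run _ P (update x w (x w)) = _
        rw [update_eq_self]; rfl
      rw [h3]
      refine Eq.trans ?_ this
      show Net.run (actA Q) P (update _ w _) = _
      congr 1
      funext z
      by_cases hz : z = w
      · subst hz
        simp only [update_self, actA]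
        funext a
        simp only [Function.comp_apply, shear_add, h1]
      · simp only [update_of_ne hz]

/-- the network applies the shear `full` to every wire -/
theorem net_shear {sym : Prop} {full : Matrix (Fin m) (Fin m) ℤ}
    {P : List (Net.Instr (Fin W) (ZMod 2) ℤ (Fin m))} {ρ : Fin W ≃ Fin W}
    {lin lout : Fin W → Matrix (Fin m) (Fin m) ℤ} (h : Net.NetSpec (ZMod 2) sym full P ρ lin lout)
    (Q : ℕ) {D : Type} [AddCommGroup D] [Module (ZMod 2) D] (a : Fin W → Addr m Q → D)
    (w : Fin W) : Net.run (actA Q) P a (ρ w) = a w ∘ shear Q full := by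
  have h1 := run_actA Q P lin lout h.valid (fun w => a w ∘ shear Q (- lin w))
  have h2 : (fun w => (a w ∘ shear Q (- lin w)) ∘ shear Q (lin w)) = a := by
    funext w y
    simp only [Function.comp_apply, ← shear_add, neg_add_cancel, shear_zero]
  rw [h2] at h1
  rw [h1]
  simp only [h.logical, h.label]
  funext y
  simp only [Function.comp_apply, ← shear_add, neg_add_cancel_left]

/-- an operation applied to every `D` field -/
theorem Real.allD (ψ : (Q : ℕ) → ZMod Q → ZMod Q → ZMod Q)
    (h : ∀ j : Fin m, Real 0 (fun Q x => update x (Sum.inr j)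
      (ψ Q (x (Sum.inl j)) (x (Sum.inr j))))) :
    Real (m := m) 0 (fun Q x => Sum.elim (fun j => x (Sum.inl j))
      (fun j => ψ Q (x (Sum.inl j)) (x (Sum.inr j)))) := by
  have key : ∀ s : Finset (Fin m), Real (m := m) 0 (fun Q x => Sum.elim (fun j => x (Sum.inl j))
      (fun j => if j ∈ s then ψ Q (x (Sum.inl j)) (x (Sum.inr j)) else x (Sum.inr j))) := by
    intro s
    induction s using Finset.induction_on with
    | empty =>
      refine Real.id.congr fun Q x => ?_
      funext f; rcases f with j | j <;> simp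
    | insert a s ha ih =>
      refine ((h a).comp ih).congr fun Q x => ?_
      funext f
      rcases f with j | j
      · simp
      · by_cases hj : j = a
        · subst hj; simp [ha]
        · simp [hj]
  exact (key Finset.univ).congr fun Q x => by simp

/-- **M2, field level.** A network whose contents all gain the label `c • 1` (`c ≠ 0`) gives an
interchange program with no more child calls than atoms. -/
theorem swapProg_of_netSpec {sym : Prop} {c : ℤ} (hc : c ≠ 0)
    {P : List (Net.Instr (Fin W) (ZMod 2) ℤ (Fin m))} {ρ : Fin W ≃ Fin W}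
    {lin lout : Fin W → Matrix (Fin m) (Fin m) ℤ}
    (h : Net.NetSpec (ZMod 2) sym (c • (1 : Matrix (Fin m) (Fin m) ℤ)) P ρ lin lout) :
    ∃ (Den : ℕ) (P' : List (Ins W m)), SwapProg Den P' ρ ∧ ncalls P' ≤ Net.natoms P := by
  -- applied to the address first: `D ↦ (D - H) / c`
  have hα : Real (m := m) 0 (fun Q x => Sum.elim (fun j => x (Sum.inl j))
      (fun j => invZ Q c * (x (Sum.inr j) - x (Sum.inl j)))) := by
    refine Real.allD (fun Q a b => invZ Q c * (b - a)) fun j => ?_
    refine ((Real.divZ (Sum.inr j) c hc).comp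
      (Real.add (Sum.inr j) (Sum.inl j) (pos_inl_lt_inr j j) (-1))).congr fun Q x => ?_
    simp only [update_self, update_idem]
    congr 1; push_cast; ring
  -- applied to the address last: `D ↦ H - c D`
  have hβ : Real (m := m) 0 (fun Q x => Sum.elim (fun j => x (Sum.inl j))
      (fun j => x (Sum.inl j) - (c : ZMod Q) * x (Sum.inr j))) := by
    refine Real.allD (fun Q a b => a - (c : ZMod Q) * b) fun j => ?_
    refine ((Real.add (Sum.inr j) (Sum.inl j) (pos_inl_lt_inr j j) 1).comp
      (Real.mulZ (Sum.inr j) (-c) (neg_ne_zero.2 hc))).congr fun Q x => ?_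
    simp only [update_self, update_idem, ne_eq, reduceCtorEq, not_false_eq_true, update_of_ne]
    congr 1; push_cast; ring
  obtain ⟨E, P', hE, hok, hn, hs⟩ :=
    ((MReal.onAll (W := W) hβ).seq (MReal.net P)).seq (MReal.onAll hα)
  refine ⟨E * c.natAbs, P', ⟨Nat.mul_pos hE (Int.natAbs_pos.2 hc),
    fun ins hins => Ins.ok_mono (dvd_mul_right _ _) (hok ins hins), ?_⟩, by omega⟩
  intro Q _ hQ D _ _ x w
  have e := mul_invZ hc (hQ.of_dvd (dvd_mul_left _ _))
  rw [hs Q (hQ.of_dvd (dvd_mul_right _ _))]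
  simp only [net_shear h]
  funext a
  simp only [Function.comp_apply]
  congr 1
  have hsh : ∀ (y : Addr m Q) (i : Fin m), shear Q (c • (1 : Matrix (Fin m) (Fin m) ℤ)) y
      (Sum.inl i) = y (Sum.inl i) + (c : ZMod Q) * y (Sum.inr i) := by
    intro y i
    simp only [shear, Matrix.smul_apply, Matrix.one_apply, smul_eq_mul]
    rw [Finset.sum_eq_single i] <;> simp +contextual [eq_comm]
  funext f
  rcases f with j | j
  · simp only [Sum.elim_inl, hsh, Sum.elim_inr, Function.comp_apply, Sum.swap_inl]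
    rw [← mul_assoc, e]; ring
  · have hr : ∀ (y : Addr m Q), shear Q (c • (1 : Matrix (Fin m) (Fin m) ℤ)) y (Sum.inr j) =
        y (Sum.inr j) := fun _ => rfl
    simp only [Sum.elim_inl, hsh, hr, Sum.elim_inr, Function.comp_apply, Sum.swap_inr]
    ring


end Crest.Agent.X326.A
end

-- ▼ part X326/A/Spec

/-!
Row 326 (S0503), part M2: the statements of part A.

* `RecStatement`  : the recursion (range `R ^ E`, bit records of width `z0 * W ^ dep m E`);
* `SwapStatement` : the final interchange (any range, any coded record type).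
-/

set_option autoImplicit false

namespace Crest.Agent.X326.A

open Crest.Agent.Lib.PT

/-- recursion depth: the number of digits of `E` in base `m` -/
def dep (m E : ℕ) : ℕ := if E = 0 then 0 else Nat.log m E + 1

theorem dep_zero (m : ℕ) : dep m 0 = 0 := rfl

theorem dep_pos {m E : ℕ} (hm : 2 ≤ m) (hE : E ≠ 0) : dep m E = dep m (E / m) + 1 := by
  unfold dep
  rw [if_neg hE]
  by_cases h : E < m
  · rw [Nat.div_eq_of_lt h, if_pos rfl, Nat.log_of_lt h]
  · have : E / m ≠ 0 := (Nat.div_pos (by omega) (by omega)).ne'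
    rw [if_neg this, Nat.log_of_one_lt_of_le (by omega) (by omega)]

theorem pow_dep_le (m E : ℕ) : m ^ dep m E ≤ m * E + 1 := by
  unfold dep
  split_ifs with h
  · simp
  · rw [pow_succ, Nat.mul_comm]
    exact (Nat.mul_le_mul_left m (Nat.pow_log_le_self m h)).trans (Nat.le_succ _)

theorem dep_le_size {m : ℕ} (hm : 2 ≤ m) (E : ℕ) : dep m E ≤ Nat.size E := by
  unfold dep
  split_ifs with h
  · omega
  · refine Nat.lt_size.2 ?_
    exact (Nat.pow_le_pow_left hm _).trans (Nat.pow_log_le_self m h)

/-- The recursion of part A: range `(Den + 1) ^ E`, bit records of width `z0 * W ^ dep m E`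
(`z0` is only a ghost parameter). -/
def RecStatement : Prop :=
  ∀ (W m Den : ℕ) (Pg : List (Ins W m)) (ρ : Fin W ≃ Fin W) (s : ℕ),
    0 < W → 2 ≤ m → SwapProg Den Pg ρ → ncalls Pg ≤ s → W < s →
    ∃ k : ℕ, ∀ (ι : Type) [PTCode ι] (P : ι → Prop) (T : ι → ℕ) (E wH wD z0 : ι → ℕ)
      (l : ι → Arr), TU P T E → TC P T wH → TC P T wD → TC P T l →
      (∀ x, P x → 0 < (l x).length ∧ Geo ((Den + 1) ^ E x) (wH x) (wD x) (l x).length ∧
        ∀ r ∈ l x, r.length = z0 x * W ^ dep m (E x)) →
      Bud P T (fun x => s ^ dep m (E x) *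
        ((l x).length * (z0 x + (Nat.size (l x).length + 1) ^ k))) →
      TC P T (fun x => swapL [] ((Den + 1) ^ E x) (wH x) (wD x) (l x))

/-- Part A: the interchange of two digits of any range `Q` on an array of records of any coded
type (`B` is only a bound for the sizes of the records, not an input). -/
def SwapStatement (τ : ℝ) : Prop :=
  ∃ k : ℕ, ∀ (ι α : Type) [PTCode ι] [PTCode α] (P : ι → Prop) (T : ι → ℕ)
    (Q wH wD B : ι → ℕ) (d : α) (l : ι → List α),
    TC P T Q → TC P T wH → TC P T wD → TC P T l →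
    (∀ x, P x → Geo (Q x) (wH x) (wD x) (l x).length ∧ ∀ r ∈ l x, sz r ≤ B x) →
    Bud P T (fun x => (l x).length * (B x + 1) * pw τ (Nat.size (Q x) + 1) +
      (l x).length * (Nat.size (l x).length + 1) ^ k) →
    TC P T (fun x => swapL d (Q x) (wH x) (wD x) (l x))

/-- the exponent of part A -/
noncomputable def tauA : ℝ := 1 - 1 / (2 : ℝ) ^ 40

theorem tauA_pos : 0 < tauA := by unfold tauA; norm_num

theorem tauA_le_one : tauA ≤ 1 := by unfold tauA; norm_num

/-- the field-level program -/
theorem exists_prog : ∃ (W m Den : ℕ) (Pg : List (Ins W m)) (ρ : Fin W ≃ Fin W) (s : ℕ),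
    0 < W ∧ 2 ≤ m ∧ SwapProg Den Pg ρ ∧ ncalls Pg ≤ s ∧ W < s ∧
      (s : ℝ) ≤ W * (m : ℝ) ^ tauA := by
  obtain ⟨W, m, hW, hm, P, ρ, lin, lout, h, -, hn⟩ := Net.netA
  obtain ⟨Den, Pg, hP, hc⟩ := swapProg_of_netSpec (by norm_num) h
  have hW0 : 0 < W := by rw [hW]; positivity
  have hm4 : 4 ≤ m := by rw [hm]; norm_num
  have h2 : (2 : ℝ) ≤ (m : ℝ) ^ tauA := by
    have h4 : (4 : ℝ) ≤ m := by exact_mod_cast hm4
    calc (2 : ℝ) = (4 : ℝ) ^ (1 / 2 : ℝ) := by
          rw [show (4 : ℝ) = 2 ^ (2 : ℝ) by norm_num, ← Real.rpow_mul (by norm_num)]; norm_num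
      _ ≤ (m : ℝ) ^ (1 / 2 : ℝ) := Real.rpow_le_rpow (by norm_num) h4 (by norm_num)
      _ ≤ (m : ℝ) ^ tauA :=
          Real.rpow_le_rpow_of_exponent_le (by linarith) (by unfold tauA; norm_num)
  refine ⟨W, m, Den, Pg, ρ, max (ncalls Pg) (2 * W), hW0, by omega, hP, le_max_left _ _,
    lt_of_lt_of_le (by omega) (le_max_right _ _), ?_⟩
  rw [Nat.cast_max]
  refine max_le (le_trans (by exact_mod_cast hc) hn) ?_
  have hW' : (0 : ℝ) ≤ W := Nat.cast_nonneg W
  push_cast
  nlinarith

end Crest.Agent.X326.A
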