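import Crest.Agent.X326.A.Alg
import Crest.Agent.X326.TC.ListLin
import Crest.Agent.X326.TC.MapAccum
import Crest.Agent.X326.TC.Un
import Crest.Agent.X326.A.Spec
import Crest.Agent.X326.A.GathTC
import Crest.Agent.X326.TC.Map
import Crest.Agent.X326.TC.Rec

-- ▼ part X326/A/StreamsTC
section

/-!
Row 326 (S0503), part M2: running time of the stream operations (`xorL`, `splitS`, `splitW`,
`joinS`) and the wrapper turning records of any coded type into bit lists of a common width.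
-/

set_option autoImplicit false

namespace Crest.Agent.X326.A

open Crest.Agent.Lib.PT Crest.Agent.X326

section maps

variable {ι α β γ : Type} [PTCode ι] [PTCode α] [PTCode β] [PTCode γ] {P : ι → Prop} {T : ι → ℕ}

omit [PTCode α] [PTCode β] [PTCode γ] in
theorem accumL_ctx (f : γ → α → β) (c : γ) (l : List α) :
    accumL (fun q : γ × α => (q.1, [f q.1 q.2])) c l = (c, l.map (f c)) := by
  induction l with
  | nil => rfl
  | cons a l ih => simp [ih]

/-- map with a context: linear work on (context, element) for the elements in the domain `Q` -/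
theorem tc_mapCtx {Q : γ × α → Prop} {f : γ → α → β}
    (hf : TC Q (fun _ => 0) (fun q : γ × α => f q.1 q.2)) {c : ι → γ} {l : ι → List α}
    (hc : TC P T c) (hl : TC P T l) (hQ : ∀ x, P x → ∀ a ∈ l x, Q (c x, a))
    (hb : Bud P T (fun x => (l x).length * sz (c x))) :
    TC P T (fun x => (l x).map (f (c x))) := by
  have h1 : TC Q (fun _ => 0) (fun q : γ × α => (q.1, [f q.1 q.2])) :=
    TC.id.fst.prodMk hf.singleton
  have h2 := h1.accumL_inv hc hl (fun x t r => t = c x ∧ ∀ a ∈ r, a ∈ l x)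
    (fun x _ => sz (c x)) (fun x _ => ⟨rfl, fun _ h => h⟩)
    (by
      rintro x hx t a r ⟨rfl, h⟩
      exact ⟨hQ x hx a (h a List.mem_cons_self), by simp,
        rfl, fun b hb => h b (List.mem_cons_of_mem _ hb)⟩)
    (hb.mono fun x _ => by simp)
  exact h2.snd.of_eq fun x => by rw [accumL_ctx]

/-- map with a function that is linear on the domain `Q` -/
theorem tc_map {Q : α → Prop} {f : α → β} (hf : TC Q (fun _ => 0) f) {l : ι → List α}
    (hl : TC P T l) (hQ : ∀ x, P x → ∀ a ∈ l x, Q a) : TC P T (fun x => (l x).map f) :=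
  tc_mapCtx (γ := Unit) (Q := fun q => Q q.2) (f := fun _ a => f a)
    (hf.comp TC.id.snd (fun _ h => h) (Bud.const 0)) (TC.const ()) hl hQ
    ((Bud.const 0).mono fun x _ => by simp)

theorem tc_zipWith {f : α → β → γ} (hf : Lin (fun q : α × β => f q.1 q.2)) {l : ι → List α}
    {l' : ι → List β} (hl : TC P T l) (hl' : TC P T l') :
    TC P T (fun x => List.zipWith f (l x) (l' x)) :=
  (tc_map hf (hl.zip hl') (fun _ _ _ _ => trivial)).of_eq fun x => by
    rw [List.zip, List.map_zipWith]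

end maps

section streams

variable {ι : Type} [PTCode ι] {P : ι → Prop} {T : ι → ℕ}

theorem lin_xorRec : Lin (fun q : Rec × Rec => List.zipWith xor q.1 q.2) :=
  tc_zipWith (TC.id.fst.xor TC.id.snd) TC.id.fst TC.id.snd

@[fun_prop]
theorem tc_xorL {s t : ι → Arr} (hs : TC P T s) (ht : TC P T t) :
    TC P T (fun x => xorL (s x) (t x)) := tc_zipWith lin_xorRec hs ht




/-- one piece of every record; the width of the piece is given in unary -/
theorem tc_splitS (w : ℕ) {z : ι → ℕ} {l : ι → Arr} (hz : TU P T z) (hl : TC P T l)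
    (hb : Bud P T (fun x => (l x).length * z x)) : TC P T (fun x => splitS (z x) w (l x)) := by
  have h1 : Lin (fun q : Un × Rec => (q.2.drop (w * q.1.val)).take q.1.val) :=
    TC.take (TU.val TC.id.fst) (TC.drop ((TU.val TC.id.fst).const_mul w) TC.id.snd)
  exact tc_mapCtx (f := fun (u : Un) (r : Rec) => (r.drop (w * u.val)).take u.val) h1 hz.tc hl
    (fun _ _ _ _ => trivial) (hb.mono fun x _ => by simp)

/-- the `W` streams; the width of the pieces is given in unary -/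
theorem tc_splitW (W : ℕ) {z : ι → ℕ} {l : ι → Arr} (hz : TU P T z) (hl : TC P T l)
    (hb : Bud P T (fun x => (l x).length * z x)) : TC P T (fun x => splitW W (z x) (l x)) :=
  TC.listMap_fixed (List.range W) (g := fun w x => splitS (z x) w (l x))
    fun w _ => tc_splitS w hz hl hb







@[fun_prop]
theorem tc_joinS (L : List ℕ) {ws : ι → List Arr} (hws : TC P T ws) :
    TC P T (fun x => joinS (ws x) L) := by
  induction L with
  | nil =>
    exact tc_map (Q := fun _ => True) (f := fun _ : Rec => ([] : Rec)) (TC.const _)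
      (hws.getD (TU.const 0) (TC.const [])) (fun _ _ _ _ => trivial)
  | cons w L ih => exact tc_zipWith Lin.append (hws.getD (TU.const w) (TC.const [])) ih


/-- the instruction `xor` on the list of streams -/
@[fun_prop]
theorem tc_xorSet (w w' : ℕ) {ws : ι → List Arr} (hws : TC P T ws) :
    TC P T (fun x => (ws x).set w (xorL ((ws x).getD w []) ((ws x).getD w' []))) :=
  hws.set (TU.const w) (tc_xorL (hws.getD (TU.const w) (TC.const []))
    (hws.getD (TU.const w') (TC.const [])))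

end streams

/-! ### records of any coded type as bit lists -/

section wrap

variable {ι α : Type} [PTCode ι] [PTCode α] {P : ι → Prop} {T : ι → ℕ}




/-- the record `a` as a bit list of width `Z` (when `2 * sz a + 1 ≤ Z`) -/
def wrap (Z : ℕ) (a : α) : Rec := pair (enc a) (List.replicate (Z - (2 * sz a + 1)) true)


/-- wrap all records -/
def wrapL (Z : ℕ) (l : List α) : Arr := l.map (wrap Z)





@[simp] theorem length_wrapL (Z : ℕ) (l : List α) : (wrapL Z l).length = l.length := by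
  simp [wrapL]















end wrap

end Crest.Agent.X326.A
end

-- ▼ part X326/A/Stage
section

/-!
Row 326 (S0503), part M2: the stages of one recursion step of part A and their running times.
-/

set_option autoImplicit false

namespace Crest.Agent.X326.A

open Crest.Agent.Lib.PT

/-- running time of a free operation (proved in `A/FreeTC.lean`) -/
def OpStatement : Prop :=
  ∀ (m Den : ℕ) (op : FOp m), 0 < Den → op.ok Den → ∃ k : ℕ, ∀ (ι : Type) [PTCode ι]
    (P : ι → Prop) (T : ι → ℕ) (q wH wD : ι → ℕ) (l : ι → Arr),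
    TC P T q → TC P T wH → TC P T wD → TC P T l →
    (∀ x, P x → 0 < (l x).length ∧ 0 < q x ∧ q x ≡ 1 [MOD Den] ∧
      Geo (q x ^ m) (wH x) (wD x) (l x).length) →
    Bud P T (fun x => ovh k (l x).length (Nat.size (l x).length)) →
    TC P T (fun x => perm [] (opIdx (q x) (wH x) (wD x) op) (l x))

/-- running time of an interchange of bounded range (proved in `A/FreeTC.lean`) -/
def SmallStatement : Prop :=
  ∀ K : ℕ, ∃ k : ℕ, ∀ (ι : Type) [PTCode ι]
    (P : ι → Prop) (T : ι → ℕ) (q wH wD : ι → ℕ) (l : ι → Arr),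
    TC P T q → TC P T wH → TC P T wD → TC P T l →
    (∀ x, P x → 0 < (l x).length ∧ q x ≤ K ∧ Geo (q x) (wH x) (wD x) (l x).length) →
    Bud P T (fun x => ovh k (l x).length (Nat.size (l x).length)) →
    TC P T (fun x => swapL [] (q x) (wH x) (wD x) (l x))

/-- inputs of a call: `((E, wH, wD), l)` -/
abbrev XA : Type := (Un × ℕ × ℕ) × Arr

/-- states of a call: `((E', q, wH, wD), streams)` -/
abbrev ZA : Type := (Un × ℕ × ℕ × ℕ) × List Arr

/-- the result of a call -/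
def resA (R : ℕ) (x : XA) : Arr := swapL [] (R ^ x.1.1.val) x.1.2.1 x.1.2.2 x.2

/-- first stage: the interchange of the low parts, and the cut into streams -/
def preA (W m R : ℕ) (x : XA) : ZA :=
  ((⟨x.1.1.val / m⟩, R ^ (x.1.1.val / m), x.1.2.1 * R ^ (x.1.1.val % m),
      x.1.2.2 * R ^ (x.1.1.val % m)),
    splitW W ((x.2.headD []).length / W) (swapL [] (R ^ (x.1.1.val % m)) x.1.2.1 x.1.2.2 x.2))

/-- one instruction on a state -/
def execZ {W m : ℕ} (z : ZA) (ins : Ins W m) : ZA :=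
  (z.1, execL z.1.2.1 z.1.2.2.1 z.1.2.2.2 z.2 ins)

/-- the input of a child call -/
def getX {m : ℕ} (w : ℕ) (i j : Fin m) (z : ZA) : XA :=
  ((z.1.1, wt z.1.2.1 z.1.2.2.1 z.1.2.2.2 (.inl i), wt z.1.2.1 z.1.2.2.1 z.1.2.2.2 (.inr j)),
    z.2.getD w [])

/-- store the result of a child call -/
def putZ (w : ℕ) (z : ZA) (y : Arr) : ZA := (z.1, z.2.set w y)

/-- invariant of the inputs: `n` records of width `z0 * W ^ depth` -/
def InvX (W m R n z0 : ℕ) (x : XA) : Prop :=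
  0 < n ∧ Geo (R ^ x.1.1.val) x.1.2.1 x.1.2.2 n ∧ Shape n (z0 * W ^ dep m x.1.1.val) x.2

/-- invariant of the states -/
def InvZ (W m R n z0 : ℕ) (z : ZA) : Prop :=
  0 < n ∧ z.1.2.1 = R ^ z.1.1.val ∧ Geo (z.1.2.1 ^ m) z.1.2.2.1 z.1.2.2.2 n ∧
    WS W n (z0 * W ^ dep m z.1.1.val) z.2

section pure

variable {W m R Den n z0 : ℕ}

theorem Shape.headD {z : ℕ} {l : Arr} (h : Shape n z l) (hn : 0 < n) :
    (l.headD []).length = z := by
  have := h.getD hn
  rwa [← List.headD_eq_getD] at this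

theorem InvX.pre (hW : 0 < W) (hm : 2 ≤ m) {x : XA} (h : InvX W m R n z0 x)
    (hE : x.1.1.val ≠ 0) : InvZ W m R n z0 (preA W m R x) := by
  obtain ⟨hn, g, hs⟩ := h
  rw [pow_split R _ m] at g
  rw [dep_pos hm hE, pow_succ, ← Nat.mul_assoc, Nat.mul_comm] at hs
  refine ⟨hn, rfl, g.high, ?_⟩
  simp only [preA]
  rw [hs.headD hn, Nat.mul_div_cancel_left _ hW]
  exact (hs.swapL g.low).splitW

theorem InvZ.q_pos (hR : 0 < R) {z : ZA} (h : InvZ W m R n z0 z) : 0 < z.1.2.1 := by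
  rw [h.2.1]; exact pow_pos hR _

theorem InvZ.q_mod (hRD : R ≡ 1 [MOD Den]) {z : ZA} (h : InvZ W m R n z0 z) :
    z.1.2.1 ≡ 1 [MOD Den] := by
  rw [h.2.1]; simpa using hRD.pow _

theorem InvZ.exec (hR : 0 < R) (hDen : 0 < Den) (hRD : R ≡ 1 [MOD Den]) {z : ZA}
    (h : InvZ W m R n z0 z) (ins : Ins W m) (hins : ins.ok Den) :
    InvZ W m R n z0 (execZ z ins) :=
  ⟨h.1, h.2.1, h.2.2.1, h.2.2.2.execL (h.q_pos hR) h.2.2.1 hDen (h.q_mod hRD) ins hins⟩

theorem InvZ.get (hR : 0 < R) {z : ZA} (h : InvZ W m R n z0 z) (w : Fin W) (i j : Fin m) :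
    InvX W m R n z0 (getX w i j z) := by
  refine ⟨h.1, ?_, h.2.2.2.getD w.2⟩
  have := h.2.2.1.child (h.q_pos hR) i j
  simp only [getX]
  rwa [← h.2.1]

theorem InvZ.put_res {z : ZA} (h : InvZ W m R n z0 z) (w : Fin W) (i j : Fin m) :
    putZ w z (resA R (getX w i j z)) = execZ z (.call w i j) := by
  simp only [putZ, resA, getX, execZ, execL, ← h.2.1]

theorem foldl_execZ (P : List (Ins W m)) (z : ZA) :
    (P.foldl execZ z).2 = P.foldl (execL z.1.2.1 z.1.2.2.1 z.1.2.2.2) z.2 := by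
  induction P generalizing z with
  | nil => rfl
  | cons ins P ih => rw [List.foldl_cons, ih]; rfl

theorem InvX.step {P : List (Ins W m)} {ρ : Fin W ≃ Fin W} (hP : SwapProg Den P ρ) (hW : 0 < W)
    (hm : 2 ≤ m) (hR : 0 < R) (hRD : R ≡ 1 [MOD Den]) {x : XA} (h : InvX W m R n z0 x)
    (hE : x.1.1.val ≠ 0) :
    joinS (P.foldl execZ (preA W m R x)).2 (outOrder ρ) = resA R x := by
  obtain ⟨hn, g, hs⟩ := h
  rw [dep_pos hm hE, pow_succ, ← Nat.mul_assoc, Nat.mul_comm] at hs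
  rw [foldl_execZ]
  simp only [preA]
  rw [hs.headD hn, Nat.mul_div_cancel_left _ hW]
  exact step_eq hP hW hR hRD g hs

theorem resA_zero {x : XA} (hE : x.1.1.val = 0) : resA R x = x.2 := by
  rw [resA, hE, pow_zero, swapL_one]

theorem Geo.le {Q wH wD : ℕ} (g : Geo Q wH wD n) (hn : 0 < n) : Q ≤ n ∧ wH ≤ n ∧ wD ≤ n := by
  have h2 := Nat.le_of_dvd hn g.h2
  have h1 := Nat.le_of_dvd g.hH g.h1
  have a1 : Q ≤ wH * Q := Nat.le_mul_of_pos_left _ g.hH
  have a2 : wH ≤ wH * Q := Nat.le_mul_of_pos_right _ g.hq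
  have a3 : wD ≤ wD * Q := Nat.le_mul_of_pos_right _ g.hq
  omega

theorem Shape.sz_eq {z : ℕ} {l : Arr} (h : Shape n z l) : sz l = n * (6 * z + 1) := by
  obtain ⟨rfl, h⟩ := h
  induction l with
  | nil => simp
  | cons r l ih =>
    rw [sz_cons, ih fun r hr => h r (List.mem_cons_of_mem _ hr), sz_listBool,
      h r List.mem_cons_self, List.length_cons]
    ring

theorem WS.sz_eq {z : ℕ} {ws : List Arr} (h : WS W n z ws) :
    sz ws = W * (2 * (n * (6 * z + 1)) + 1) := by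
  obtain ⟨rfl, h⟩ := h
  induction ws with
  | nil => simp
  | cons s ws ih =>
    rw [sz_cons, ih fun r hr => h r (List.mem_cons_of_mem _ hr), (h s List.mem_cons_self).sz_eq,
      List.length_cons]
    ring

theorem InvX.sz_le (hR : 2 ≤ R) {x : XA} (h : InvX W m R n z0 x) :
    sz x ≤ n * (6 * (z0 * W ^ dep m x.1.1.val) + 1) + 10 * n + 7 := by
  obtain ⟨hn, g, hs⟩ := h
  obtain ⟨h1, h2, h3⟩ := g.le hn
  have h4 : x.1.1.val ≤ R ^ x.1.1.val := (Nat.lt_pow_self (by omega)).le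
  have h5 := sz_nat_le x.1.2.1
  have h6 := sz_nat_le x.1.2.2
  simp only [sz_prod, hs.sz_eq]
  have : sz x.1.1 = x.1.1.val := sz_un _
  omega

theorem InvZ.q_le (hm : 2 ≤ m) {z : ZA} (h : InvZ W m R n z0 z) : z.1.2.1 ≤ n :=
  (Nat.le_self_pow (by omega) _).trans (h.2.2.1.le h.1).1

theorem InvZ.sz_le (hm : 2 ≤ m) (hR : 2 ≤ R) {z : ZA} (h : InvZ W m R n z0 z) :
    sz z ≤ W * (2 * (n * (6 * (z0 * W ^ dep m z.1.1.val) + 1)) + 1) + 14 * n + 11 := by
  have h0 := h.q_le hm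
  obtain ⟨hn, hq, g, hs⟩ := h
  obtain ⟨-, h2, h3⟩ := g.le hn
  have h4 : z.1.1.val ≤ R ^ z.1.1.val := (Nat.lt_pow_self (by omega)).le
  have h5 := sz_nat_le z.1.2.1
  have h6 := sz_nat_le z.1.2.2.1
  have h7 := sz_nat_le z.1.2.2.2
  simp only [sz_prod, hs.sz_eq]
  have : sz z.1.1 = z.1.1.val := sz_un _
  omega

end pure

section stages

variable {W m R Den : ℕ}

/-- domain of the inputs -/
def DomX (W m R : ℕ) (x : XA) : Prop := ∃ n z0, InvX W m R n z0 x

/-- domain of the states -/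
def DomZ (W m R : ℕ) (z : ZA) : Prop := ∃ n z0, InvZ W m R n z0 z

/-- per-record overhead of an input -/
def ovX (k : ℕ) (x : XA) : ℕ := ovh k x.2.length (Nat.size x.2.length)

/-- per-record overhead of a state -/
def ovZ (k : ℕ) (z : ZA) : ℕ := ovh k (z.2.getD 0 []).length (Nat.size (z.2.getD 0 []).length)

theorem tc_preA (hS : SmallStatement) (hm : 2 ≤ m) (hR : 0 < R) :
    ∃ k, TC (DomX W m R) (ovX k) (preA W m R) := by
  obtain ⟨k, hk⟩ := hS (R ^ m)
  refine ⟨k, ?_⟩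
  have hE : TU (DomX W m R) (ovX k) (fun x : XA => x.1.1.val) := TU.val TC.id.fst.fst
  have hl : TC (DomX W m R) (ovX k) (fun x : XA => x.2) := TC.id.snd
  have hH : TC (DomX W m R) (ovX k) (fun x : XA => x.1.2.1) := TC.id.fst.snd.fst
  have hD : TC (DomX W m R) (ovX k) (fun x : XA => x.1.2.2) := TC.id.fst.snd.snd
  have hn : Bud (DomX W m R) (ovX k) (fun x : XA => x.2.length) := hl.bud_length
  have hE1 := hE.div (TU.const m)
  have hE2 := hE.mod (TU.const m)
  have hq : TC (DomX W m R) (ovX k) (fun x : XA => R ^ (x.1.1.val / m)) :=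
    TC.pow_of_bud (TU.const R) hE1 (hn.mono fun x ⟨n, z0, h0, g, hs⟩ => by
      rw [hs.1]
      exact (Nat.pow_le_pow_right hR (Nat.div_le_self _ _)).trans (g.le h0).1)
  have hr : TC (DomX W m R) (ovX k) (fun x : XA => R ^ (x.1.1.val % m)) :=
    TC.pow_of_bud (TU.const R) hE2 ((Bud.const (R ^ m)).mono fun x _ =>
      Nat.pow_le_pow_right hR (Nat.mod_lt _ (by omega)).le)
  have hrs : Small (DomX W m R) (ovX k) (fun x : XA => sz (R ^ (x.1.1.val % m))) :=
    Small.sz_nat ((Bud.const (R ^ m)).mono fun x _ =>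
      Nat.pow_le_pow_right hR (Nat.mod_lt _ (by omega)).le)
  have hH' : TC (DomX W m R) (ovX k) (fun x : XA => x.1.2.1 * R ^ (x.1.1.val % m)) :=
    TC.ptf₂ (g := fun a b : ℕ => a * b) (by pt_prop) hH hr
      (Small.sz_nat (hn.mono fun x ⟨n, z0, h0, g, hs⟩ => hs.1 ▸ (g.le h0).2.1)) hrs
  have hD' : TC (DomX W m R) (ovX k) (fun x : XA => x.1.2.2 * R ^ (x.1.1.val % m)) :=
    TC.ptf₂ (g := fun a b : ℕ => a * b) (by pt_prop) hD hr
      (Small.sz_nat (hn.mono fun x ⟨n, z0, h0, g, hs⟩ => hs.1 ▸ (g.le h0).2.2)) hrs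
  have hs : TC (DomX W m R) (ovX k)
      (fun x : XA => swapL [] (R ^ (x.1.1.val % m)) x.1.2.1 x.1.2.2 x.2) :=
    hk _ _ _ _ _ _ _ hr hH hD hl (fun x ⟨n, z0, h0, g, hs⟩ => by
      rw [pow_split R _ m] at g
      rw [hs.1]
      exact ⟨h0, Nat.pow_le_pow_right hR (Nat.mod_lt _ (by omega)).le, g.low⟩) Bud.self
  have hz : TU (DomX W m R) (ovX k) (fun x : XA => (x.2.headD []).length / W) :=
    (TU.length (TC.headD hl (TC.const []))).div (TU.const W)
  refine (TC.prodMk hE1 (hq.prodMk (hH'.prodMk hD'))).prodMk (tc_splitW W hz hs ?_)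
  refine hl.sz.mono fun x ⟨n, z0, h0, g, hs⟩ => ?_
  rw [length_swapL, hs.headD h0, hs.sz_eq, hs.1]
  exact Nat.mul_le_mul_left _ ((Nat.div_le_self _ _).trans (by omega))

theorem tc_execZ (hO : OpStatement) (hW : 0 < W) (hR : 0 < R) (hDen : 0 < Den)
    (hRD : R ≡ 1 [MOD Den]) (ins : Ins W m) (hins : ins.ok Den) (hc : ins.isCall = false) :
    ∃ k, TC (DomZ W m R) (ovZ k) (fun z => execZ z ins) := by
  rcases ins with ⟨w, w'⟩ | ⟨w, op⟩ | ⟨w, i, j⟩
  · exact ⟨0, TC.id.fst.prodMk (TC.set TC.id.snd (TU.const _) (tc_xorL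
      (TC.getD TC.id.snd (TU.const _) (TC.const _)) (TC.getD TC.id.snd (TU.const _) (TC.const _))))⟩
  · obtain ⟨k, hk⟩ := hO m Den op hDen hins
    refine ⟨k, TC.id.fst.prodMk (TC.set TC.id.snd (TU.const _) ?_)⟩
    refine hk _ _ _ _ _ _ _ TC.id.fst.snd.fst TC.id.fst.snd.snd.fst TC.id.fst.snd.snd.snd
      (TC.getD TC.id.snd (TU.const _) (TC.const _)) (fun z ⟨n, z0, h⟩ => ?_)
      (Bud.self.mono fun z ⟨n, z0, h⟩ => ?_)
    · rw [(h.2.2.2.getD w.2).1]
      exact ⟨h.1, h.q_pos hR, h.q_mod hRD, h.2.2.1⟩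
    · rw [ovZ, (h.2.2.2.getD w.2).1, (h.2.2.2.getD hW).1]
  · simp [Ins.isCall] at hc

theorem tc_getX (hW : 0 < W) (hm : 2 ≤ m) (k : ℕ) (w : ℕ) (i j : Fin m) :
    TC (DomZ W m R) (ovZ k) (getX w i j) := by
  have hn : Bud (DomZ W m R) (ovZ k) (fun z : ZA => (z.2.getD 0 []).length) :=
    (TC.getD TC.id.snd (TU.const _) (TC.const _)).bud_length
  have hq : Small (DomZ W m R) (ovZ k) (fun z : ZA => sz z.1.2.1) :=
    Small.sz_nat (hn.mono fun z ⟨n, z0, h⟩ => (h.2.2.2.getD hW).1 ▸ h.q_le hm)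
  have hH : Small (DomZ W m R) (ovZ k) (fun z : ZA => sz z.1.2.2.1) :=
    Small.sz_nat (hn.mono fun z ⟨n, z0, h⟩ => (h.2.2.2.getD hW).1 ▸ (h.2.2.1.le h.1).2.1)
  have hD : Small (DomZ W m R) (ovZ k) (fun z : ZA => sz z.1.2.2.2) :=
    Small.sz_nat (hn.mono fun z ⟨n, z0, h⟩ => (h.2.2.2.getD hW).1 ▸ (h.2.2.1.le h.1).2.2)
  have h1 : TC (DomZ W m R) (ovZ k) (fun z : ZA => z.1.2.2.1 * z.1.2.1 ^ (m - 1 - i)) :=
    TC.ptf₂ (g := fun a b : ℕ => a * b ^ (m - 1 - i)) (by pt_prop) TC.id.fst.snd.snd.fst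
      TC.id.fst.snd.fst hH hq
  have h2 : TC (DomZ W m R) (ovZ k) (fun z : ZA => z.1.2.2.2 * z.1.2.1 ^ (m - 1 - j)) :=
    TC.ptf₂ (g := fun a b : ℕ => a * b ^ (m - 1 - j)) (by pt_prop) TC.id.fst.snd.snd.snd
      TC.id.fst.snd.fst hD hq
  exact (TC.id.fst.fst.prodMk (h1.prodMk h2)).prodMk (TC.getD TC.id.snd (TU.const _) (TC.const _))

end stages

end Crest.Agent.X326.A
end

-- ▼ part X326/A/Rec

/-!
Row 326 (S0503), part M2: the recursion of part A on the recursion machine.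
-/

set_option autoImplicit false

namespace Crest.Agent.X326.A

open Crest.Agent.Lib.PT

section defs

variable {W m : ℕ}

/-- frames: the position of the pending call in the program and the state -/
abbrev KA (L : ℕ) : Type := Fin (L + 1) × ZA

/-- run the rest of the program up to the next call or to the end -/
def resume (L : ℕ) (ord : List ℕ) : List (Ins W m) → ℕ → ZA → (KA L × XA) ⊕ Arr
  | [], _, z => .inr (joinS z.2 ord)
  | .call w i j :: _, pc, z => .inl ((Fin.ofNat (L + 1) pc, z), getX w i j z)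
  | .xor w w' :: rest, pc, z => resume L ord rest (pc + 1) (execZ z (.xor w w' : Ins W m))
  | .free w op :: rest, pc, z => resume L ord rest (pc + 1) (execZ z (.free w op))

/-- the wire of the call at position `c` -/
def wireAt (Pg : List (Ins W m)) (c : ℕ) : ℕ :=
  match Pg[c]? with
  | some (.call w _ _) => w
  | _ => 0

/-- continue after the call at position `c` -/
def cont (L : ℕ) (ord : List ℕ) (Pg : List (Ins W m)) (c : Fin (L + 1)) (a : KA L × Arr) :
    (KA L × XA) ⊕ Arr :=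
  resume L ord (Pg.drop (c + 1)) (c + 1) (putZ (wireAt Pg c) a.1.2 a.2)

/-- start a call -/
def start (R L : ℕ) (ord : List ℕ) (Pg : List (Ins W m)) (x : XA) : (KA L × XA) ⊕ Arr :=
  if x.1.1.val = 0 then .inr x.2 else resume L ord Pg 0 (preA W m R x)

/-- the transition function of the recursion machine -/
def stepA (R L : ℕ) (ord : List ℕ) (Pg : List (Ins W m)) :
    XA ⊕ (KA L × Arr) → (KA L × XA) ⊕ Arr :=
  Sum.elim (start R L ord Pg) (fun a => cont L ord Pg a.1.1 a)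

/-- domain of the returns -/
def DomK (W m R L : ℕ) (a : KA L × Arr) : Prop :=
  ∃ n z0, InvZ W m R n z0 a.1.2 ∧ Shape n (z0 * W ^ dep m a.1.2.1.1.val) a.2

/-- domain of the transitions -/
def DomA (W m R L : ℕ) : XA ⊕ (KA L × Arr) → Prop := Sum.elim (DomX W m R) (DomK W m R L)

/-- per-record overhead of the transitions -/
def ovA (L k : ℕ) : XA ⊕ (KA L × Arr) → ℕ := Sum.elim (ovX k) (fun a => ovZ k a.1.2)

end defs

section tc

variable {W m R Den L : ℕ}

theorem InvZ.ovZ {n z0 : ℕ} (hW : 0 < W) {z : ZA} (h : InvZ W m R n z0 z) (k : ℕ) :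
    ovZ k z = ovh k n (Nat.size n) := by rw [A.ovZ, (h.2.2.2.getD hW).1]

theorem InvX.ovX {n z0 : ℕ} {x : XA} (h : InvX W m R n z0 x) (k : ℕ) :
    ovX k x = ovh k n (Nat.size n) := by rw [A.ovX, h.2.2.1]

theorem InvZ.put {n z0 : ℕ} {z : ZA} (h : InvZ W m R n z0 z) (w : ℕ) {y : Arr}
    (hy : Shape n (z0 * W ^ dep m z.1.1.val) y) : InvZ W m R n z0 (putZ w z y) :=
  ⟨h.1, h.2.1, h.2.2.1, h.2.2.2.set w hy⟩

theorem tc_ovZ_mono {β : Type} [PTCode β] {D : ZA → Prop} {f : ZA → β} {k k' : ℕ}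
    (h : TC D (ovZ k) f) (hk : k ≤ k') : TC D (ovZ k') f :=
  h.le fun _ _ => ovh_mono hk le_rfl le_rfl

theorem tc_resume (hO : OpStatement) (hW : 0 < W) (hm : 2 ≤ m) (hR : 0 < R) (hDen : 0 < Den)
    (hRD : R ≡ 1 [MOD Den]) (ord : List ℕ) :
    ∀ (rest : List (Ins W m)) (_ : ∀ ins ∈ rest, ins.ok Den) (pc : ℕ),
      ∃ k, TC (DomZ W m R) (ovZ k) (resume L ord rest pc) := by
  intro rest
  induction rest with
  | nil => exact fun _ _ => ⟨0, TC.inr (tc_joinS ord TC.id.snd)⟩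
  | cons ins rest ih =>
    intro hok pc
    have hfree : ins.isCall = false →
        ∃ k, TC (DomZ W m R) (ovZ k) (fun z => resume L ord rest (pc + 1) (execZ z ins)) := by
      intro hc
      have hins := hok ins List.mem_cons_self
      obtain ⟨k1, h1⟩ := tc_execZ (R := R) hO hW hR hDen hRD ins hins hc
      obtain ⟨k2, h2⟩ := ih (fun i hi => hok i (List.mem_cons_of_mem _ hi)) (pc + 1)
      refine ⟨max k1 k2, h2.comp (tc_ovZ_mono h1 (le_max_left _ _))
        (fun z ⟨n, z0, h⟩ => ⟨n, z0, h.exec hR hDen hRD ins hins⟩)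
        (Bud.self.mono fun z ⟨n, z0, h⟩ => ?_)⟩
      rw [(h.exec hR hDen hRD ins hins).ovZ hW, h.ovZ hW]
      exact ovh_mono (le_max_right _ _) le_rfl le_rfl
    rcases ins with ⟨w, w'⟩ | ⟨w, op⟩ | ⟨w, i, j⟩
    · exact hfree rfl
    · exact hfree rfl
    · exact ⟨0, TC.inl (((TC.const _).prodMk TC.id).prodMk (tc_getX hW hm 0 w i j))⟩

theorem exists_uniform {ι : Type} [Finite ι] {p : ι → ℕ → Prop}
    (hmono : ∀ i k k', k ≤ k' → p i k → p i k') (h : ∀ i, ∃ k, p i k) : ∃ k, ∀ i, p i k := by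
  choose f hf using h
  obtain ⟨k, hk⟩ := (Set.finite_range f).bddAbove
  exact ⟨k, fun i => hmono i _ _ (hk ⟨i, rfl⟩) (hf i)⟩

theorem tc_stepA (hO : OpStatement) (hS : SmallStatement) (hW : 0 < W) (hm : 2 ≤ m) (hR : 0 < R)
    (hDen : 0 < Den) (hRD : R ≡ 1 [MOD Den]) (ord : List ℕ) (Pg : List (Ins W m))
    (hok : ∀ ins ∈ Pg, ins.ok Den) :
    ∃ k, TC (DomA W m R L) (ovA L k) (stepA R L ord Pg) := by
  obtain ⟨k1, h1⟩ := tc_preA (W := W) hS hm hR
  obtain ⟨k2, h2⟩ := tc_resume (L := L) hO hW hm hR hDen hRD ord Pg hok 0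
  obtain ⟨k3, h3⟩ := exists_uniform (ι := Fin (L + 1))
    (p := fun c k => TC (DomZ W m R) (ovZ k) (resume L ord (Pg.drop (c + 1)) (c + 1)))
    (fun _ _ _ hk h => tc_ovZ_mono h hk)
    (fun c => tc_resume hO hW hm hR hDen hRD ord _
      (fun i hi => hok i (List.mem_of_mem_drop hi)) _)
  refine ⟨max k1 (max k2 k3), TC.sumElim ?_ ?_⟩
  · refine TC.ite' (P := DomX W m R) (T := ovX (max k1 (max k2 k3)))
      (TU.val TC.id.fst.fst).decide_eq_zero (TC.inr TC.id.snd) ?_
    refine h2.comp ((h1.le fun _ _ => ovh_mono (le_max_left _ _) le_rfl le_rfl).restrict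
      fun _ h => h.1) (fun x ⟨⟨n, z0, h⟩, hE⟩ => ⟨n, z0, h.pre hW hm hE⟩)
      (Bud.self.mono fun x ⟨⟨n, z0, h⟩, hE⟩ => ?_)
    rw [(h.pre hW hm hE).ovZ hW, h.ovX]
    exact ovh_mono (by omega) le_rfl le_rfl
  · refine TC.finite_cases (P := DomK W m R L) (T := fun a => ovZ (max k1 (max k2 k3)) a.1.2)
      (f := fun c a => cont L ord Pg c a) TC.id.fst.fst fun c => ?_
    refine (h3 c).comp (f := fun a : KA L × Arr => putZ (wireAt Pg c) a.1.2 a.2)
      (TC.id.fst.snd.fst.prodMk (TC.set TC.id.fst.snd.snd (TU.const _) TC.id.snd))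
      (fun a ⟨n, z0, h, hy⟩ => ⟨n, z0, h.put _ hy⟩) (Bud.self.mono fun a ⟨n, z0, h, hy⟩ => ?_)
    rw [(h.put _ hy).ovZ hW, h.ovZ hW]
    exact ovh_mono (by omega) le_rfl le_rfl

end tc

section run

variable {W m R Den n z0 : ℕ}

theorem drop_eq_cons {α : Type} {l rest : List α} {a : α} {c : ℕ} (h : l.drop c = a :: rest) :
    c < l.length ∧ l[c]? = some a ∧ l.drop (c + 1) = rest := by
  have h1 : c < l.length := by
    by_contra hc
    rw [List.drop_eq_nil_of_le (by omega)] at h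
    simp at h
  refine ⟨h1, ?_, ?_⟩
  · rw [← List.head?_drop, h]; rfl
  · rw [← List.drop_drop, h]; rfl

/-- one node of the recursion, from a given position of the program on -/
theorem recRun_rest (hR : 0 < R) (hDen : 0 < Den) (hRD : R ≡ 1 [MOD Den]) (ord : List ℕ)
    (Pg : List (Ins W m)) (hok : ∀ ins ∈ Pg, ins.ok Den) (k E N c : ℕ)
    (hchild : ∀ x : XA, InvX W m R n z0 x → x.1.1.val = E → ∃ t,
      RecRun (stepA R Pg.length ord Pg) (DomA W m R Pg.length) (ovA Pg.length k) (.inl x)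
        (resA R x) t ∧ t ≤ N)
    (hret : ∀ (pc : Fin (Pg.length + 1)) (z : ZA) (y : Arr), InvZ W m R n z0 z → z.1.1.val = E →
      Shape n (z0 * W ^ dep m E) y → ovA Pg.length k (.inr ((pc, z), y)) +
        sz (Sum.inr ((pc, z), y) : XA ⊕ (KA Pg.length × Arr)) + 1 ≤ c) :
    ∀ (rest : List (Ins W m)) (pc : ℕ) (z : ZA) (a : XA ⊕ (KA Pg.length × Arr)),
      Pg.drop pc = rest → InvZ W m R n z0 z → z.1.1.val = E → DomA W m R Pg.length a →
      stepA R Pg.length ord Pg a = resume Pg.length ord rest pc z → ∃ t,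
      RecRun (stepA R Pg.length ord Pg) (DomA W m R Pg.length) (ovA Pg.length k) a
        (joinS (rest.foldl execZ z).2 ord) t ∧
        t ≤ ovA Pg.length k a + sz a + 1 + ncalls rest * (N + c) := by
  intro rest
  induction rest with
  | nil => exact fun pc z a _ _ _ ha hs => ⟨_, RecRun.ret ha hs, by simp⟩
  | cons ins rest ih =>
    intro pc z a hd hz hE ha hs
    obtain ⟨hpc, hget, hd'⟩ := drop_eq_cons hd
    have hins : ins.ok Den := hok ins (List.mem_of_getElem? hget)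
    rcases ins with ⟨w, w'⟩ | ⟨w, op⟩ | ⟨w, i, j⟩
    · simpa [ncalls, Ins.isCall] using
        ih (pc + 1) _ a hd' (hz.exec hR hDen hRD _ hins) hE ha hs
    · simpa [ncalls, Ins.isCall] using
        ih (pc + 1) _ a hd' (hz.exec hR hDen hRD _ hins) hE ha hs
    · have hx := hz.get hR w i j
      obtain ⟨t1, r1, ht1⟩ := hchild _ hx hE
      have hy : Shape n (z0 * W ^ dep m z.1.1.val) (resA R (getX w i j z)) :=
        hx.2.2.swapL hx.2.1
      have hv : ((Fin.ofNat (Pg.length + 1) pc : Fin (Pg.length + 1)) : ℕ) = pc :=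
        Nat.mod_eq_of_lt (by omega)
      obtain ⟨t2, r2, ht2⟩ := ih (pc + 1) (execZ z (.call w i j))
        (.inr ((Fin.ofNat (Pg.length + 1) pc, z), resA R (getX w i j z))) hd'
        (hz.exec hR hDen hRD _ hins) hE ⟨n, z0, hz, hy⟩ (by
          simp only [stepA, Sum.elim_inr, cont, hv, hd', wireAt, hget]
          rw [hz.put_res])
      have h3 := hret (Fin.ofNat (Pg.length + 1) pc) z _ hz hE (hE ▸ hy)
      refine ⟨_, RecRun.call ha hs r1 r2, ?_⟩
      have e : ncalls (Ins.call w i j :: rest) = ncalls rest + 1 :=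
        List.countP_cons_of_pos rfl
      rw [e, Nat.add_mul, Nat.one_mul]
      omega

theorem unit_bounds (hW : 0 < W) (hn : 0 < n) (k d : ℕ) :
    1 ≤ W ^ d * (n * (z0 + (Nat.size n + 1) ^ k)) ∧
    n ≤ W ^ d * (n * (z0 + (Nat.size n + 1) ^ k)) ∧
    ovh k n (Nat.size n) ≤ W ^ d * (n * (z0 + (Nat.size n + 1) ^ k)) ∧
    n * (z0 * W ^ d) ≤ W ^ d * (n * (z0 + (Nat.size n + 1) ^ k)) := by
  have h1 : 1 ≤ W ^ d := Nat.one_le_pow _ _ hW
  have h2 : 1 ≤ (Nat.size n + 1) ^ k := Nat.one_le_pow _ _ (by omega)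
  have h3 : ovh k n (Nat.size n) ≤ n * (z0 + (Nat.size n + 1) ^ k) :=
    Nat.mul_le_mul_left _ (Nat.le_add_left _ _)
  have h4 : n * (z0 + (Nat.size n + 1) ^ k) ≤ W ^ d * (n * (z0 + (Nat.size n + 1) ^ k)) :=
    Nat.le_mul_of_pos_left _ h1
  have h5 := le_ovh k n (Nat.size n)
  refine ⟨by omega, by omega, by omega, ?_⟩
  rw [← Nat.mul_assoc, Nat.mul_comm]
  exact Nat.mul_le_mul_left _ (Nat.mul_le_mul_left _ (Nat.le_add_right _ _))

theorem cost_inl (hW : 0 < W) (hR : 2 ≤ R) (L k : ℕ) {x : XA} (h : InvX W m R n z0 x) :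
    ovA L k (.inl x) + sz (Sum.inl x : XA ⊕ (KA L × Arr)) + 1 ≤
      (30 * W + 2 * L + 60) * (W ^ dep m x.1.1.val * (n * (z0 + (Nat.size n + 1) ^ k))) := by
  obtain ⟨u1, u2, u3, u4⟩ := unit_bounds (z0 := z0) hW h.1 k (dep m x.1.1.val)
  have h1 := h.sz_le hR
  have h2 : ovA L k (.inl x) = ovh k n (Nat.size n) := h.ovX k
  rw [sz_inl, h2]
  generalize W ^ dep m x.1.1.val * (n * (z0 + (Nat.size n + 1) ^ k)) = U at *
  have e : n * (6 * (z0 * W ^ dep m x.1.1.val) + 1) = 6 * (n * (z0 * W ^ dep m x.1.1.val)) + n := by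
    ring
  have h3 : 60 * U ≤ (30 * W + 2 * L + 60) * U := Nat.mul_le_mul_right _ (by omega)
  omega

theorem cost_inr (hW : 0 < W) (hm : 2 ≤ m) (hR : 2 ≤ R) (L k : ℕ) (pc : Fin (L + 1)) {z : ZA}
    (h : InvZ W m R n z0 z) {y : Arr} (hy : Shape n (z0 * W ^ dep m z.1.1.val) y) :
    ovA L k (.inr ((pc, z), y)) + sz (Sum.inr ((pc, z), y) : XA ⊕ (KA L × Arr)) + 1 ≤
      (30 * W + 4 * L + 70) * (W ^ dep m z.1.1.val * (n * (z0 + (Nat.size n + 1) ^ k))) := by
  obtain ⟨u1, u2, u3, u4⟩ := unit_bounds (z0 := z0) hW h.1 k (dep m z.1.1.val)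
  have h1 := h.sz_le hm hR
  have h2 : ovA L k (.inr ((pc, z), y)) = ovh k n (Nat.size n) := h.ovZ hW k
  have h3 : sz pc ≤ L := by
    rw [sz_fin]
    exact (size_le_self _).trans (Nat.lt_succ_iff.1 pc.2)
  rw [sz_inr, sz_prod, sz_prod, h2, hy.sz_eq]
  dsimp only
  generalize W ^ dep m z.1.1.val * (n * (z0 + (Nat.size n + 1) ^ k)) = U at *
  have e : n * (6 * (z0 * W ^ dep m z.1.1.val) + 1) = 6 * (n * (z0 * W ^ dep m z.1.1.val)) + n := by
    ring
  rw [e] at h1 ⊢
  have h4 : W * (2 * (6 * (n * (z0 * W ^ dep m z.1.1.val)) + n) + 1) ≤ W * (15 * U) :=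
    Nat.mul_le_mul_left _ (by omega)
  have h5 : L ≤ L * U := Nat.le_mul_of_pos_right _ u1
  have e2 : (30 * W + 4 * L + 70) * U = 2 * (W * (15 * U)) + 4 * (L * U) + 70 * U := by ring
  omega

/-- the whole recursion tree -/
theorem recRun_all {Pg : List (Ins W m)} {ρ : Fin W ≃ Fin W} (hP : SwapProg Den Pg ρ)
    (hW : 0 < W) (hm : 2 ≤ m) (hR : 2 ≤ R) (hRD : R ≡ 1 [MOD Den]) {s : ℕ} (hs : ncalls Pg ≤ s)
    (hWs : W < s) (k : ℕ) {c U : ℕ} (hc : c = 30 * W + 4 * Pg.length + 70)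
    (hU : U = n * (z0 + (Nat.size n + 1) ^ k)) :
    ∀ (d : ℕ) (x : XA), InvX W m R n z0 x → dep m x.1.1.val = d → ∃ t,
      RecRun (stepA R Pg.length (outOrder ρ) Pg) (DomA W m R Pg.length) (ovA Pg.length k)
        (.inl x) (resA R x) t ∧
        t + (s + 1) * c * W * (W ^ d * U) ≤ (c + (s + 1) * c * W) * (s ^ d * U) := by
  intro d
  induction d with
  | zero =>
    intro x hx hd
    have hE : x.1.1.val = 0 := by
      by_contra hE
      rw [dep_pos hm hE] at hd
      omega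
    refine ⟨_, RecRun.ret ⟨n, z0, hx⟩ (by simp [stepA, start, hE, resA_zero hE]), ?_⟩
    have h1 := cost_inl hW hR Pg.length k hx
    rw [hd, ← hU] at h1
    have h2 : (30 * W + 2 * Pg.length + 60) * (W ^ 0 * U) ≤ c * (W ^ 0 * U) :=
      Nat.mul_le_mul_right _ (by omega)
    rw [pow_zero] at h1 h2 ⊢
    rw [pow_zero, Nat.add_mul c]
    omega
  | succ d ih =>
    intro x hx hd
    have hE : x.1.1.val ≠ 0 := by
      intro hE
      rw [hE, dep_zero] at hd
      omega
    have hd' : dep m (x.1.1.val / m) = d := by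
      rw [dep_pos hm hE] at hd
      omega
    obtain ⟨N, hN⟩ : ∃ N, N = (c + (s + 1) * c * W) * (s ^ d * U) -
      (s + 1) * c * W * (W ^ d * U) := ⟨_, rfl⟩
    have hN' : N + (s + 1) * c * W * (W ^ d * U) = (c + (s + 1) * c * W) * (s ^ d * U) := by
      rw [hN]
      refine Nat.sub_add_cancel (Nat.mul_le_mul (by omega) ?_)
      exact Nat.mul_le_mul_right _ (Nat.pow_le_pow_left hWs.le _)
    obtain ⟨t, r, ht⟩ := recRun_rest (by omega) hP.den_pos hRD (outOrder ρ) Pg hP.ok k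
      (x.1.1.val / m) N (c * (W ^ d * U))
      (fun x' hx' hE' => by
        obtain ⟨t, r, ht⟩ := ih x' hx' (by rw [hE', hd'])
        exact ⟨t, r, by omega⟩)
      (fun pc z y hz hE' hy => by
        have := cost_inr hW hm hR Pg.length k pc hz (hE' ▸ hy)
        rwa [hE', hd', ← hU, ← hc] at this)
      Pg 0 (preA W m R x) (.inl x) rfl (hx.pre hW hm hE) rfl ⟨n, z0, hx⟩
      (by simp [stepA, start, hE])
    rw [hx.step hP hW hm (by omega) hRD hE] at r
    refine ⟨t, r, ?_⟩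
    have h1 := cost_inl hW hR Pg.length k hx
    rw [hd, ← hU] at h1
    have h2 : (30 * W + 2 * Pg.length + 60) * (W ^ (d + 1) * U) ≤ c * (W ^ (d + 1) * U) :=
      Nat.mul_le_mul_right _ (by omega)
    have h3 : ncalls Pg * (N + c * (W ^ d * U)) ≤ s * (N + c * (W ^ d * U)) :=
      Nat.mul_le_mul_right _ hs
    have h4 : s * (c * (W ^ d * U)) ≤ s * (c * (W ^ d * U)) * W := Nat.le_mul_of_pos_right _ hW
    have h5 : (W + 1) * ((s + 1) * c * W * (W ^ d * U)) ≤ s * ((s + 1) * c * W * (W ^ d * U)) :=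
      Nat.mul_le_mul_right _ hWs
    have e1 : (c + (s + 1) * c * W) * (s ^ (d + 1) * U) =
        s * N + s * ((s + 1) * c * W * (W ^ d * U)) := by
      rw [← Nat.mul_add, hN']; ring
    have e2 : (W + 1) * ((s + 1) * c * W * (W ^ d * U)) = (s + 1) * c * W * (W ^ (d + 1) * U) +
        (s * (c * (W ^ d * U)) * W + c * (W ^ (d + 1) * U)) := by ring
    rw [Nat.mul_add s] at h3
    omega

end run

/-- **The recursion of part A.** -/
theorem rec_of (hO : OpStatement) (hS : SmallStatement) : RecStatement := by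
  intro W m Den Pg ρ s hW hm hP hs hWs
  have hR : 2 ≤ Den + 1 := by have := hP.den_pos; omega
  have hRD : Den + 1 ≡ 1 [MOD Den] := by simp [Nat.ModEq]
  obtain ⟨k, hk⟩ := tc_stepA (L := Pg.length) hO hS hW hm (by omega) hP.den_pos hRD
    (outOrder ρ) Pg hP.ok
  refine ⟨k, fun ι _ P T E wH wD z0 l hE hH hD hl hx hB => ?_⟩
  obtain ⟨c, hc⟩ : ∃ c, c = 30 * W + 4 * Pg.length + 70 := ⟨_, rfl⟩
  have hrec : TC (DomX W m (Den + 1)) (fun x => s ^ dep m x.1.1.val * (x.2.length *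
      ((x.2.headD []).length / W ^ dep m x.1.1.val + (Nat.size x.2.length + 1) ^ k)))
      (resA (Den + 1)) := by
    refine TC.recRun hk (c + (s + 1) * c * W) fun x ⟨n, z0, h⟩ => ?_
    obtain ⟨t, r, ht⟩ := recRun_all hP hW hm hR hRD hs hWs k hc rfl _ x h rfl
    refine ⟨t, r, le_trans (Nat.le_add_right _ _) (ht.trans (Nat.mul_le_mul_left _ ?_))⟩
    rw [h.2.2.headD h.1, h.2.2.1, Nat.mul_div_cancel _ (pow_pos hW _)]
    omega
  refine hrec.comp (f := fun x => ((Un.mk (E x), wH x, wD x), l x))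
    ((TC.prodMk hE (hH.prodMk hD)).prodMk hl)
    (fun x h => ⟨(l x).length, z0 x, (hx x h).1, (hx x h).2.1, rfl, (hx x h).2.2⟩)
    (hB.mono fun x h => ?_)
  have h1 : Shape (l x).length (z0 x * W ^ dep m (E x)) (l x) := ⟨rfl, (hx x h).2.2⟩
  simp only
  rw [h1.headD (hx x h).1, Nat.mul_div_cancel _ (pow_pos hW _)]

end Crest.Agent.X326.A
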