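import Crest.Agent.X326.A.Perm
import Crest.Agent.X326.A.Alg
import Crest.Agent.X326.TC.ListLin
import Crest.Agent.X326.TC.Map
import Crest.Agent.X326.TC.Un
import Crest.Agent.X326.A.Spec
import Crest.Agent.X326.A.GathTC

-- ▼ part X326/A/Pad
section

/-!
Row 326 (S0503), part M2: an interchange of range `Q` through an interchange of a larger range `Q'`
(pad both digits, interchange, cut both digits).
-/

set_option autoImplicit false

namespace Crest.Agent.X326.A

variable {α : Type}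

theorem blk_lt {a A b B : ℕ} (h1 : a < A) (h2 : b < B) : a * B + b < A * B := by
  have : (a + 1) * B ≤ A * B := Nat.mul_le_mul_right _ h1
  rw [Nat.add_mul, Nat.one_mul] at this
  omega

theorem blk_div {a b B : ℕ} (h : b < B) : (a * B + b) / B = a := by
  rw [Nat.add_comm, Nat.add_mul_div_right _ _ (by omega), Nat.div_eq_of_lt h, Nat.zero_add]

theorem blk_mod {a b B : ℕ} (h : b < B) : (a * B + b) % B = b := by
  rw [Nat.add_comm, Nat.add_mul_mod_self_right, Nat.mod_eq_of_lt h]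

theorem length_padL (d : α) {A B : ℕ} (B' : ℕ) (hB : 0 < B) {l : List α} (hl : l.length = A * B) :
    (padL d B B' l).length = A * B' := by
  rw [padL, length_gath, hl, Nat.mul_div_cancel _ hB]

theorem length_cutL (d : α) {A B' : ℕ} (B : ℕ) (hB : 0 < B') {l : List α}
    (hl : l.length = A * B') : (cutL d B B' l).length = A * B := by
  rw [cutL, length_gath, hl, Nat.mul_div_cancel _ hB]

theorem getD_padL (d : α) {A B B' a b : ℕ} {l : List α} (hl : l.length = A * B) (h : B ≤ B')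
    (ha : a < A) (hb : b < B) : (padL d B B' l).getD (a * B' + b) d = l.getD (a * B + b) d := by
  have hb' : b < B' := hb.trans_le h
  rw [padL, getD_gath _ _ _ _ (by rw [hl, Nat.mul_div_cancel _ (by omega)]; exact blk_lt ha hb'),
    blk_mod hb', blk_div hb', if_pos hb]

theorem getD_cutL (d : α) {A B B' a b : ℕ} {l : List α} (hl : l.length = A * B') (h : B ≤ B')
    (ha : a < A) (hb : b < B) : (cutL d B B' l).getD (a * B + b) d = l.getD (a * B' + b) d := by
  rw [cutL, getD_gath _ _ _ _ (by rw [hl, Nat.mul_div_cancel _ (by omega)]; exact blk_lt ha hb),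
    reblock, blk_mod hb, blk_div hb]

theorem mem_padL {d a : α} {B B' : ℕ} {l : List α} (h : a ∈ padL d B B' l) : a ∈ l ∨ a = d :=
  mem_gath h

theorem mem_cutL {d a : α} {B B' : ℕ} {l : List α} (h : a ∈ cutL d B B' l) : a ∈ l ∨ a = d :=
  mem_gath h

/-- the shape `[P][Q][G][Q][Z]` behind `Geo` -/
theorem Geo.exists_shape {Q wH wD n : ℕ} (g : Geo Q wH wD n) :
    ∃ P G, 0 < G ∧ wH = wD * Q * G ∧ n = P * Q * G * Q * wD := by
  obtain ⟨G, hG⟩ := g.h1
  obtain ⟨P, hP⟩ := g.h2
  refine ⟨P, G, ?_, hG, by rw [hP, hG]; ring⟩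
  rcases Nat.eq_zero_or_pos G with h | h
  · have := g.hH
    rw [hG, h] at this
    simp at this
  · exact h

/-- the padded array -/
def padBoth (d : α) (Q Q' wH wD : ℕ) (l : List α) : List α :=
  padL d (wH / Q * Q' * Q) (wH / Q * Q' * Q') (padL d (wD * Q) (wD * Q') l)

/-- back from the padded array -/
def cutBoth (d : α) (Q Q' wH wD : ℕ) (l : List α) : List α :=
  cutL d (wD * Q) (wD * Q') (cutL d (wH / Q * Q' * Q) (wH / Q * Q' * Q') l)

section shape

variable {P Q Q' G Z : ℕ}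

theorem w1_eq (hQ : 0 < Q) : Z * Q * G / Q * Q' = Z * Q' * G := by
  rw [Nat.mul_right_comm Z Q G, Nat.mul_div_cancel _ hQ]; ring

theorem length_pad1 (d : α) (hQ : 0 < Q) (hZ : 0 < Z) {l : List α}
    (hl : l.length = P * Q * G * Q * Z) :
    (padL d (Z * Q) (Z * Q') l).length = P * (Z * Q' * G * Q) := by
  rw [length_padL d (A := P * Q * G) _ (Nat.mul_pos hZ hQ) (by rw [hl]; ring)]; ring

theorem length_padBoth_mk (d : α) (hQ : 0 < Q) (hQ' : Q ≤ Q') (hG : 0 < G) (hZ : 0 < Z)
    {l : List α} (hl : l.length = P * Q * G * Q * Z) :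
    (padBoth d Q Q' (Z * Q * G) Z l).length = P * Q' * G * Q' * Z := by
  have : 0 < Q' := by omega
  rw [padBoth, w1_eq hQ, length_padL d (A := P) _ (by positivity) (length_pad1 d hQ hZ hl)]; ring

theorem getD_padBoth_mk (d : α) (hQ' : Q ≤ Q') {l : List α} (hl : l.length = P * Q * G * Q * Z)
    {p h g e z : ℕ} (hp : p < P) (hh : h < Q) (hg : g < G) (he : e < Q) (hz : z < Z) :
    (padBoth d Q Q' (Z * Q * G) Z l).getD ((((p * Q' + h) * G + g) * Q' + e) * Z + z) d =
      l.getD ((((p * Q + h) * G + g) * Q + e) * Z + z) d := by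
  have hQ : 0 < Q := by omega
  have hZ : 0 < Z := by omega
  have e1 : (((p * Q' + h) * G + g) * Q' + e) * Z + z =
      p * (Z * Q' * G * Q') + (((h * G + g) * Q' + e) * Z + z) := by ring
  have b1 : ((h * G + g) * Q' + e) * Z + z < Z * Q' * G * Q := by
    have := blk_lt (blk_lt (blk_lt hh hg) (he.trans_le hQ')) hz
    calc _ < Q * G * Q' * Z := this
      _ = _ := by ring
  have b2 : e * Z + z < Z * Q := by rw [Nat.mul_comm Z Q]; exact blk_lt he hz
  rw [padBoth, w1_eq hQ, e1, getD_padL d (length_pad1 d hQ hZ hl) (Nat.mul_le_mul_left _ hQ') hp b1]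
  have e2 : p * (Z * Q' * G * Q) + (((h * G + g) * Q' + e) * Z + z) =
      ((p * Q + h) * G + g) * (Z * Q') + (e * Z + z) := by ring
  rw [e2, getD_padL d (A := P * Q * G) (by rw [hl]; ring) (Nat.mul_le_mul_left _ hQ')
    (blk_lt (blk_lt hp hh) hg) b2]
  congr 1; ring

theorem length_cut1 (d : α) (hQ' : 0 < Q') (hG : 0 < G) (hZ : 0 < Z) {l : List α}
    (hl : l.length = P * Q' * G * Q' * Z) :
    (cutL d (Z * Q' * G * Q) (Z * Q' * G * Q') l).length = P * Q * G * (Z * Q') := by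
  rw [length_cutL d (A := P) _ (by positivity) (by rw [hl]; ring)]; ring

theorem length_cutBoth_mk (d : α) (hQ : 0 < Q) (hQ' : Q ≤ Q') (hG : 0 < G) (hZ : 0 < Z)
    {l : List α} (hl : l.length = P * Q' * G * Q' * Z) :
    (cutBoth d Q Q' (Z * Q * G) Z l).length = P * Q * G * Q * Z := by
  have : 0 < Q' := by omega
  rw [cutBoth, w1_eq hQ, length_cutL d _ (by positivity) (length_cut1 d this hG hZ hl)]; ring

theorem getD_cutBoth_mk (d : α) (hQ' : Q ≤ Q') {l : List α} (hl : l.length = P * Q' * G * Q' * Z)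
    {p h g e z : ℕ} (hp : p < P) (hh : h < Q) (hg : g < G) (he : e < Q) (hz : z < Z) :
    (cutBoth d Q Q' (Z * Q * G) Z l).getD ((((p * Q + h) * G + g) * Q + e) * Z + z) d =
      l.getD ((((p * Q' + h) * G + g) * Q' + e) * Z + z) d := by
  have hQ : 0 < Q := by omega
  have hZ : 0 < Z := by omega
  have hG : 0 < G := by omega
  have e1 : (((p * Q + h) * G + g) * Q + e) * Z + z =
      ((p * Q + h) * G + g) * (Z * Q) + (e * Z + z) := by ring
  have b1 : ((h * G + g) * Q' + e) * Z + z < Z * Q' * G * Q := by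
    have := blk_lt (blk_lt (blk_lt hh hg) (he.trans_le hQ')) hz
    calc _ < Q * G * Q' * Z := this
      _ = _ := by ring
  have b2 : e * Z + z < Z * Q := by rw [Nat.mul_comm Z Q]; exact blk_lt he hz
  rw [cutBoth, w1_eq hQ, e1, getD_cutL d (length_cut1 d (by omega) hG hZ hl)
    (Nat.mul_le_mul_left _ hQ') (blk_lt (blk_lt hp hh) hg) b2]
  have e2 : ((p * Q + h) * G + g) * (Z * Q') + (e * Z + z) =
      p * (Z * Q' * G * Q) + (((h * G + g) * Q' + e) * Z + z) := by ring
  rw [e2, getD_cutL d (A := P) (by rw [hl]; ring) (Nat.mul_le_mul_left _ hQ') hp b1]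
  congr 1; ring

/-- every index of `[P][Q][G][Q][Z]` has coordinates -/
theorem exists_coords {j : ℕ} (hj : j < P * Q * G * Q * Z) : ∃ p h g e z, p < P ∧ h < Q ∧ g < G ∧
    e < Q ∧ z < Z ∧ j = (((p * Q + h) * G + g) * Q + e) * Z + z := by
  have step : ∀ {j A B : ℕ}, j < A * B → j / B < A ∧ j % B < B ∧ j = j / B * B + j % B := by
    intro j A B h
    have hB : 0 < B := Nat.pos_of_mul_pos_left (lt_of_le_of_lt (Nat.zero_le _) h)
    exact ⟨Nat.div_lt_of_lt_mul (by rwa [Nat.mul_comm] at h), Nat.mod_lt _ hB,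
      (Nat.div_add_mod' j B).symm⟩
  obtain ⟨h1, hz, e1⟩ := step hj
  obtain ⟨h2, he, e2⟩ := step h1
  obtain ⟨h3, hg, e3⟩ := step h2
  obtain ⟨h4, hh, e4⟩ := step h3
  exact ⟨_, _, _, _, _, h4, hh, hg, he, hz, by rw [← e4, ← e3, ← e2, ← e1]⟩

end shape

variable {Q Q' wH wD : ℕ}

theorem Geo.pad {l : List α} (d : α) (g : Geo Q wH wD l.length) (h : Q ≤ Q') :
    Geo Q' (wH / Q * Q') wD (padBoth d Q Q' wH wD l).length := by
  obtain ⟨P, G, hG, rfl, hl⟩ := g.exists_shape
  rw [length_padBoth_mk d g.hq h hG g.hD hl, w1_eq g.hq]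
  exact geo_mk (g.hq.trans_le h) hG g.hD


/-- **padding lemma** -/
theorem swapL_eq_cut_pad {l : List α} (d : α) (g : Geo Q wH wD l.length) (h : Q ≤ Q') :
    swapL d Q wH wD l =
      cutBoth d Q Q' wH wD (swapL d Q' (wH / Q * Q') wD (padBoth d Q Q' wH wD l)) := by
  obtain ⟨P, G, hG, rfl, hl⟩ := g.exists_shape
  have h1 := length_padBoth_mk d g.hq h hG g.hD hl
  have h2 : (swapL d Q' (wD * Q * G / Q * Q') wD (padBoth d Q Q' (wD * Q * G) wD l)).length =
      P * Q' * G * Q' * wD := by rw [length_swapL, h1]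
  refine ext_getD d (by rw [length_swapL, length_cutBoth_mk d g.hq h hG g.hD h2, hl]) ?_
  intro j hj
  rw [length_swapL, hl] at hj
  obtain ⟨p, a, c, e, z, hp, ha, hc, he, hz, rfl⟩ := exists_coords hj
  rw [getD_swapL d hl hp ha hc he hz, getD_cutBoth_mk d h h2 hp ha hc he hz, w1_eq g.hq,
    getD_swapL d h1 hp (ha.trans_le h) hc (he.trans_le h) hz, getD_padBoth_mk d h hl hp he hc ha hz]

end Crest.Agent.X326.A
end

-- ▼ part X326/A/Wrap
section

/-!
Row 326 (S0503), part M2: records of any coded type as bit lists of a common width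
(the wrapper of `A/StreamsTC.lean`, written by helper96, in its own namespace).
-/

set_option autoImplicit false

namespace Crest.Agent.X326.A.Wr

open Crest.Agent.Lib.PT Crest.Agent.X326 Crest.Agent.X326.A

section wrap

variable {ι α : Type} [PTCode ι] [PTCode α] {P : ι → Prop} {T : ι → ℕ}

theorem enc_boolList (l : List Bool) : enc l = l.flatMap fun b => [true, b, false] := by
  induction l with
  | nil => rfl
  | cons b l ih => simp [ih, pair]

/-- a raw bit string as a list of Booleans -/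
theorem lin_bitsVal : Lin (fun x : Bits => x.val) :=
  (LinRaw.flatMap fun b => [true, b, false]).lin fun x => (enc_boolList x.val).symm

/-- a list of Booleans as a raw bit string -/
theorem lin_bitsMk : Lin (fun l : List Bool => Bits.mk l) := by
  refine TC.of_run ListRun.flattenP (n := fun l => 14 * sz l + 2)
    (Bud.of_le 0 14 2 (fun _ _ => by simp)) fun l _ => ?_
  rw [init_eq_st4]
  have e : l.reverse.flatMap (fun a => [] ++ (enc a).reverse.flatMap (fun c => [c])) =
      l.reverse := by simp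
  refine ((ListRun.run_allCells_loop _ _ l []).seq (run_mv (by decide) _)).of_eq ?_ ?_
  · rw [e]; simp [init_eq_st4]
  · rw [e]; simp [sz_listBool]; omega

/-- the record `a` as a bit list of width `Z` (when `2 * sz a + 1 ≤ Z`) -/
def wrap (Z : ℕ) (a : α) : Rec := pair (enc a) (List.replicate (Z - (2 * sz a + 1)) true)

open Classical in
/-- reading a wrapped record -/
noncomputable def unwrap (d : α) (r : Rec) : α :=
  if h : ∃ a : α, enc a = fst r then h.choose else d

/-- wrap all records -/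
def wrapL (Z : ℕ) (l : List α) : Arr := l.map (wrap Z)

/-- read all records -/
noncomputable def unwrapL (d : α) (s : Arr) : List α := s.map (unwrap d)

/-- the largest size of a record -/
def maxSz (l : List α) : ℕ := l.foldl (fun m a => max m (sz a)) 0

theorem unwrap_wrap (d : α) (Z : ℕ) (a : α) : unwrap d (wrap Z a) = a := by
  have h : ∃ b : α, enc b = fst (wrap Z a) := ⟨a, by simp [wrap]⟩
  rw [unwrap, dif_pos h]
  exact enc_injective (h.choose_spec.trans (fst_pair _ _))

theorem length_wrap {Z : ℕ} {a : α} (h : 2 * sz a + 1 ≤ Z) : (wrap Z a).length = Z := by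
  rw [wrap, length_pair, List.length_replicate]
  change 2 * sz a + 1 + _ = _
  omega

@[simp] theorem length_wrapL (Z : ℕ) (l : List α) : (wrapL Z l).length = l.length := by
  simp [wrapL]

theorem shape_wrapL {Z : ℕ} {l : List α} (h : ∀ a ∈ l, 2 * sz a + 1 ≤ Z) :
    Shape l.length Z (wrapL Z l) := by
  refine ⟨length_wrapL Z l, fun r hr => ?_⟩
  obtain ⟨a, ha, rfl⟩ := List.mem_map.1 hr
  exact length_wrap (h a ha)


theorem foldl_max_spec (l : List α) (m : ℕ) :
    m ≤ l.foldl (fun m a => max m (sz a)) m ∧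
      (∀ a ∈ l, sz a ≤ l.foldl (fun m a => max m (sz a)) m) ∧
      ∀ B, m ≤ B → (∀ a ∈ l, sz a ≤ B) → l.foldl (fun m a => max m (sz a)) m ≤ B := by
  induction l generalizing m with
  | nil => simp
  | cons b l ih =>
    obtain ⟨h1, h2, h3⟩ := ih (max m (sz b))
    refine ⟨(le_max_left _ _).trans h1, fun a ha => ?_, fun B hm hB => ?_⟩
    · rcases List.mem_cons.1 ha with rfl | ha
      · exact (le_max_right _ _).trans h1
      · exact h2 a ha
    · exact h3 B (max_le hm (hB b List.mem_cons_self))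
        fun a ha => hB a (List.mem_cons_of_mem _ ha)

theorem le_maxSz {l : List α} {a : α} (h : a ∈ l) : sz a ≤ maxSz l := (foldl_max_spec l 0).2.1 a h

theorem maxSz_le {l : List α} {B : ℕ} (h : ∀ a ∈ l, sz a ≤ B) : maxSz l ≤ B :=
  (foldl_max_spec l 0).2.2 B (Nat.zero_le _) h

/-- the largest size in unary -/
theorem tu_maxSz {l : ι → List α} (hl : TC P T l)
    (hb : Bud P T (fun x => (l x).length * maxSz (l x))) : TU P T (fun x => maxSz (l x)) := by
  have h1 : Lin (fun q : Un × α => (Un.mk (max q.1.val (sz q.2)), ([] : List Unit))) :=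
    ((TU.val TC.id.fst).max (TU.sz TC.id.snd)).tc.prodMk (TC.const _)
  have h2 := h1.accumL_inv (s := fun _ => Un.mk 0) (TC.const _) hl
    (fun x t r => t.val ≤ maxSz (l x) ∧ ∀ a ∈ r, a ∈ l x)
    (fun x _ => maxSz (l x)) (fun x _ => ⟨Nat.zero_le _, fun _ h => h⟩)
    (by
      rintro x - t a r ⟨h0, h⟩
      exact ⟨trivial, by simpa using h0, max_le h0 (le_maxSz (h a List.mem_cons_self)),
        fun b hb => h b (List.mem_cons_of_mem _ hb)⟩)
    (hb.mono fun x _ => by simp)
  refine h2.fst.of_eq fun x => ?_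
  rw [accumL_fst]
  change _ = Un.mk ((l x).foldl (fun m a => max m (sz a)) 0)
  generalize 0 = m
  induction l x generalizing m with
  | nil => rfl
  | cons a l ih => exact ih _

theorem lin_wrap : Lin (fun q : Un × α => wrap q.1.val q.2) := by
  have h1 : Lin (fun q : Un × α => (q.2, Un.mk (q.1.val - (2 * sz q.2 + 1)))) :=
    TC.id.snd.prodMk
      ((TU.val TC.id.fst).sub (((TU.sz TC.id.snd).const_mul 2).add (TU.const 1))).tc
  exact TC.comp_lin lin_bitsVal h1.toBits

/-- wrapping; the width is given in unary -/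
theorem tc_wrapL {Z : ι → ℕ} {l : ι → List α} (hZ : TU P T Z) (hl : TC P T l)
    (hb : Bud P T (fun x => (l x).length * Z x)) : TC P T (fun x => wrapL (Z x) (l x)) :=
  TC.mapCtx_lin (f := fun (u : Un) (a : α) => wrap u.val a) lin_wrap hZ.tc hl
    (hb.mono fun x _ => by simp)

theorem tc_unwrap (d : α) :
    TC (fun r : Rec => ∃ (Z : ℕ) (a : α), r = wrap Z a) (fun _ => 0) (unwrap d) :=
  TC.raw LinRaw.fst lin_bitsMk.tc (by
    rintro _ ⟨Z, a, rfl⟩
    rw [unwrap_wrap]
    simp [wrap])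

/-- reading wrapped records -/
theorem tc_unwrapL (d : α) {s : ι → Arr} (hs : TC P T s)
    (h : ∀ x, P x → ∀ r ∈ s x, ∃ (Z : ℕ) (a : α), r = wrap Z a) :
    TC P T (fun x => unwrapL d (s x)) :=
  TC.map' (tc_unwrap d) hs h ((Bud.const 0).mono fun x _ => by simp)

theorem unwrapL_perm (d : α) (Z : ℕ) {σ : ℕ → ℕ} {l : List α}
    (hσ : ∀ j < l.length, σ j < l.length) : unwrapL d (perm [] σ (wrapL Z l)) = perm d σ l := by
  refine ext_getD d (by simp [unwrapL]) fun j hj => ?_
  have hj' : j < l.length := by simpa [unwrapL] using hj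
  rw [getD_perm _ _ _ _ hj', unwrapL, List.getD_eq_getElem _ _ (by simpa using hj'),
    List.getElem_map, ← List.getD_eq_getElem _ [], getD_perm _ _ _ _ (by simpa using hj'),
    wrapL, List.getD_eq_getElem _ _ (by simpa using hσ j hj'), List.getElem_map, unwrap_wrap,
    List.getD_eq_getElem _ _ (hσ j hj')]


/-- a permutation of records of any coded type from the permutation of the wrapped records -/
theorem tc_perm_of_wrap (d : α) {Z : ι → ℕ} {σ : ι → ℕ → ℕ} {l : ι → List α}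
    (hσ : ∀ x, P x → ∀ j < (l x).length, σ x j < (l x).length)
    (h : TC P T (fun x => perm [] (σ x) (wrapL (Z x) (l x)))) :
    TC P T (fun x => perm d (σ x) (l x)) := by
  refine (tc_unwrapL d h fun x hx r hr => ?_).congr fun x hx => unwrapL_perm d _ (hσ x hx)
  obtain ⟨a, -, rfl⟩ := List.mem_map.1 (mem_perm (by simpa using hσ x hx) hr)
  exact ⟨_, a, rfl⟩

/-- the interchange for records of any coded type from the interchange for bit lists -/
theorem tc_swapL_of_wrap (d : α) {Z Q wH wD : ι → ℕ} {l : ι → List α}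
    (g : ∀ x, P x → Geo (Q x) (wH x) (wD x) (l x).length)
    (h : TC P T (fun x => swapL [] (Q x) (wH x) (wD x) (wrapL (Z x) (l x)))) :
    TC P T (fun x => swapL d (Q x) (wH x) (wD x) (l x)) :=
  tc_perm_of_wrap d (fun x hx _ hj => (g x hx).swapIdx_lt hj) h

end wrap

end Crest.Agent.X326.A.Wr
end

-- ▼ part X326/A/Top

/-!
Row 326 (S0503), part M2: from the recursion (`RecStatement`) to the interchange of two digits of
any range on records of any coded type (`SwapStatement tauA`).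
-/

set_option autoImplicit false

namespace Crest.Agent.X326.A

open Crest.Agent.Lib.PT

namespace Tp

theorem size_mul_le (a b : ℕ) : Nat.size (a * b) ≤ Nat.size a + Nat.size b := by
  rw [Nat.size_le, pow_add]
  exact Nat.mul_lt_mul'' (Nat.lt_size_self a) (Nat.lt_size_self b)

theorem size_add_le {a b N : ℕ} (ha : a ≤ N) (hb : b ≤ N) : Nat.size (a + b) ≤ Nat.size N + 1 := by
  rw [Nat.size_le, pow_succ]
  have := Nat.lt_size_self N
  omega

theorem sz_arr_le {l : Arr} {Z N : ℕ} (hl : l.length ≤ N) (h : ∀ r ∈ l, r.length = Z) :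
    sz l ≤ 6 * (N * (Z + 1)) := by
  have h1 : sz l ≤ l.length * (2 * (3 * Z) + 1) :=
    sz_list_le fun r hr => by rw [sz_listBool, h r hr]
  have h2 : l.length * (2 * (3 * Z) + 1) ≤ N * (6 * (Z + 1)) := Nat.mul_le_mul hl (by omega)
  calc sz l ≤ N * (6 * (Z + 1)) := h1.trans h2
    _ = 6 * (N * (Z + 1)) := by ring

/-- padding of the blocks of an array of bit records -/
theorem tc_padL : ∃ k : ℕ, ∀ {ι : Type} [PTCode ι] {P : ι → Prop} {T : ι → ℕ}
    {B B' : ι → ℕ} (N Z : ι → ℕ) {d : ι → Rec} {l : ι → Arr},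
    TU P T B → TU P T B' → TC P T d → TC P T l →
    (∀ x, P x → B x ≤ N x ∧ B' x ≤ N x ∧ (l x).length ≤ N x ∧
      (padL (d x) (B x) (B' x) (l x)).length ≤ N x ∧ (d x).length = Z x ∧
      ∀ r ∈ l x, r.length = Z x) →
    Bud P T (fun x => ovh k (N x) (Nat.size (N x))) → Bud P T (fun x => N x * (Z x + 1)) →
    TC P T (fun x => padL (d x) (B x) (B' x) (l x)) := by
  obtain ⟨k, hk⟩ := tc_gath (γ := ℕ × ℕ × ℕ) (col := fun _ _ => 0)
    (src := fun c j => if j % c.2.1 < c.1 then j / c.2.1 * c.1 + j % c.2.1 else c.2.2)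
    (by pt_prop) (PTF.ite (PTPred.natLt (by pt_prop) (by pt_prop)) (by pt_prop) (by pt_prop))
  refine ⟨k, fun {ι} _ {P T B B'} N Z {d l} hB hB' hd hl h hb1 hb2 => ?_⟩
  have hN : Bud P T N := hb1.mono fun x _ => le_ovh _ _ _
  have hn : ∀ x, P x → (l x).length / B x * B' x ≤ N x := fun x hx => by
    simpa [padL] using (h x hx).2.2.2.1
  refine hk 1 (c := fun x => (B x, B' x, (l x).length))
    (n := fun x => (l x).length / B x * B' x)
    (hB.toNat.prodMk (hB'.toNat.prodMk (TC.length hl)))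
    (((TU.length hl).div hB).mul hB' (hN.mono hn)) hd hl (fun x _ => colMono_pad)
    (Bud.ovh_of_le hb1 2 6 3 le_rfl (fun x hx => ?_) fun x hx _ => ?_)
    ((hb2.const_mul 3).mono fun x hx => ?_) ((hb2.const_mul 6).mono fun x hx => ?_)
  · have := hn x hx
    have := (h x hx).2.2.1
    omega
  · obtain ⟨h1, h2, h3, -⟩ := h x hx
    have a1 := Nat.size_le_size h1
    have a2 := Nat.size_le_size h2
    have a3 := Nat.size_le_size h3
    have a4 := size_add_le (hn x hx) h3
    simp only [sz_prod, sz_nat]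
    omega
  · rw [sz_listBool, (h x hx).2.2.2.2.1]
    calc _ ≤ N x * (3 * (Z x + 1)) := Nat.mul_le_mul (hn x hx) (by omega)
      _ = _ := by ring
  · refine sz_arr_le (by simpa using hn x hx) fun r hr => ?_
    rcases mem_gath hr with hr | rfl
    · exact (h x hx).2.2.2.2.2 r hr
    · exact (h x hx).2.2.2.2.1

/-- cutting of the blocks of an array of bit records -/
theorem tc_cutL : ∃ k : ℕ, ∀ {ι : Type} [PTCode ι] {P : ι → Prop} {T : ι → ℕ}
    {B B' : ι → ℕ} (N Z : ι → ℕ) {d : ι → Rec} {l : ι → Arr},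
    TU P T B → TU P T B' → TC P T d → TC P T l →
    (∀ x, P x → 0 < B x ∧ B x ≤ B' x ∧ B' x ≤ N x ∧ (l x).length ≤ N x ∧ (d x).length = Z x ∧
      ∀ r ∈ l x, r.length = Z x) →
    Bud P T (fun x => ovh k (N x) (Nat.size (N x))) → Bud P T (fun x => N x * (Z x + 1)) →
    TC P T (fun x => cutL (d x) (B x) (B' x) (l x)) := by
  obtain ⟨k, hk⟩ := tc_gath (γ := ℕ × ℕ) (col := fun _ _ => 0)
    (src := fun c j => reblock c.1 c.2 j) (by pt_prop) (by unfold reblock; pt_prop)
  refine ⟨k, fun {ι} _ {P T B B'} N Z {d l} hB hB' hd hl h hb1 hb2 => ?_⟩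
  have hN : Bud P T N := hb1.mono fun x _ => le_ovh _ _ _
  have hn : ∀ x, P x → (l x).length / B' x * B x ≤ N x := fun x hx =>
    ((Nat.mul_le_mul_left _ (h x hx).2.1).trans (Nat.div_mul_le_self _ _)).trans (h x hx).2.2.2.1
  refine hk 1 (c := fun x => (B x, B' x)) (n := fun x => (l x).length / B' x * B x)
    (hB.toNat.prodMk hB'.toNat)
    (((TU.length hl).div hB').mul hB (hN.mono hn)) hd hl
    (fun x hx => colMono_cut (h x hx).1 (h x hx).2.1)
    (Bud.ovh_of_le hb1 2 4 2 le_rfl (fun x hx => ?_) fun x hx _ => ?_)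
    ((hb2.const_mul 3).mono fun x hx => ?_) ((hb2.const_mul 6).mono fun x hx => ?_)
  · have := hn x hx
    have := (h x hx).2.2.2.1
    omega
  · obtain ⟨-, h1, h2, h3, -⟩ := h x hx
    have a1 := Nat.size_le_size (h1.trans h2)
    have a2 := Nat.size_le_size h2
    have a4 := size_add_le (hn x hx) h3
    simp only [sz_prod, sz_nat]
    omega
  · rw [sz_listBool, (h x hx).2.2.2.2.1]
    calc _ ≤ N x * (3 * (Z x + 1)) := Nat.mul_le_mul (hn x hx) (by omega)
      _ = _ := by ring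
  · refine sz_arr_le (by simpa using hn x hx) fun r hr => ?_
    rcases mem_gath hr with hr | rfl
    · exact (h x hx).2.2.2.2.2 r hr
    · exact (h x hx).2.2.2.2.1

theorem geo_le {Q wH wD n : ℕ} (g : Geo Q wH wD n) (hn : 0 < n) :
    wH * Q ≤ n ∧ wD * Q ≤ wH ∧ Q ≤ n ∧ wH ≤ n ∧ wD ≤ n := by
  have h1 := Nat.le_of_dvd hn g.h2
  have h2 := Nat.le_of_dvd g.hH g.h1
  have h3 : wH ≤ wH * Q := Nat.le_mul_of_pos_right _ g.hq
  have h4 : Q ≤ wH * Q := Nat.le_mul_of_pos_left _ g.hH
  have h5 : wD ≤ wD * Q := Nat.le_mul_of_pos_right _ g.hq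
  omega

/-- the lengths of the padded arrays -/
theorem pad_bounds {α : Type} (d : α) {Q Q' wH wD R : ℕ} {l : List α} (g : Geo Q wH wD l.length)
    (h1 : Q ≤ Q') (h2 : Q' ≤ R * Q) :
    l.length ≤ (padL d (wD * Q) (wD * Q') l).length ∧
      (padL d (wD * Q) (wD * Q') l).length ≤ (padBoth d Q Q' wH wD l).length ∧
      (padBoth d Q Q' wH wD l).length ≤ R * R * l.length := by
  obtain ⟨P, G, hG, rfl, hl⟩ := g.exists_shape
  rw [length_padBoth_mk d g.hq h1 hG g.hD hl, length_pad1 d g.hq g.hD hl, hl]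
  refine ⟨?_, ?_, ?_⟩
  · calc P * Q * G * Q * wD = P * (wD * Q * G * Q) := by ring
      _ ≤ _ := by gcongr
  · calc P * (wD * Q' * G * Q) = P * Q' * G * Q * wD := by ring
      _ ≤ _ := by gcongr
  · calc P * Q' * G * Q' * wD ≤ P * (R * Q) * G * (R * Q) * wD := by gcongr
      _ = _ := by ring

theorem swapL_default {α : Type} (d d' : α) {Q wH wD : ℕ} {l : List α}
    (g : Geo Q wH wD l.length) : swapL d Q wH wD l = swapL d' Q wH wD l :=
  gath_default d d' l fun _ hj => g.swapIdx_lt hj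

/-- the conclusion of `RecStatement` -/
def RecAt (W m R s k : ℕ) : Prop :=
  ∀ (ι : Type) [PTCode ι] (P : ι → Prop) (T : ι → ℕ) (E wH wD z0 : ι → ℕ)
    (l : ι → Arr), TU P T E → TC P T wH → TC P T wD → TC P T l →
    (∀ x, P x → 0 < (l x).length ∧ Geo (R ^ E x) (wH x) (wD x) (l x).length ∧
      ∀ r ∈ l x, r.length = z0 x * W ^ dep m (E x)) →
    Bud P T (fun x => s ^ dep m (E x) *
      ((l x).length * (z0 x + (Nat.size (l x).length + 1) ^ k))) →
    TC P T (fun x => swapL [] (R ^ E x) (wH x) (wD x) (l x))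

/-- any range, bit records of the width required by the recursion -/
theorem swap_bits {W m R s k : ℕ} (hrec : RecAt W m R s k) :
    ∃ k' : ℕ, ∀ {ι : Type} [PTCode ι] {P : ι → Prop} {T : ι → ℕ} {Q wH wD E : ι → ℕ}
      (z0 : ι → ℕ) {l : ι → Arr}, TU P T Q → TU P T wH → TU P T wD → TU P T E →
      TU P T (fun x => z0 x * W ^ dep m (E x)) → TC P T l →
      (∀ x, P x → 0 < (l x).length ∧ Geo (Q x) (wH x) (wD x) (l x).length ∧
        Q x ≤ R ^ E x ∧ R ^ E x ≤ R * Q x ∧ ∀ r ∈ l x, r.length = z0 x * W ^ dep m (E x)) →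
      Bud P T (fun x => ovh k' (l x).length (Nat.size (l x).length)) →
      Bud P T (fun x => (l x).length * (z0 x * W ^ dep m (E x) + 1)) →
      Bud P T (fun x => s ^ dep m (E x) *
        ((l x).length * (z0 x + (Nat.size (l x).length + 1) ^ k))) →
      TC P T (fun x => swapL [] (Q x) (wH x) (wD x) (l x)) := by
  obtain ⟨k1, hpad⟩ := tc_padL
  obtain ⟨k2, hcut⟩ := tc_cutL
  refine ⟨k1 + k2, fun {ι} _ {P T Q wH wD E} z0 {l} hQ hH hD hE hZ hl h hb1 hb2 hb3 => ?_⟩
  set Z : ι → ℕ := fun x => z0 x * W ^ dep m (E x) with hZdef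
  set d : ι → Rec := fun x => List.replicate (Z x) false with hddef
  set N : ι → ℕ := fun x => (padBoth (d x) (Q x) (R ^ E x) (wH x) (wD x) (l x)).length with hNdef
  have hd : TC P T d := TC.replicate_const false hZ
  have hdl : ∀ x, (d x).length = Z x := fun x => List.length_replicate ..
  have hg : ∀ x, P x → Geo (R ^ E x) (wH x / Q x * R ^ E x) (wD x) (N x) := fun x hx =>
    Geo.pad (d x) (h x hx).2.1 (h x hx).2.2.1
  have hpb := fun x hx => pad_bounds (d x) (h x hx).2.1 (h x hx).2.2.1 (h x hx).2.2.2.1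
  have hN0 : ∀ x, P x → 0 < N x := fun x hx =>
    (h x hx).1.trans_le ((hpb x hx).1.trans (hpb x hx).2.1)
  have hle := fun x hx => geo_le (hg x hx) (hN0 x hx)
  have hNle : ∀ x, P x → N x ≤ R * R * (l x).length := fun x hx => (hpb x hx).2.2
  have hsz : ∀ x, P x → Nat.size (N x) ≤ 1 * Nat.size (l x).length + Nat.size (R * R) :=
    fun x hx => by
      have := (Nat.size_le_size (hNle x hx)).trans (size_mul_le _ _)
      omega
  have hN : Bud P T N := ((TU.length hl).bud.const_mul (R * R)).mono hNle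
  have hO : ∀ j, j ≤ k1 + k2 → Bud P T (fun x => ovh j (N x) (Nat.size (N x))) := fun j hj =>
    Bud.ovh_of_le hb1 (R * R) 1 (Nat.size (R * R)) hj hNle fun x hx _ => hsz x hx
  have hNZ : Bud P T (fun x => N x * (Z x + 1)) :=
    (hb2.const_mul (R * R)).mono fun x hx => by
      rw [← Nat.mul_assoc]
      exact Nat.mul_le_mul_right _ (hNle x hx)
  have hQ' : TU P T (fun x => R ^ E x) :=
    (TU.const R).pow hE (hN.mono fun x hx => (hle x hx).2.2.1)
  have hw1 : TU P T (fun x => wH x / Q x * R ^ E x) :=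
    (hH.div hQ).mul hQ' (hN.mono fun x hx => (hle x hx).2.2.2.1)
  have b2 : ∀ x, P x → wD x * R ^ E x ≤ N x := fun x hx =>
    (hle x hx).2.1.trans (hle x hx).2.2.2.1
  have c1 : ∀ x, P x → wD x * Q x ≤ wD x * R ^ E x := fun x hx =>
    Nat.mul_le_mul_left _ (h x hx).2.2.1
  have c3 : ∀ x, P x → wH x / Q x * R ^ E x * Q x ≤ wH x / Q x * R ^ E x * R ^ E x := fun x hx =>
    Nat.mul_le_mul_left _ (h x hx).2.2.1
  have u1 : TU P T (fun x => wD x * Q x) :=
    hD.mul hQ (hN.mono fun x hx => (c1 x hx).trans (b2 x hx))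
  have u2 : TU P T (fun x => wD x * R ^ E x) := hD.mul hQ' (hN.mono b2)
  have u3 : TU P T (fun x => wH x / Q x * R ^ E x * Q x) :=
    hw1.mul hQ (hN.mono fun x hx => (c3 x hx).trans (hle x hx).1)
  have u4 : TU P T (fun x => wH x / Q x * R ^ E x * R ^ E x) :=
    hw1.mul hQ' (hN.mono fun x hx => (hle x hx).1)
  have m1 : ∀ x, P x → ∀ r ∈ padL (d x) (wD x * Q x) (wD x * R ^ E x) (l x), r.length = Z x :=
    fun x hx r hr => by
      rcases mem_padL hr with hr | rfl
      · exact (h x hx).2.2.2.2 r hr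
      · exact hdl x
  have m2 : ∀ x, P x → ∀ r ∈ padBoth (d x) (Q x) (R ^ E x) (wH x) (wD x) (l x),
      r.length = Z x := fun x hx r hr => by
    rcases mem_padL hr with hr | rfl
    · exact m1 x hx r hr
    · exact hdl x
  have p1 := hpad N Z u1 u2 hd hl (fun x hx => ⟨(c1 x hx).trans (b2 x hx), b2 x hx,
    (hpb x hx).1.trans (hpb x hx).2.1, (hpb x hx).2.1, hdl x, (h x hx).2.2.2.2⟩)
    (hO k1 (by omega)) hNZ
  have p2 : TC P T (fun x => padBoth (d x) (Q x) (R ^ E x) (wH x) (wD x) (l x)) :=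
    hpad N Z u3 u4 hd p1 (fun x hx => ⟨(c3 x hx).trans (hle x hx).1, (hle x hx).1,
      (hpb x hx).2.1, le_rfl, hdl x, m1 x hx⟩) (hO k1 (by omega)) hNZ
  have p3 := hrec ι P T E _ wD z0 _ hE hw1.toNat hD.toNat p2
    (fun x hx => ⟨hN0 x hx, hg x hx, m2 x hx⟩)
    ((hb3.const_mul (R * R * (Nat.size (R * R) + 1) ^ k)).mono fun x hx => by
      have e1 : Nat.size (N x) + 1 ≤ (Nat.size (R * R) + 1) * (Nat.size (l x).length + 1) := by
        have := hsz x hx
        nlinarith
      have e2 := Nat.pow_le_pow_left e1 k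
      rw [mul_pow] at e2
      have e3 : z0 x ≤ (Nat.size (R * R) + 1) ^ k * z0 x :=
        Nat.le_mul_of_pos_left _ (by positivity)
      calc _ ≤ s ^ dep m (E x) * (R * R * (l x).length * ((Nat.size (R * R) + 1) ^ k * z0 x +
            (Nat.size (R * R) + 1) ^ k * (Nat.size (l x).length + 1) ^ k)) :=
            Nat.mul_le_mul_left _ (Nat.mul_le_mul (hNle x hx) (Nat.add_le_add e3 e2))
        _ = _ := by ring)
  have m3 : ∀ x, P x → ∀ r ∈ swapL [] (R ^ E x) (wH x / Q x * R ^ E x) (wD x)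
      (padBoth (d x) (Q x) (R ^ E x) (wH x) (wD x) (l x)), r.length = Z x :=
    fun x hx r hr => m2 x hx r (mem_perm (fun _ hj => (hg x hx).swapIdx_lt hj) hr)
  have p4 := hcut N Z u3 u4 hd p3 (fun x hx => ⟨Nat.mul_pos (hg x hx).hH (h x hx).2.1.hq,
    c3 x hx, (hle x hx).1, (length_swapL ..).le, hdl x, m3 x hx⟩) (hO k2 (by omega)) hNZ
  have p5 := hcut N Z u1 u2 hd p4 (fun x hx => ⟨Nat.mul_pos (hg x hx).hD (h x hx).2.1.hq,
    c1 x hx, b2 x hx, by
      rw [cutL, length_gath, length_swapL]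
      exact (Nat.mul_le_mul_left _ (c3 x hx)).trans (Nat.div_mul_le_self _ _), hdl x,
    fun r hr => by
      rcases mem_cutL hr with hr | rfl
      · exact m3 x hx r hr
      · exact hdl x⟩) (hO k2 (by omega)) hNZ
  refine p5.congr fun x hx => ?_
  rw [swapL_default [] (d x) (h x hx).2.1, swapL_eq_cut_pad (d x) (h x hx).2.1 (h x hx).2.2.1,
    swapL_default [] (d x) (hg x hx)]
  rfl

theorem pow_le_mul_pw {s W m : ℕ} {τ : ℝ} (h : (s : ℝ) ≤ W * (m : ℝ) ^ τ) (D : ℕ) :
    s ^ D ≤ W ^ D * pw τ (m ^ D) := by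
  have h1 : ((s ^ D : ℕ) : ℝ) ≤ (W ^ D : ℕ) * ((m ^ D : ℕ) : ℝ) ^ τ := by
    push_cast
    rw [← Real.rpow_pow_comm (Nat.cast_nonneg m), ← mul_pow]
    exact pow_le_pow_left₀ (Nat.cast_nonneg s) h D
  have h2 := mul_le_mul_of_nonneg_left (le_pw τ (m ^ D)) (Nat.cast_nonneg (α := ℝ) (W ^ D))
  exact_mod_cast h1.trans h2

theorem log_succ_le_size {R Q : ℕ} (hR : 2 ≤ R) (hQ : 0 < Q) : Nat.log R Q + 1 ≤ Nat.size Q :=
  Nat.lt_size.2 ((Nat.pow_le_pow_left hR _).trans (Nat.pow_log_le_self R hQ.ne'))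

theorem pow_dep_le' {m E S : ℕ} (hm : 2 ≤ m) (h : E + 1 ≤ S) : m ^ dep m E ≤ m * S :=
  (pow_dep_le m E).trans (by nlinarith)

theorem wpow_dep_le {m E S : ℕ} (W : ℕ) (hm : 2 ≤ m) (h : E + 1 ≤ S) :
    W ^ dep m E ≤ m ^ W * S ^ W := by
  have h1 : W ≤ m ^ W := Nat.lt_two_pow_self.le.trans (Nat.pow_le_pow_left hm W)
  calc W ^ dep m E ≤ (m ^ W) ^ dep m E := Nat.pow_le_pow_left h1 _
    _ = (m ^ dep m E) ^ W := by rw [← pow_mul, ← pow_mul, Nat.mul_comm]
    _ ≤ (m * S) ^ W := Nat.pow_le_pow_left (pow_dep_le' hm h) W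
    _ = _ := mul_pow _ _ _

theorem spow_dep_le {s W m E S : ℕ} (hs : (s : ℝ) ≤ W * (m : ℝ) ^ tauA) (hm : 2 ≤ m)
    (h : E + 1 ≤ S) : s ^ dep m E ≤ W ^ dep m E * (m * pw tauA S) := by
  refine (pow_le_mul_pw hs _).trans (Nat.mul_le_mul_left _ ?_)
  refine (pw_mono tauA_pos.le (pow_dep_le' hm h)).trans ((pw_mul_le m S).trans ?_)
  exact Nat.mul_le_mul_right _ (pw_le_self tauA_pos tauA_le_one m)

theorem ptf_dep (m : ℕ) : PTF (dep m) := by
  have h : PTF (fun E : ℕ => Nat.log m E) := PTF.natLog (PTF.const m) PTF.id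
  exact PTF.ite (PTPred.natEq PTF.id (PTF.const 0)) (PTF.const 0) (PTF.natAdd h (PTF.const 1))

/-- non-empty arrays -/
theorem swap_pos (h : RecStatement) : ∃ k : ℕ, ∀ {ι α : Type} [PTCode ι] [PTCode α]
    {P : ι → Prop} {T : ι → ℕ} {Q wH wD : ι → ℕ} (B : ι → ℕ) (d : α) {l : ι → List α},
    TC P T Q → TC P T wH → TC P T wD → TC P T l →
    (∀ x, P x → 0 < (l x).length ∧ Geo (Q x) (wH x) (wD x) (l x).length ∧
      ∀ r ∈ l x, sz r ≤ B x) →
    Bud P T (fun x => (l x).length * (B x + 1) * pw tauA (Nat.size (Q x) + 1)) →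
    Bud P T (fun x => ovh k (l x).length (Nat.size (l x).length)) →
    TC P T (fun x => swapL d (Q x) (wH x) (wD x) (l x)) := by
  obtain ⟨W, m, Den, Pg, ρ, s, hW, hm, hP, hc, hWs, hs⟩ := exists_prog
  obtain ⟨k, hrec⟩ := h W m Den Pg ρ s hW hm hP hc hWs
  obtain ⟨k', hbits⟩ := swap_bits (R := Den + 1) hrec
  have hR : 2 ≤ Den + 1 := Nat.succ_le_succ hP.den_pos
  generalize Den + 1 = R at hbits hR
  refine ⟨k' + (W + 1 + k), fun {ι α} _ _ {P T Q wH wD} B d {l} hQ hH hD hl h hb1 hb2 => ?_⟩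
  have hle := fun x hx => geo_le (h x hx).2.1 (h x hx).1
  have hn : Bud P T (fun x => (l x).length) := (TU.length hl).bud
  have uQ : TU P T Q := TU.ofNat hQ (hn.mono fun x hx => (hle x hx).2.2.1)
  have uH : TU P T wH := TU.ofNat hH (hn.mono fun x hx => (hle x hx).2.2.2.1)
  have uD : TU P T wD := TU.ofNat hD (hn.mono fun x hx => (hle x hx).2.2.2.2)
  set E : ι → ℕ := fun x => Nat.log R (Q x) + 1 with hEdef
  have hE : ∀ x, P x → E x ≤ Nat.size (Q x) := fun x hx => log_succ_le_size hR (h x hx).2.1.hq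
  have hQS : ∀ x, P x → Nat.size (Q x) ≤ Nat.size (l x).length := fun x hx =>
    Nat.size_le_size (hle x hx).2.2.1
  have uE : TU P T E :=
    (TU.ofNat (uQ.pt (g := fun q => Nat.log R q) (PTF.natLog (PTF.const R) PTF.id))
      (uQ.bud.mono fun x _ => Nat.log_le_self _ _)).add (TU.const 1)
  have uDp : TU P T (fun x => dep m (E x)) :=
    TU.ofNat (uE.pt (ptf_dep m))
      (uE.bud.mono fun x _ => (dep_le_size hm _).trans (size_le_self _))
  have hO : ∀ j, j ≤ W + 1 + k →
      Bud P T (fun x => (l x).length * (Nat.size (l x).length + 1) ^ j) := fun j hj =>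
    hb2.mono fun x _ => ovh_mono (k := j) (by omega) le_rfl le_rfl
  have hWD : ∀ x, P x → W ^ dep m (E x) ≤ m ^ W * (Nat.size (l x).length + 1) ^ W := fun x hx =>
    wpow_dep_le W hm (Nat.succ_le_succ ((hE x hx).trans (hQS x hx)))
  have hpw1 : ∀ x, 1 ≤ pw tauA (Nat.size (Q x) + 1) := fun x => one_le_pw _ (Nat.succ_pos _)
  have hpw2 : ∀ x, P x → pw tauA (Nat.size (Q x) + 1) ≤ Nat.size (l x).length + 1 := fun x hx =>
    (pw_le_self tauA_pos tauA_le_one _).trans (Nat.succ_le_succ (hQS x hx))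
  have hb0 : Bud P T (fun x => (l x).length * (B x + 1)) :=
    hb1.mono fun x _ => Nat.le_mul_of_pos_right _ (hpw1 x)
  have hM : ∀ x, P x → Wr.maxSz (l x) ≤ B x := fun x hx => Wr.maxSz_le (h x hx).2.2
  have uM : TU P T (fun x => Wr.maxSz (l x)) :=
    Wr.tu_maxSz hl (hb0.mono fun x hx => Nat.mul_le_mul_left _ ((hM x hx).trans (Nat.le_succ _)))
  have hnW : Bud P T (fun x => (l x).length * W ^ dep m (E x)) :=
    ((hO W (by omega)).const_mul (m ^ W)).mono fun x hx => by
      calc _ ≤ (l x).length * (m ^ W * (Nat.size (l x).length + 1) ^ W) :=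
            Nat.mul_le_mul_left _ (hWD x hx)
        _ = _ := by ring
  have uWD : TU P T (fun x => W ^ dep m (E x)) :=
    (TU.const W).pow uDp (hnW.mono fun x hx => Nat.le_mul_of_pos_left _ (h x hx).1)
  set z0 : ι → ℕ := fun x => (2 * Wr.maxSz (l x) + 1) / W ^ dep m (E x) + 1 with hz0
  have hZ1 : ∀ x, 2 * Wr.maxSz (l x) + 1 ≤ z0 x * W ^ dep m (E x) := fun x =>
    (Nat.lt_div_mul_add (a := 2 * Wr.maxSz (l x) + 1) (Nat.pow_pos (n := dep m (E x)) hW)).le.trans
      (by simp only [hz0]; rw [Nat.add_mul, Nat.one_mul])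
  have hZ2 : ∀ x, P x → z0 x * W ^ dep m (E x) ≤ 2 * (B x + 1) + W ^ dep m (E x) := fun x hx => by
    have h1 := Nat.div_mul_le_self (2 * Wr.maxSz (l x) + 1) (W ^ dep m (E x))
    have h2 := hM x hx
    simp only [hz0]
    rw [Nat.add_mul, Nat.one_mul]
    omega
  have hnZ : Bud P T (fun x => (l x).length * (z0 x * W ^ dep m (E x))) :=
    ((hb0.const_mul 2).add hnW).mono fun x hx => by
      calc _ ≤ (l x).length * (2 * (B x + 1) + W ^ dep m (E x)) :=
            Nat.mul_le_mul_left _ (hZ2 x hx)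
        _ = _ := by ring
  have uz0 : TU P T z0 := ((((uM.const_mul 2).add (TU.const 1)).div uWD).add (TU.const 1))
  have uZ : TU P T (fun x => z0 x * W ^ dep m (E x)) :=
    uz0.mul uWD (hnZ.mono fun x hx => Nat.le_mul_of_pos_left _ (h x hx).1)
  refine Wr.tc_swapL_of_wrap d (Z := fun x => z0 x * W ^ dep m (E x)) (fun x hx => (h x hx).2.1) ?_
  refine hbits z0 uQ uH uD uE uZ (Wr.tc_wrapL uZ hl hnZ) (fun x hx => ?_) ?_ ?_ ?_
  · rw [Wr.length_wrapL]
    refine ⟨(h x hx).1, (h x hx).2.1, (Nat.lt_pow_succ_log_self hR _).le, ?_,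
      (Wr.shape_wrapL fun a ha => le_trans ?_ (hZ1 x)).2⟩
    · simp only [hEdef]
      rw [pow_succ, Nat.mul_comm]
      exact Nat.mul_le_mul_left _ (Nat.pow_log_le_self R (h x hx).2.1.hq.ne')
    · have := Wr.le_maxSz ha
      omega
  · simp only [Wr.length_wrapL]
    exact hb2.mono fun x _ => ovh_mono (by omega) le_rfl le_rfl
  · simp only [Wr.length_wrapL]
    exact (hnZ.add hn).mono fun x _ => by rw [Nat.mul_add, Nat.mul_one]
  · simp only [Wr.length_wrapL]
    refine (((hb1.const_mul (2 * m)).add ((hO (W + 1) (by omega)).const_mul (m * m ^ W))).add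
      ((hO (W + 1 + k) le_rfl).const_mul (m * m ^ W))).mono fun x hx => ?_
    have e1 := spow_dep_le hs hm (Nat.succ_le_succ (hE x hx))
    have e2 := hZ2 x hx
    have e3 := hWD x hx
    have e4 := hpw2 x hx
    generalize pw tauA (Nat.size (Q x) + 1) = p at *
    generalize Nat.size (l x).length + 1 = S at *
    generalize W ^ dep m (E x) = V at *
    calc s ^ dep m (E x) * ((l x).length * (z0 x + S ^ k))
        ≤ V * (m * p) * ((l x).length * (z0 x + S ^ k)) := Nat.mul_le_mul_right _ e1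
      _ = m * p * (l x).length * (z0 x * V) + m * (l x).length * S ^ k * (p * V) := by ring
      _ ≤ m * p * (l x).length * (2 * (B x + 1) + V) + m * (l x).length * S ^ k * (p * V) := by
          gcongr
      _ = 2 * m * ((l x).length * (B x + 1) * p) + m * (l x).length * (p * V) +
            m * (l x).length * S ^ k * (p * V) := by ring
      _ ≤ 2 * m * ((l x).length * (B x + 1) * p) + m * (l x).length * (S * (m ^ W * S ^ W)) +
            m * (l x).length * S ^ k * (S * (m ^ W * S ^ W)) := by gcongr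
      _ = _ := by ring

end Tp

/-- **part A from its recursion** -/
theorem swap_of_rec (h : RecStatement) : SwapStatement tauA := by
  obtain ⟨k, hk⟩ := Tp.swap_pos h
  refine ⟨k, fun ι α _ _ P T Q wH wD B d l hQ hH hD hl h hb => ?_⟩
  have h1 : TC (fun x => P x ∧ ¬ (l x).length = 0) T
      (fun x => swapL d (Q x) (wH x) (wD x) (l x)) :=
    hk B d (hQ.restrict fun _ h => h.1) (hH.restrict fun _ h => h.1) (hD.restrict fun _ h => h.1)
      (hl.restrict fun _ h => h.1)
      (fun x hx => ⟨Nat.pos_of_ne_zero hx.2, (h x hx.1).1, (h x hx.1).2⟩)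
      ((hb.mono fun x _ => Nat.le_add_right _ _).restrict fun _ h => h.1)
      ((hb.mono fun x _ => Nat.le_add_left _ _).restrict fun _ h => h.1)
  refine (TC.ite' (p := fun x => (l x).length = 0) (TU.length hl).decide_eq_zero
    (TC.const ([] : List α)) h1).of_eq fun x => ?_
  split_ifs with h0
  · exact (List.eq_nil_of_length_eq_zero (by rw [length_swapL, h0])).symm
  · rfl

end Crest.Agent.X326.A
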