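import Mathlib
import Crest.Agent.X326.A.Defs

-- ▼ part X326/A/Idx
section

/-!
Row 326 (S0503), part M2: digits of flat indices.

`dig w q j` is the digit of weight `w` and range `q` of the index `j`; `setDig w q j v` replaces it
by `v`; `swapIdx q wH wD` interchanges the digits of weights `wH` and `wD`.
-/

set_option autoImplicit false

namespace Crest.Agent.X326.A

/-- the digit of weight `w` and range `q` -/
def dig (w q j : ℕ) : ℕ := j / w % q

/-- replace the digit of weight `w` and range `q` by `v` -/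
def setDig (w q j v : ℕ) : ℕ := j / (w * q) * (w * q) + v * w + j % w

/-- interchange the digits of weights `wH` and `wD` (both of range `q`) -/
def swapIdx (q wH wD j : ℕ) : ℕ := setDig wH q (setDig wD q j (dig wH q j)) (dig wD q j)

section basic

variable {w q j j' v w' q' M n : ℕ}

theorem dig_lt (hq : 0 < q) : dig w q j < q := Nat.mod_lt _ hq

theorem dig_eq_mod_div (w q j : ℕ) : dig w q j = j % (w * q) / w := by
  rw [dig, Nat.mod_mul_right_div_self]

theorem low_lt (hw : 0 < w) (hv : v < q) (j : ℕ) : v * w + j % w < w * q := by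
  have h1 : j % w < w := Nat.mod_lt _ hw
  have h2 : (v + 1) * w ≤ q * w := Nat.mul_le_mul_right _ hv
  nlinarith

theorem setDig_div (hw : 0 < w) (hv : v < q) : setDig w q j v / (w * q) = j / (w * q) := by
  have hq : 0 < w * q := Nat.mul_pos hw (by omega)
  rw [setDig, add_assoc, Nat.mul_comm (j / (w * q)), Nat.mul_add_div hq,
    Nat.div_eq_of_lt (low_lt hw hv j), add_zero]

theorem setDig_mod (w q j v : ℕ) : setDig w q j v % w = j % w := by
  have : setDig w q j v = j % w + w * (j / (w * q) * q + v) := by unfold setDig; ring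
  rw [this, Nat.add_mul_mod_self_left, Nat.mod_mod]

theorem setDig_mod_block (hw : 0 < w) (hv : v < q) :
    setDig w q j v % (w * q) = v * w + j % w := by
  rw [setDig, add_assoc, Nat.mul_comm (j / (w * q)), Nat.mul_add_mod,
    Nat.mod_eq_of_lt (low_lt hw hv j)]

theorem dig_setDig (hw : 0 < w) (hv : v < q) : dig w q (setDig w q j v) = v := by
  rw [dig_eq_mod_div, setDig_mod_block hw hv, Nat.mul_comm v, Nat.mul_add_div hw,
    Nat.div_eq_of_lt (Nat.mod_lt _ hw), add_zero]

theorem div_eq_of_dvd (h : w ∣ M) (e : j / w = j' / w) : j / M = j' / M := by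
  obtain ⟨c, rfl⟩ := h
  rw [← Nat.div_div_eq_div_mul, ← Nat.div_div_eq_div_mul, e]

theorem mod_eq_of_dvd (h : M ∣ w) (e : j % w = j' % w) : j % M = j' % M := by
  rw [← Nat.mod_mod_of_dvd j h, e, Nat.mod_mod_of_dvd j' h]

theorem dig_eq_of_div (h : w ∣ w') (e : j / w = j' / w) : dig w' q' j = dig w' q' j' := by
  rw [dig, dig, div_eq_of_dvd h e]

theorem dig_eq_of_mod (h : w' * q' ∣ w) (e : j % w = j' % w) : dig w' q' j = dig w' q' j' := by
  rw [dig_eq_mod_div, dig_eq_mod_div, mod_eq_of_dvd h e]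

theorem setDig_div_of_dvd (hw : 0 < w) (hv : v < q) (h : w * q ∣ M) :
    setDig w q j v / M = j / M := div_eq_of_dvd h (setDig_div hw hv)

theorem setDig_mod_of_dvd (h : M ∣ w) : setDig w q j v % M = j % M :=
  mod_eq_of_dvd h (setDig_mod w q j v)

theorem dig_setDig_hi (hw : 0 < w) (hv : v < q) (h : w * q ∣ w') :
    dig w' q' (setDig w q j v) = dig w' q' j := dig_eq_of_div h (setDig_div hw hv)

theorem dig_setDig_lo (h : w' * q' ∣ w) : dig w' q' (setDig w q j v) = dig w' q' j :=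
  dig_eq_of_mod h (setDig_mod w q j v)

theorem setDig_self (w q j : ℕ) : setDig w q j (dig w q j) = j := by
  have h1 := Nat.div_add_mod j (w * q)
  have h2 := Nat.div_add_mod (j % (w * q)) w
  rw [Nat.mod_mod_of_dvd j (Dvd.intro q rfl)] at h2
  rw [setDig, dig_eq_mod_div]
  nlinarith

theorem setDig_add (w q j v : ℕ) : setDig w q j v + dig w q j * w = j + v * w := by
  have := setDig_self w q j
  unfold setDig at *
  omega

theorem idx_ext (w q : ℕ) (h1 : j / (w * q) = j' / (w * q)) (h2 : dig w q j = dig w q j')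
    (h3 : j % w = j' % w) : j = j' := by
  rw [← setDig_self w q j, ← setDig_self w q j', setDig, setDig, h1, h2, h3]

theorem lt_of_div_eq (h : M ∣ n) (e : j' / M = j / M) (hj : j < n) : j' < n := by
  obtain ⟨c, rfl⟩ := h
  have hM : 0 < M := Nat.pos_of_ne_zero (by rintro rfl; simp at hj)
  have : j / M < c := (Nat.div_lt_iff_lt_mul hM).2 (by rwa [Nat.mul_comm])
  rw [← e] at this
  have := (Nat.div_lt_iff_lt_mul hM).1 this
  rwa [Nat.mul_comm]

theorem setDig_lt (hw : 0 < w) (hv : v < q) (h : w * q ∣ n) (hj : j < n) :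
    setDig w q j v < n := lt_of_div_eq h (setDig_div hw hv) hj

/-- digits of digits -/
theorem dig_dig (w Q a q j : ℕ) (h : a * q ∣ Q) : dig a q (dig w Q j) = dig (w * a) q j := by
  obtain ⟨c, rfl⟩ := h
  unfold dig
  rw [Nat.mul_assoc, Nat.mod_mul_right_div_self, Nat.mod_mod_of_dvd _ (Dvd.intro c rfl),
    Nat.div_div_eq_div_mul]

/-- a number below `q ^ m` is determined by its digits -/
theorem eq_of_digits {q : ℕ} : ∀ {m x y : ℕ}, x < q ^ m → y < q ^ m →
    (∀ k < m, dig (q ^ k) q x = dig (q ^ k) q y) → x = y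
  | 0, x, y, hx, hy, _ => by simp at hx hy; omega
  | m + 1, x, y, hx, hy, h => by
    have hq : 0 < q := Nat.pos_of_ne_zero (by rintro rfl; simp at hx)
    have hp : 0 < q ^ m := pow_pos hq m
    refine idx_ext (q ^ m) q ?_ (h m (by omega)) ?_
    · rw [← pow_succ, Nat.div_eq_of_lt hx, Nat.div_eq_of_lt hy]
    · refine eq_of_digits (m := m) (Nat.mod_lt _ hp) (Nat.mod_lt _ hp) fun k hk => ?_
      have hd : q ^ k * q ∣ q ^ m := by rw [← pow_succ]; exact pow_dvd_pow _ hk
      rw [dig_eq_of_mod hd (Nat.mod_mod x _), dig_eq_of_mod hd (Nat.mod_mod y _)]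
      exact h k (by omega)

/-- strict monotonicity of a digit replacement -/
theorem setDig_lt_setDig {u u' : ℕ} (hw : 0 < w) (hu : u < q) (hj : j < j')
    (h1 : j / (w * q) = j' / (w * q) → dig w q j < dig w q j' → u < u')
    (h2 : j / (w * q) = j' / (w * q) → dig w q j = dig w q j' → u = u') :
    setDig w q j u < setDig w q j' u' := by
  have hq : 0 < w * q := Nat.mul_pos hw (by omega)
  rcases (Nat.div_le_div_right (c := w * q) hj.le).lt_or_eq with hlt | heq
  · have a1 := low_lt hw hu j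
    have a2 : (j / (w * q) + 1) * (w * q) ≤ j' / (w * q) * (w * q) := Nat.mul_le_mul_right _ hlt
    unfold setDig
    rw [Nat.add_mul, Nat.one_mul] at a2
    omega
  · have e1 := setDig_self w q j
    have e2 := setDig_self w q j'
    have b1 : j % w < w := Nat.mod_lt _ hw
    have b2 : j' % w < w := Nat.mod_lt _ hw
    unfold setDig at *
    rw [heq] at e1 ⊢
    rcases lt_trichotomy (dig w q j) (dig w q j') with hd | hd | hd
    · have a2 : (u + 1) * w ≤ u' * w := Nat.mul_le_mul_right _ (h1 heq hd)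
      rw [Nat.add_mul, Nat.one_mul] at a2
      omega
    · rw [h2 heq hd]
      rw [hd] at e1
      omega
    · have a2 : (dig w q j' + 1) * w ≤ dig w q j * w := Nat.mul_le_mul_right _ hd
      rw [Nat.add_mul, Nat.one_mul] at a2
      omega

end basic

section swap

variable {q wH wD j j' n M : ℕ}

theorem swapIdx_div (hq : 0 < q) (hD : 0 < wD) (hH : 0 < wH) (h : wD * q ∣ wH) :
    swapIdx q wH wD j / (wH * q) = j / (wH * q) := by
  rw [swapIdx, setDig_div hH (dig_lt hq),
    setDig_div_of_dvd hD (dig_lt hq) (Dvd.dvd.mul_right h q)]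

theorem swapIdx_mod (h : wD * q ∣ wH) : swapIdx q wH wD j % wD = j % wD := by
  rw [swapIdx, setDig_mod_of_dvd (Dvd.dvd.trans (Dvd.intro q rfl) h), setDig_mod]

theorem dig_swapIdx_H (hq : 0 < q) (hH : 0 < wH) : dig wH q (swapIdx q wH wD j) = dig wD q j :=
  dig_setDig hH (dig_lt hq)

theorem dig_swapIdx_D (hq : 0 < q) (hD : 0 < wD) (h : wD * q ∣ wH) :
    dig wD q (swapIdx q wH wD j) = dig wH q j := by
  rw [swapIdx, dig_setDig_lo h, dig_setDig hD (dig_lt hq)]

/-- digits strictly between the two interchanged digits do not move -/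
theorem dig_swapIdx_mid {w' q' : ℕ} (hq : 0 < q) (hD : 0 < wD) (h1 : wD * q ∣ w')
    (h2 : w' * q' ∣ wH) : dig w' q' (swapIdx q wH wD j) = dig w' q' j := by
  rw [swapIdx, dig_setDig_lo h2, dig_setDig_hi hD (dig_lt hq) h1]

theorem dig_swapIdx_hi {w' q' : ℕ} (hq : 0 < q) (hD : 0 < wD) (hH : 0 < wH) (h : wD * q ∣ wH)
    (h1 : wH * q ∣ w') : dig w' q' (swapIdx q wH wD j) = dig w' q' j :=
  dig_eq_of_div h1 (swapIdx_div hq hD hH h)

theorem dig_swapIdx_lo {w' q' : ℕ} (h : wD * q ∣ wH) (h1 : w' * q' ∣ wD) :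
    dig w' q' (swapIdx q wH wD j) = dig w' q' j :=
  dig_eq_of_mod h1 (swapIdx_mod h)

theorem swapIdx_lt (hq : 0 < q) (hD : 0 < wD) (hH : 0 < wH) (h : wD * q ∣ wH) (hn : wH * q ∣ n)
    (hj : j < n) : swapIdx q wH wD j < n :=
  lt_of_div_eq hn (swapIdx_div hq hD hH h) hj

theorem swapIdx_add (hq : 0 < q) (hD : 0 < wD) (h : wD * q ∣ wH) :
    swapIdx q wH wD j + dig wH q j * wH + dig wD q j * wD =
      j + dig wD q j * wH + dig wH q j * wD := by
  have h1 := setDig_add wH q (setDig wD q j (dig wH q j)) (dig wD q j)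
  have h2 := setDig_add wD q j (dig wH q j)
  rw [dig_setDig_hi hD (dig_lt hq) h] at h1
  unfold swapIdx
  omega

/-- the interchange is strictly increasing on the indices with given values of both digits -/
theorem swapIdx_lt_swapIdx (hq : 0 < q) (hD : 0 < wD) (h : wD * q ∣ wH) (hj : j < j')
    (e1 : dig wH q j = dig wH q j') (e2 : dig wD q j = dig wD q j') :
    swapIdx q wH wD j < swapIdx q wH wD j' := by
  have h1 := swapIdx_add (j := j) hq hD h
  have h2 := swapIdx_add (j := j') hq hD h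
  rw [e1, e2] at h1
  omega

/-- extensionality for indices with two distinguished digits -/
theorem idx_ext₂ (q wH wD : ℕ) (h : wD * q ∣ wH) (h1 : j / (wH * q) = j' / (wH * q))
    (h2 : dig wH q j = dig wH q j')
    (h3 : dig (wD * q) (wH / (wD * q)) j = dig (wD * q) (wH / (wD * q)) j')
    (h4 : dig wD q j = dig wD q j') (h5 : j % wD = j' % wD) : j = j' := by
  refine idx_ext wH q h1 h2 ?_
  have e : wD * q * (wH / (wD * q)) = wH := Nat.mul_div_cancel' h
  refine idx_ext wD q ?_ ?_ ?_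
  · rw [dig_eq_mod_div, dig_eq_mod_div, e] at h3
    exact h3
  · rw [dig_eq_of_mod h (Nat.mod_mod j _), dig_eq_of_mod h (Nat.mod_mod j' _), h4]
  · have hd : wD ∣ wH := Dvd.dvd.trans (Dvd.intro q rfl) h
    rw [Nat.mod_mod_of_dvd _ hd, Nat.mod_mod_of_dvd _ hd, h5]

theorem swapIdx_one (wH wD j : ℕ) : swapIdx 1 wH wD j = j := by
  have h : ∀ w j, dig w 1 j = 0 := fun w j => Nat.mod_one _
  have h' : ∀ w j, setDig w 1 j 0 = j := fun w j => by
    have := setDig_self w 1 j
    rwa [h] at this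
  rw [swapIdx, h, h, h', h']

/-- an interchange of range `a * b` is the interchange of the low parts (range `a`) and of the high
parts (range `b`) -/
theorem swapIdx_mul {a b : ℕ} (ha : 0 < a) (hb : 0 < b) (hD : 0 < wD) (hH : 0 < wH)
    (h : wD * (a * b) ∣ wH) (j : ℕ) :
    swapIdx (a * b) wH wD j = swapIdx a wH wD (swapIdx b (wH * a) (wD * a) j) := by
  have hab : 0 < a * b := Nat.mul_pos ha hb
  have hDa : 0 < wD * a := Nat.mul_pos hD ha
  have hHa : 0 < wH * a := Nat.mul_pos hH ha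
  have h0 : wD * a * b ∣ wH := by rwa [Nat.mul_assoc]
  have h1 : wD * a ∣ wH := Dvd.dvd.trans (Dvd.intro b rfl) h0
  have h2 : wD * a * b ∣ wH * a := Dvd.dvd.mul_right h0 a
  have lowd : ∀ w x, dig w a x = dig 1 a (dig w (a * b) x) := fun w x => by
    rw [dig_dig w (a * b) 1 a x (by simp), Nat.mul_one]
  have highd : ∀ w x, dig (w * a) b x = dig a b (dig w (a * b) x) := fun w x => by
    rw [dig_dig w (a * b) a b x dvd_rfl]
  have split : ∀ w w' x y, dig w a x = dig w' a y → dig (w * a) b x = dig (w' * a) b y →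
      dig w (a * b) x = dig w' (a * b) y := fun w w' x y e1 e2 => by
    rw [lowd, lowd w'] at e1
    rw [highd, highd w'] at e2
    refine idx_ext a b ?_ e2 ?_
    · rw [Nat.div_eq_of_lt (dig_lt hab), Nat.div_eq_of_lt (dig_lt hab)]
    · simpa [dig] using e1
  refine idx_ext₂ (a * b) wH wD h ?_ ?_ ?_ ?_ ?_
  · rw [swapIdx_div hab hD hH h, ← Nat.mul_assoc,
      div_eq_of_dvd (Dvd.intro b rfl) (swapIdx_div ha hD hH h1), swapIdx_div hb hDa hHa h2]
  · rw [dig_swapIdx_H hab hH]
    refine split _ _ _ _ ?_ ?_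
    · rw [dig_swapIdx_H ha hH, dig_swapIdx_lo h2 dvd_rfl]
    · rw [dig_swapIdx_hi ha hD hH h1 dvd_rfl, dig_swapIdx_H hb hHa]
  · have e : wD * (a * b) * (wH / (wD * (a * b))) = wH := Nat.mul_div_cancel' h
    rw [dig_swapIdx_mid hab hD dvd_rfl (by rw [e]),
      dig_swapIdx_mid ha hD (by rw [← Nat.mul_assoc]; exact Dvd.intro b rfl) (by rw [e]),
      dig_swapIdx_mid hb hDa (by rw [Nat.mul_assoc]) (by rw [e]; exact Dvd.intro a rfl)]
  · rw [dig_swapIdx_D hab hD h]
    refine split _ _ _ _ ?_ ?_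
    · rw [dig_swapIdx_D ha hD h1, dig_swapIdx_mid hb hDa h0 dvd_rfl]
    · rw [dig_swapIdx_mid ha hD dvd_rfl h0, dig_swapIdx_D hb hDa h2]
  · rw [swapIdx_mod h, swapIdx_mod h1, mod_eq_of_dvd (Dvd.intro a rfl) (swapIdx_mod h2)]

end swap

end Crest.Agent.X326.A
end

-- ▼ part X326/A/View
section

/-!
Row 326 (S0503), part M2: addresses of flat indices.

A flat index `j` has `2 m` fields of range `q`: `H_i` has weight `wH * q ^ (m - 1 - i)` and `D_j`
has weight `wD * q ^ (m - 1 - j)`.  The free address operations become explicit index maps.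
-/

set_option autoImplicit false

namespace Crest.Agent.X326.A

/-- the geometry of a call: two groups of range `Q` with weights `wH`, `wD` in an array of
length `n` -/
structure Geo (Q wH wD n : ℕ) : Prop where
  hq : 0 < Q
  hD : 0 < wD
  hH : 0 < wH
  h1 : wD * Q ∣ wH
  h2 : wH * Q ∣ n

/-- weight of a field -/
def wt {m : ℕ} (q wH wD : ℕ) : Fld m → ℕ
  | .inl i => wH * q ^ (m - 1 - i)
  | .inr j => wD * q ^ (m - 1 - j)

/-- the address of a flat index -/
def addrOf (m q wH wD j : ℕ) : Addr m q := fun f => (dig (wt q wH wD f) q j : ZMod q)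

/-- the spectator part of a flat index -/
def restOf (Q wH wD j : ℕ) : ℕ × ℕ × ℕ :=
  (j / (wH * Q), dig (wD * Q) (wH / (wD * Q)) j, j % wD)

/-- a natural number representing the integer `c` modulo `q` -/
def coefN (q : ℕ) (c : ℤ) : ℕ := if 0 ≤ c then c.natAbs else c.natAbs * (q - 1)

/-- division by `b` modulo `q` (for `q ≡ 1 (mod b)`) -/
def divN (q b x : ℕ) : ℕ := (x + (b - x % b) % b * q) / b

/-- the index map of a free operation -/
def opIdx {m : ℕ} (q wH wD : ℕ) : FOp m → ℕ → ℕ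
  | .rot t s c, j => setDig (wt q wH wD t) q j
      ((dig (wt q wH wD t) q j + coefN q c * dig (wt q wH wD s) q j) % q)
  | .mul t b, j => setDig (wt q wH wD t) q j (b * dig (wt q wH wD t) q j % q)
  | .div t b, j => setDig (wt q wH wD t) q j (divN q b (dig (wt q wH wD t) q j))
  | .neg t, j => setDig (wt q wH wD t) q j ((q - dig (wt q wH wD t) q j) % q)

section

variable {m q wH wD n j j' v : ℕ}

theorem pow_mul_dvd_pow (q : ℕ) {a b : ℕ} (h : a < b) : q ^ a * q ∣ q ^ b := by
  rw [← pow_succ]; exact pow_dvd_pow _ h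

theorem wt_pos (hq : 0 < q) (hD : 0 < wD) (hH : 0 < wH) (t : Fld m) : 0 < wt q wH wD t := by
  rcases t with i | j
  · exact Nat.mul_pos hH (pow_pos hq _)
  · exact Nat.mul_pos hD (pow_pos hq _)

theorem wt_inr_dvd (q wH wD : ℕ) (j : Fin m) : wt q wH wD (.inr j) * q ∣ wD * q ^ m := by
  have := j.2
  rw [wt, Nat.mul_assoc]
  exact Nat.mul_dvd_mul_left _ (pow_mul_dvd_pow q (by omega))

theorem wt_inl_dvd (q wH wD : ℕ) (i : Fin m) : wt q wH wD (.inl i) * q ∣ wH * q ^ m := by
  have := i.2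
  rw [wt, Nat.mul_assoc]
  exact Nat.mul_dvd_mul_left _ (pow_mul_dvd_pow q (by omega))

theorem dvd_wt_inl (q wH wD : ℕ) (i : Fin m) : wH ∣ wt q wH wD (.inl i) := Dvd.intro _ rfl

theorem dvd_wt_inr (q wH wD : ℕ) (j : Fin m) : wD ∣ wt q wH wD (.inr j) := Dvd.intro _ rfl

theorem wt_dvd_top (h1 : wD * q ^ m ∣ wH) (t : Fld m) : wt q wH wD t * q ∣ wH * q ^ m := by
  rcases t with i | j
  · exact wt_inl_dvd q wH wD i
  · exact ((wt_inr_dvd q wH wD j).trans h1).mul_right _

theorem dvd_wt (h1 : wD * q ^ m ∣ wH) (t : Fld m) : wD ∣ wt q wH wD t := by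
  rcases t with i | j
  · exact ((Dvd.intro _ rfl).trans h1).trans (dvd_wt_inl q wH wD i)
  · exact dvd_wt_inr q wH wD j

theorem wt_dvd_of_pos_lt (h1 : wD * q ^ m ∣ wH) {s t : Fld m} (h : s.pos < t.pos) :
    wt q wH wD t * q ∣ wt q wH wD s := by
  rcases s with i | j <;> rcases t with i' | j'
  · have := i'.2
    simp only [Fld.pos] at h
    simp only [wt, Nat.mul_assoc]
    exact Nat.mul_dvd_mul_left _ (pow_mul_dvd_pow q (by omega))
  · exact ((wt_inr_dvd q wH wD j').trans h1).trans (dvd_wt_inl q wH wD i)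
  · have := i'.2
    simp only [Fld.pos] at h
    omega
  · have := j'.2
    simp only [Fld.pos] at h
    simp only [wt, Nat.mul_assoc]
    exact Nat.mul_dvd_mul_left _ (pow_mul_dvd_pow q (by omega))

theorem Fld.pos_inj {s t : Fld m} (h : s.pos = t.pos) : s = t := by
  rcases s with i | j <;> rcases t with i' | j' <;> simp only [Fld.pos] at h
  · exact congrArg _ (Fin.ext h)
  · have := i.2; omega
  · have := i'.2; omega
  · exact congrArg _ (Fin.ext (by omega))

theorem dig_setDig_ne (hq : 0 < q) (hD : 0 < wD) (hH : 0 < wH) (h1 : wD * q ^ m ∣ wH)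
    (hv : v < q) {s t : Fld m} (h : s ≠ t) :
    dig (wt q wH wD s) q (setDig (wt q wH wD t) q j v) = dig (wt q wH wD s) q j := by
  rcases lt_trichotomy s.pos t.pos with hl | he | hl
  · exact dig_setDig_hi (wt_pos hq hD hH t) hv (wt_dvd_of_pos_lt h1 hl)
  · exact absurd (Fld.pos_inj he) h
  · exact dig_setDig_lo (wt_dvd_of_pos_lt h1 hl)

theorem addrOf_setDig (hq : 0 < q) (hD : 0 < wD) (hH : 0 < wH) (h1 : wD * q ^ m ∣ wH)
    (hv : v < q) (t : Fld m) :
    addrOf m q wH wD (setDig (wt q wH wD t) q j v) =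
      Function.update (addrOf m q wH wD j) t (v : ZMod q) := by
  funext s
  by_cases h : s = t
  · subst h
    rw [Function.update_self, addrOf, dig_setDig (wt_pos hq hD hH s) hv]
  · rw [Function.update_of_ne h, addrOf, addrOf, dig_setDig_ne hq hD hH h1 hv h]

theorem restOf_setDig (hq : 0 < q) (hD : 0 < wD) (hH : 0 < wH) (h1 : wD * q ^ m ∣ wH)
    (hv : v < q) (t : Fld m) :
    restOf (q ^ m) wH wD (setDig (wt q wH wD t) q j v) = restOf (q ^ m) wH wD j := by
  have hw := wt_pos hq hD hH t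
  have e : wD * q ^ m * (wH / (wD * q ^ m)) = wH := Nat.mul_div_cancel' h1
  unfold restOf
  rw [setDig_div_of_dvd hw hv (wt_dvd_top h1 t), setDig_mod_of_dvd (dvd_wt h1 t)]
  rcases t with i | j
  · rw [dig_setDig_lo (by rw [e]; exact dvd_wt_inl q wH wD i)]
  · rw [dig_setDig_hi hw hv (wt_inr_dvd q wH wD j)]

theorem setDig_wt_lt (hq : 0 < q) (g : Geo (q ^ m) wH wD n) (hv : v < q) (t : Fld m)
    (hj : j < n) : setDig (wt q wH wD t) q j v < n :=
  setDig_lt (wt_pos hq g.hD g.hH t) hv ((wt_dvd_top g.h1 t).trans g.h2) hj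

theorem natCast_inj_of_lt {x y : ℕ} (hx : x < q) (hy : y < q) (h : (x : ZMod q) = y) : x = y := by
  have := (ZMod.natCast_eq_natCast_iff' x y q).1 h
  rwa [Nat.mod_eq_of_lt hx, Nat.mod_eq_of_lt hy] at this

theorem idx_eq_of_addr (hq : 0 < q) (h1 : wD * q ^ m ∣ wH)
    (ha : addrOf m q wH wD j = addrOf m q wH wD j')
    (hr : restOf (q ^ m) wH wD j = restOf (q ^ m) wH wD j') : j = j' := by
  have hp : 0 < q ^ m := pow_pos hq m
  simp only [restOf, Prod.mk.injEq] at hr
  have hd : ∀ f, dig (wt q wH wD f) q j = dig (wt q wH wD f) q j' := fun f =>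
    natCast_inj_of_lt (dig_lt hq) (dig_lt hq) (congrFun ha f)
  refine idx_ext₂ (q ^ m) wH wD h1 hr.1 ?_ hr.2.1 ?_ hr.2.2
  · refine eq_of_digits (dig_lt hp) (dig_lt hp) fun k hk => ?_
    rw [dig_dig _ _ _ _ _ (pow_mul_dvd_pow q hk), dig_dig _ _ _ _ _ (pow_mul_dvd_pow q hk)]
    have := hd (.inl ⟨m - 1 - k, by omega⟩)
    simp only [wt] at this
    rwa [show m - 1 - (m - 1 - k) = k by omega] at this
  · refine eq_of_digits (dig_lt hp) (dig_lt hp) fun k hk => ?_
    rw [dig_dig _ _ _ _ _ (pow_mul_dvd_pow q hk), dig_dig _ _ _ _ _ (pow_mul_dvd_pow q hk)]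
    have := hd (.inr ⟨m - 1 - k, by omega⟩)
    simp only [wt] at this
    rwa [show m - 1 - (m - 1 - k) = k by omega] at this

theorem coefN_cast (hq : 0 < q) (c : ℤ) : (coefN q c : ZMod q) = (c : ZMod q) := by
  unfold coefN
  split_ifs with h
  · conv_rhs => rw [← Int.natAbs_of_nonneg h]
    rw [Int.cast_natCast]
  · have h' : c = -(c.natAbs : ℤ) := by omega
    conv_rhs => rw [h']
    rw [Nat.cast_mul, Nat.cast_sub hq, ZMod.natCast_self]
    simp

theorem divN_spec {b x : ℕ} (hb : 0 < b) (hqb : q ≡ 1 [MOD b]) :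
    b * divN q b x = x + (b - x % b) % b * q := by
  refine Nat.mul_div_cancel' ?_
  have h1 : x + (b - x % b) % b * q ≡ x % b + (b - x % b) * 1 [MOD b] :=
    (Nat.mod_modEq x b).symm.add ((Nat.mod_modEq _ b).mul hqb)
  have h2 : x % b + (b - x % b) * 1 = b := by
    have := Nat.mod_lt x hb
    omega
  rw [h2] at h1
  exact (Nat.modEq_zero_iff_dvd).1 (h1.trans ((Nat.modEq_zero_iff_dvd).2 dvd_rfl))

theorem divN_lt {b x : ℕ} (hb : 0 < b) (hx : x < q) : divN q b x < q := by
  rw [divN, Nat.div_lt_iff_lt_mul hb]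
  have h1 : (b - x % b) % b + 1 ≤ b := Nat.mod_lt _ hb
  have h2 : ((b - x % b) % b + 1) * q ≤ b * q := Nat.mul_le_mul_right _ h1
  rw [Nat.add_mul, Nat.one_mul, Nat.mul_comm b q] at h2
  omega

theorem divN_cast {b x : ℕ} (hb : 0 < b) (hqb : q ≡ 1 [MOD b]) :
    (divN q b x : ZMod q) = (b : ZMod q)⁻¹ * x := by
  have h := congrArg (Nat.cast : ℕ → ZMod q) (divN_spec (x := x) hb hqb)
  simp only [Nat.cast_mul, Nat.cast_add, ZMod.natCast_self, mul_zero, add_zero] at h
  have hc : Nat.Coprime b q := by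
    have : Nat.gcd q b = Nat.gcd 1 b := hqb.gcd_eq
    rw [Nat.Coprime, Nat.gcd_comm, this, Nat.gcd_one_left]
  have hu : (b : ZMod q)⁻¹ * b = 1 := by
    rw [mul_comm]; exact ZMod.coe_mul_inv_eq_one b hc
  rw [← h, ← mul_assoc, hu, one_mul]

theorem divN_lt_divN {b x y : ℕ} (hb : 0 < b) (hqb : q ≡ 1 [MOD b]) (hxy : x < y)
    (h : x % b = y % b) : divN q b x < divN q b y := by
  have h1 := divN_spec (x := x) hb hqb
  have h2 := divN_spec (x := y) hb hqb
  rw [h] at h1
  refine Nat.lt_of_mul_lt_mul_left (a := b) ?_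
  omega

/-- target field and new value of an operation -/
theorem opIdx_eq {Den : ℕ} (hq : 0 < q) (hDen : 0 < Den) (hqD : q ≡ 1 [MOD Den]) (op : FOp m)
    (hop : op.ok Den) (j : ℕ) : ∃ (t : Fld m) (v : ℕ), v < q ∧
      opIdx q wH wD op j = setDig (wt q wH wD t) q j v ∧
      op.app q (addrOf m q wH wD j) = Function.update (addrOf m q wH wD j) t (v : ZMod q) := by
  rcases op with ⟨t, s, c⟩ | ⟨t, b⟩ | ⟨t, b⟩ | t
  · refine ⟨t, _, Nat.mod_lt _ hq, rfl, ?_⟩
    simp [FOp.app, addrOf, coefN_cast hq]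
  · refine ⟨t, _, Nat.mod_lt _ hq, rfl, ?_⟩
    simp [FOp.app, addrOf]
  · have hb : 0 < b := Nat.pos_of_dvd_of_pos hop hDen
    refine ⟨t, _, divN_lt hb (dig_lt hq), rfl, ?_⟩
    rw [divN_cast hb (hqD.of_dvd hop)]
    simp [FOp.app, addrOf]
  · refine ⟨t, _, Nat.mod_lt _ hq, rfl, ?_⟩
    rw [ZMod.natCast_mod, Nat.cast_sub (dig_lt hq).le, ZMod.natCast_self]
    simp [FOp.app, addrOf]

theorem addrOf_opIdx {Den : ℕ} (hq : 0 < q) (g : Geo (q ^ m) wH wD n) (hDen : 0 < Den)
    (hqD : q ≡ 1 [MOD Den]) (op : FOp m) (hop : op.ok Den) (j : ℕ) :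
    addrOf m q wH wD (opIdx q wH wD op j) = op.app q (addrOf m q wH wD j) := by
  obtain ⟨t, v, hv, e1, e2⟩ := opIdx_eq (wH := wH) (wD := wD) hq hDen hqD op hop j
  rw [e1, e2, addrOf_setDig hq g.hD g.hH g.h1 hv]

theorem restOf_opIdx {Den : ℕ} (hq : 0 < q) (g : Geo (q ^ m) wH wD n) (hDen : 0 < Den)
    (hqD : q ≡ 1 [MOD Den]) (op : FOp m) (hop : op.ok Den) (j : ℕ) :
    restOf (q ^ m) wH wD (opIdx q wH wD op j) = restOf (q ^ m) wH wD j := by
  obtain ⟨t, v, hv, e1, -⟩ := opIdx_eq (wH := wH) (wD := wD) hq hDen hqD op hop j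
  rw [e1, restOf_setDig hq g.hD g.hH g.h1 hv]

theorem opIdx_lt {Den : ℕ} (hq : 0 < q) (g : Geo (q ^ m) wH wD n) (hDen : 0 < Den)
    (hqD : q ≡ 1 [MOD Den]) (op : FOp m) (hop : op.ok Den) (hj : j < n) :
    opIdx q wH wD op j < n := by
  obtain ⟨t, v, hv, e1, -⟩ := opIdx_eq (wH := wH) (wD := wD) hq hDen hqD op hop j
  rw [e1]
  exact setDig_wt_lt hq g hv t hj

/-- the geometry of a child call -/
theorem Geo.child (hq : 0 < q) (g : Geo (q ^ m) wH wD n) (a b : Fin m) :
    Geo q (wt q wH wD (.inl a)) (wt q wH wD (.inr b)) n where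
  hq := hq
  hD := wt_pos hq g.hD g.hH _
  hH := wt_pos hq g.hD g.hH _
  h1 := wt_dvd_of_pos_lt g.h1 (by have := a.2; simp only [Fld.pos]; omega)
  h2 := (wt_dvd_top g.h1 _).trans g.h2

theorem Geo.swapIdx_lt {Q : ℕ} (g : Geo Q wH wD n) (hj : j < n) : swapIdx Q wH wD j < n :=
  A.swapIdx_lt g.hq g.hD g.hH g.h1 g.h2 hj

theorem addrOf_swapIdx_child (hq : 0 < q) (g : Geo (q ^ m) wH wD n) (a b : Fin m) (j : ℕ) :
    addrOf m q wH wD (swapIdx q (wt q wH wD (.inl a)) (wt q wH wD (.inr b)) j) =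
      swapAddr a b (addrOf m q wH wD j) := by
  rw [swapIdx, addrOf_setDig hq g.hD g.hH g.h1 (dig_lt hq),
    addrOf_setDig hq g.hD g.hH g.h1 (dig_lt hq)]
  funext f
  simp only [swapAddr, Function.comp_apply]
  by_cases h1 : f = .inl a
  · subst h1
    simp [addrOf]
  · by_cases h2 : f = .inr b
    · subst h2
      simp [addrOf]
    · rw [Function.update_of_ne h1, Function.update_of_ne h2, Equiv.swap_apply_of_ne_of_ne h1 h2]

theorem restOf_swapIdx_child (hq : 0 < q) (g : Geo (q ^ m) wH wD n) (a b : Fin m) (j : ℕ) :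
    restOf (q ^ m) wH wD (swapIdx q (wt q wH wD (.inl a)) (wt q wH wD (.inr b)) j) =
      restOf (q ^ m) wH wD j := by
  rw [swapIdx, restOf_setDig hq g.hD g.hH g.h1 (dig_lt hq),
    restOf_setDig hq g.hD g.hH g.h1 (dig_lt hq)]

theorem addrOf_swapIdx (g : Geo (q ^ m) wH wD n) (j : ℕ) :
    addrOf m q wH wD (swapIdx (q ^ m) wH wD j) = addrOf m q wH wD j ∘ Sum.swap := by
  funext f
  rcases f with i | i
  · have hk : q ^ (m - 1 - i) * q ∣ q ^ m := pow_mul_dvd_pow q (by have := i.2; omega)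
    simp only [addrOf, wt, Function.comp_apply, Sum.swap_inl]
    rw [← dig_dig _ _ _ _ _ hk, ← dig_dig _ _ _ _ _ hk, dig_swapIdx_H g.hq g.hH]
  · have hk : q ^ (m - 1 - i) * q ∣ q ^ m := pow_mul_dvd_pow q (by have := i.2; omega)
    simp only [addrOf, wt, Function.comp_apply, Sum.swap_inr]
    rw [← dig_dig _ _ _ _ _ hk, ← dig_dig _ _ _ _ _ hk, dig_swapIdx_D g.hq g.hD g.h1]

theorem restOf_swapIdx {Q : ℕ} (g : Geo Q wH wD n) (j : ℕ) :
    restOf Q wH wD (swapIdx Q wH wD j) = restOf Q wH wD j := by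
  have e : wD * Q * (wH / (wD * Q)) = wH := Nat.mul_div_cancel' g.h1
  unfold restOf
  rw [swapIdx_div g.hq g.hD g.hH g.h1, swapIdx_mod g.h1,
    dig_swapIdx_mid g.hq g.hD dvd_rfl (by rw [e])]

end

end Crest.Agent.X326.A
private theorem rz_77913c5368 : type_of% @_root_.Crest.Agent.X326.A.wt.eq_1 := @_root_.Crest.Agent.X326.A.wt.eq_1 -- L25
end

-- ▼ part X326/A/Perm

/-!
Row 326 (S0503), part M2: pulling lists back along index maps.
-/

set_option autoImplicit false

namespace Crest.Agent.X326.A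

variable {α : Type}

/-- the list of length `n` whose entry `j` is the entry `σ j` of `l` (`d` when out of range) -/
def gath (n : ℕ) (σ : ℕ → ℕ) (d : α) (l : List α) : List α :=
  (List.range n).map fun j => l.getD (σ j) d

/-- pull a list back along an index map, keeping the length -/
def perm (d : α) (σ : ℕ → ℕ) (l : List α) : List α := gath l.length σ d l

/-- The target of part A: interchange the digits of range `Q` and weights `wH`, `wD`. -/
def swapL (d : α) (Q wH wD : ℕ) (l : List α) : List α := perm d (swapIdx Q wH wD) l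

/-- change of the block size from `B` to `B'` -/
def reblock (B B' j : ℕ) : ℕ := j / B * B' + j % B

/-- pad every block of size `B` to size `B'` with the record `d` -/
def padL (d : α) (B B' : ℕ) (l : List α) : List α :=
  gath (l.length / B * B') (fun j => if j % B' < B then j / B' * B + j % B' else l.length) d l

/-- keep the first `B` records of every block of size `B'` -/
def cutL (d : α) (B B' : ℕ) (l : List α) : List α :=
  gath (l.length / B' * B) (reblock B B') d l

@[simp] theorem length_gath (n : ℕ) (σ : ℕ → ℕ) (d : α) (l : List α) :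
    (gath n σ d l).length = n := by simp [gath]

@[simp] theorem length_perm (d : α) (σ : ℕ → ℕ) (l : List α) :
    (perm d σ l).length = l.length := by simp [perm]

@[simp] theorem length_swapL (d : α) (Q wH wD : ℕ) (l : List α) :
    (swapL d Q wH wD l).length = l.length := by simp [swapL]

theorem getD_gath {n j : ℕ} (σ : ℕ → ℕ) (d d' : α) (l : List α) (hj : j < n) :
    (gath n σ d l).getD j d' = l.getD (σ j) d := by
  simp [gath, List.getD_eq_getElem?_getD, hj]

theorem getD_perm {j : ℕ} (d d' : α) (σ : ℕ → ℕ) (l : List α) (hj : j < l.length) :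
    (perm d σ l).getD j d' = l.getD (σ j) d := getD_gath σ d d' l hj

theorem ext_getD (d : α) {l l' : List α} (h : l.length = l'.length)
    (h' : ∀ j < l.length, l.getD j d = l'.getD j d) : l = l' := by
  refine List.ext_getElem h fun j h1 h2 => ?_
  have := h' j h1
  rwa [List.getD_eq_getElem _ _ h1, List.getD_eq_getElem _ _ h2] at this

theorem getD_mem_of_lt {l : List α} {j : ℕ} (d : α) (hj : j < l.length) : l.getD j d ∈ l := by
  rw [List.getD_eq_getElem _ _ hj]; exact List.getElem_mem hj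

theorem getD_mem_or (l : List α) (j : ℕ) (d : α) : l.getD j d ∈ l ∨ l.getD j d = d := by
  by_cases hj : j < l.length
  · exact Or.inl (getD_mem_of_lt d hj)
  · exact Or.inr (List.getD_eq_default _ _ (by omega))

theorem mem_gath {n : ℕ} {σ : ℕ → ℕ} {d a : α} {l : List α} (h : a ∈ gath n σ d l) :
    a ∈ l ∨ a = d := by
  obtain ⟨j, -, rfl⟩ := List.mem_map.1 h
  exact getD_mem_or l _ d

theorem mem_gath_of_lt {n : ℕ} {σ : ℕ → ℕ} {d a : α} {l : List α}
    (hσ : ∀ j < n, σ j < l.length) (h : a ∈ gath n σ d l) : a ∈ l := by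
  obtain ⟨j, hj, rfl⟩ := List.mem_map.1 h
  exact getD_mem_of_lt d (hσ j (List.mem_range.1 hj))

theorem mem_perm {σ : ℕ → ℕ} {d a : α} {l : List α}
    (hσ : ∀ j < l.length, σ j < l.length) (h : a ∈ perm d σ l) : a ∈ l := mem_gath_of_lt hσ h

theorem gath_congr {n : ℕ} {σ σ' : ℕ → ℕ} (d : α) (l : List α) (h : ∀ j < n, σ j = σ' j) :
    gath n σ d l = gath n σ' d l :=
  List.map_congr_left fun j hj => by rw [h j (List.mem_range.1 hj)]

/-- the default record is irrelevant when the index map stays in range -/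
theorem gath_default {n : ℕ} {σ : ℕ → ℕ} (d d' : α) (l : List α)
    (h : ∀ j < n, σ j < l.length) : gath n σ d l = gath n σ d' l :=
  List.map_congr_left fun j hj => by
    have := h j (List.mem_range.1 hj)
    rw [List.getD_eq_getElem _ _ this, List.getD_eq_getElem _ _ this]

theorem gath_gath {n n' : ℕ} {σ σ' : ℕ → ℕ} (d d' : α) (l : List α) (h : ∀ j < n, σ j < n') :
    gath n σ d' (gath n' σ' d l) = gath n (fun j => σ' (σ j)) d l :=
  List.map_congr_left fun j hj => getD_gath σ' d d' l (h j (List.mem_range.1 hj))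

theorem perm_perm {σ σ' : ℕ → ℕ} (d : α) (l : List α) (h : ∀ j < l.length, σ j < l.length) :
    perm d σ (perm d σ' l) = perm d (fun j => σ' (σ j)) l := by
  rw [perm, length_perm]
  exact gath_gath d d l h

theorem perm_congr {σ σ' : ℕ → ℕ} (d : α) (l : List α) (h : ∀ j < l.length, σ j = σ' j) :
    perm d σ l = perm d σ' l := gath_congr d l h

theorem perm_id (d : α) (l : List α) : perm d (fun j => j) l = l :=
  ext_getD d (by simp) fun j hj => getD_perm d d _ l (by simpa using hj)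



theorem swapL_one (d : α) (wH wD : ℕ) (l : List α) : swapL d 1 wH wD l = l := by
  rw [swapL, perm_congr d l (σ' := fun j => j) (fun j _ => swapIdx_one wH wD j), perm_id]


/-- the interchange on the layout `[P][Q][G][Q][Z]` -/
theorem swapIdx_mk {Q G Z : ℕ} (p : ℕ) {h g e z : ℕ} (hh : h < Q) (hg : g < G) (he : e < Q)
    (hz : z < Z) :
    swapIdx Q (Z * Q * G) Z ((((p * Q + h) * G + g) * Q + e) * Z + z) =
      (((p * Q + e) * G + g) * Q + h) * Z + z := by
  have hQ : 0 < Q := by omega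
  have hZ : 0 < Z := by omega
  have hd : Z * Q ∣ Z * Q * G := Dvd.intro _ rfl
  have h1 := swapIdx_add (j := (((p * Q + h) * G + g) * Q + e) * Z + z) hQ hZ hd
  have d1 : ((((p * Q + h) * G + g) * Q + e) * Z + z) / Z = ((p * Q + h) * G + g) * Q + e := by
    rw [Nat.add_comm, Nat.add_mul_div_right _ _ hZ, Nat.div_eq_of_lt hz, Nat.zero_add]
  have d2 : (((p * Q + h) * G + g) * Q + e) / Q = (p * Q + h) * G + g := by
    rw [Nat.add_comm, Nat.add_mul_div_right _ _ hQ, Nat.div_eq_of_lt he, Nat.zero_add]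
  have d3 : ((p * Q + h) * G + g) / G = p * Q + h := by
    rw [Nat.add_comm, Nat.add_mul_div_right _ _ (by omega), Nat.div_eq_of_lt hg, Nat.zero_add]
  have e1 : dig Z Q ((((p * Q + h) * G + g) * Q + e) * Z + z) = e := by
    rw [dig, d1, Nat.add_comm, Nat.add_mul_mod_self_right, Nat.mod_eq_of_lt he]
  have e2 : dig (Z * Q * G) Q ((((p * Q + h) * G + g) * Q + e) * Z + z) = h := by
    rw [dig, ← Nat.div_div_eq_div_mul, ← Nat.div_div_eq_div_mul, d1, d2, d3, Nat.add_comm,
      Nat.add_mul_mod_self_right, Nat.mod_eq_of_lt hh]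
  rw [e1, e2] at h1
  have : (((p * Q + e) * G + g) * Q + h) * Z + z + h * (Z * Q * G) + e * Z =
      (((p * Q + h) * G + g) * Q + e) * Z + z + e * (Z * Q * G) + h * Z := by ring
  omega

/-- the specification of `swapL` on the layout `[P][Q][G][Q][Z]` -/
theorem getD_swapL {P Q G Z : ℕ} (d : α) {l : List α} (hl : l.length = P * Q * G * Q * Z)
    {p h g e z : ℕ} (hp : p < P) (hh : h < Q) (hg : g < G) (he : e < Q) (hz : z < Z) :
    (swapL d Q (Z * Q * G) Z l).getD ((((p * Q + h) * G + g) * Q + e) * Z + z) d =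
      l.getD ((((p * Q + e) * G + g) * Q + h) * Z + z) d := by
  have step : ∀ {a A b B : ℕ}, a < A → b < B → a * B + b < A * B := fun {a A b B} h1 h2 => by
    have : (a + 1) * B ≤ A * B := Nat.mul_le_mul_right _ h1
    rw [Nat.add_mul, Nat.one_mul] at this
    omega
  rw [swapL, getD_perm _ _ _ _ (by rw [hl]; exact step (step (step (step hp hh) hg) he) hz),
    swapIdx_mk p hh hg he hz]

theorem geo_mk {P Q G Z : ℕ} (hQ : 0 < Q) (hG : 0 < G) (hZ : 0 < Z) :
    Geo Q (Z * Q * G) Z (P * Q * G * Q * Z) where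
  hq := hQ
  hD := hZ
  hH := Nat.mul_pos (Nat.mul_pos hZ hQ) hG
  h1 := Dvd.intro _ rfl
  h2 := ⟨P, by ring⟩

end Crest.Agent.X326.A
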